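import Claimed.Agent.R285.Base.Flow

/-!
# ROW 285, layer FLOW: definitions of the bridge  raw map ([B] P8.3)  ==>  plane part of `Flow.MapOK`          (owner helper21)

Header, K1 verdicts and the list of theorems: `R285/Read/B10.lean`.  This file has DEFINITIONS ONLY (no `sorry`).
Everything is abstract analysis in complex Banach spaces.  Absolute index `j`, as in `Flow.Hist`.
-/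

set_option autoImplicit false

namespace Claimed.Agent.R285.B10

open Filter Topology

noncomputable section

/-! ## 1. The raw map -/

/-- constants of the raw map -/
structure RawC where
  /-- radius of the complex ball on which all `Φ j` are holomorphic -/
  ρ : ℝ
  θ : ℝ
  C : ℝ
  c : ℝ
  hρ : 0 < ρ
  hθ0 : 0 < θ
  hθ : θ < 1
  hC : 1 ≤ C
  hc : 0 < c

/-- the data of [B] P8.3 at the marginal reference coefficient, in the UNBALANCED coordinates `(t, z, R)` -/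
structure Raw where
  j0 : ℕ
  A : ℕ → Type
  [nA : ∀ j, NormedAddCommGroup (A j)]
  [sA : ∀ j, NormedSpace ℂ (A j)]
  [cA : ∀ j, CompleteSpace (A j)]
  Φ : ∀ j, ℂ × ℂ × A j → ℂ × ℂ × A (j + 1)
  Pt : ∀ j, A j →L[ℂ] ℂ
  Pz : ∀ j, A j →L[ℂ] ℂ
  Cc : ∀ j, A j →L[ℂ] A (j + 1)
  lam : ℕ → ℂ
  /-- half-period translation -/
  σ : ∀ j, A j →L[ℂ] A j
  /-- complex conjugation of activities -/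
  cj : ∀ j, A j → A j

attribute [instance] Raw.nA Raw.sA Raw.cA

/-- the half-period involution on states -/
def Raw.S (F : Raw) (j : ℕ) (X : ℂ × ℂ × F.A j) : ℂ × ℂ × F.A j := (X.1, -X.2.1, F.σ j X.2.2)

/-- complex conjugation on states -/
def Raw.K (F : Raw) (j : ℕ) (X : ℂ × ℂ × F.A j) : ℂ × ℂ × F.A j :=
  (starRingEnd ℂ X.1, starRingEnd ℂ X.2.1, F.cj j X.2.2)

/-- the triangular linear part [B] (8.15) -/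
def Raw.lin (F : Raw) (j : ℕ) (X : ℂ × ℂ × F.A j) : ℂ × ℂ × F.A (j + 1) :=
  (X.1 + F.Pt j X.2.2, F.lam j * X.2.1 + F.Pz j X.2.2, F.Cc j X.2.2)

/-- [B] P8.3 -/
structure RawOK (κ : RawC) (F : Raw) : Prop where
  an : ∀ j, F.j0 ≤ j → DifferentiableOn ℂ (F.Φ j) (Metric.ball 0 κ.ρ)
  quad : ∀ j, F.j0 ≤ j → ∀ X ∈ Metric.ball (0 : ℂ × ℂ × F.A j) κ.ρ, ‖F.Φ j X - F.lin j X‖ ≤ κ.C * ‖X‖ ^ 2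
  Pt_bd : ∀ j, F.j0 ≤ j → ‖F.Pt j‖ ≤ κ.C
  Pz_bd : ∀ j, F.j0 ≤ j → ‖F.Pz j‖ ≤ κ.C
  Cc_bd : ∀ j, F.j0 ≤ j → ‖F.Cc j‖ ≤ κ.θ
  lam_bd : ∀ j, F.j0 ≤ j → ‖F.lam j - 1‖ ≤ κ.C * Real.exp (-κ.c * j)
  /-- the starting scale is large -/
  lam_sm : κ.C * Real.exp (-κ.c * F.j0) / (1 - Real.exp (-κ.c)) ≤ 1 / 4
  lam_re : ∀ j, F.j0 ≤ j → (F.lam j).im = 0
  /-- at ALL indices (as in `Flow.MapOK.σQ_inv`, `σQ_iso`) -/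
  σ_inv : ∀ j R, F.σ j (F.σ j R) = R
  σ_bd : ∀ j R, ‖F.σ j R‖ ≤ ‖R‖
  par : ∀ j, F.j0 ≤ j → ∀ X ∈ Metric.ball (0 : ℂ × ℂ × F.A j) κ.ρ, F.Φ j (F.S j X) = F.S (j + 1) (F.Φ j X)
  cj_add : ∀ j, F.j0 ≤ j → ∀ R R', F.cj j (R + R') = F.cj j R + F.cj j R'
  cj_smul : ∀ j, F.j0 ≤ j → ∀ (a : ℂ) R, F.cj j (a • R) = starRingEnd ℂ a • F.cj j R
  cj_inv : ∀ j, F.j0 ≤ j → ∀ R, F.cj j (F.cj j R) = R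
  cj_bd : ∀ j, F.j0 ≤ j → ∀ R, ‖F.cj j R‖ ≤ ‖R‖
  real : ∀ j, F.j0 ≤ j → ∀ X ∈ Metric.ball (0 : ℂ × ℂ × F.A j) κ.ρ, F.Φ j (F.K j X) = F.K (j + 1) (F.Φ j X)

/-- a curve of states at every scale -/
abbrev Curve (F : Raw) : Type := ∀ j, ℂ → ℂ × ℂ × F.A j

/-- [B] L10.3: the exact curve of pure Gaussian states, parametrised by the coefficient shift `d` -/
structure CurveOK (ρ d0 : ℝ) (F : Raw) (g : Curve F) : Prop where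
  an : ∀ j, F.j0 ≤ j → DifferentiableOn ℂ (g j) (Metric.ball 0 d0)
  bd : ∀ j, F.j0 ≤ j → ∀ d ∈ Metric.ball (0 : ℂ) d0, ‖g j d‖ ≤ ρ / 2
  zero : ∀ j, F.j0 ≤ j → g j 0 = 0
  der : ∀ j, F.j0 ≤ j → HasDerivAt (g j) ((1 : ℂ), (0 : ℂ), (0 : F.A j)) 0
  step : ∀ j, F.j0 ≤ j → ∀ d ∈ Metric.ball (0 : ℂ) d0, F.Φ j (g j d) = g (j + 1) d
  fixS : ∀ j, F.j0 ≤ j → ∀ d ∈ Metric.ball (0 : ℂ) d0, F.S j (g j d) = g j d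
  real : ∀ j, F.j0 ≤ j → ∀ d ∈ Metric.ball (0 : ℂ) d0, F.K j (g j d) = g j (starRingEnd ℂ d)

/-! ## 2. Balance functionals, charts, the normal form ([B] (8.17)-(8.18), (10.6), L10.6 = [F] L5.2) -/

/-- the data of the normal form -/
structure NF (F : Raw) where
  /-- `ℓ_j = ∏_{h ≥ j} lam h` -/
  ell : ℕ → ℂ
  /-- `T = t + bt R`, [B] (8.17) -/
  bt : ∀ j, F.A j →L[ℂ] ℂ
  /-- `Z = ℓ z + bz R`, [B] (8.18) -/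
  bz : ∀ j, F.A j →L[ℂ] ℂ
  /-- the inverse chart: unbalanced `(t, z, R)` to normal `(u, Z, B)` -/
  ci : ∀ j, ℂ × ℂ × F.A j → ℂ × ℂ × F.A j

namespace NF

variable {F : Raw} (nf : NF F) (g : Curve F)

/-- balanced scalars -/
def Tb (j : ℕ) (X : ℂ × ℂ × F.A j) : ℂ := X.1 + nf.bt j X.2.2
def Zb (j : ℕ) (X : ℂ × ℂ × F.A j) : ℂ := nf.ell j * X.2.1 + nf.bz j X.2.2

/-- the chart [B] (10.6): normal `(u, Z, B)` to unbalanced `(t, z, R)`; `Tb (ch Y) = Tb (g u)`, `Zb (ch Y) = Z`, `R = R^g (u) + B` -/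
def ch (j : ℕ) (Y : ℂ × ℂ × F.A j) : ℂ × ℂ × F.A j :=
  g j Y.1 + (-(nf.bt j Y.2.2), (Y.2.1 - nf.bz j Y.2.2) / nf.ell j, Y.2.2)

/-- the linear parts of the two charts -/
def Lch (j : ℕ) (Y : ℂ × ℂ × F.A j) : ℂ × ℂ × F.A j :=
  (Y.1 - nf.bt j Y.2.2, (Y.2.1 - nf.bz j Y.2.2) / nf.ell j, Y.2.2)
def Lci (j : ℕ) (X : ℂ × ℂ × F.A j) : ℂ × ℂ × F.A j := (nf.Tb j X, nf.Zb j X, X.2.2)

/-- the map in normal coordinates -/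
def N (j : ℕ) (Y : ℂ × ℂ × F.A j) : ℂ × ℂ × F.A (j + 1) := nf.ci (j + 1) (F.Φ j (nf.ch g j Y))

/-- `H_j` -/
def Hc (j : ℕ) : ℂ := -(1 / 2) * iteratedDeriv 2 (fun Z : ℂ => (nf.N g j (0, Z, 0)).1) 0

/-- `b_j` -/
def bc (j : ℕ) : ℂ := -deriv (fun u : ℂ => deriv (fun Z : ℂ => (nf.N g j (u, Z, 0)).2.1) 0) 0

/-- the balanced quadratic coefficients `b_j^{zz}`, `b_j^{tz}` of [B] P8.4 (they do not see the curve `g`) -/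
def bzz (j : ℕ) : ℂ := (1 / 2) * iteratedDeriv 2 (fun Z : ℂ => nf.Tb (j + 1) (F.Φ j (0, Z / nf.ell j, 0))) 0
def btz (j : ℕ) : ℂ := deriv (fun t : ℂ => deriv (fun Z : ℂ => nf.Zb (j + 1) (F.Φ j (t, Z / nf.ell j, 0))) 0) 0

end NF

/-- constants of the normal form -/
structure NFC where
  /-- `N j` lives on the ball of radius `r` -/
  r : ℝ
  /-- `ci j` lives on the ball of radius `r'` (unbalanced states) -/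
  r' : ℝ
  /-- `ch j` lives on the ball of radius `rb` -/
  rb : ℝ
  θ1 : ℝ
  C1 : ℝ
  hr : 0 < r
  hrr : r ≤ r'
  hrb : r' ≤ rb
  hθ0 : 0 < θ1
  hθ : θ1 < 1
  hC : 1 ≤ C1

/-- balance functionals: recursion, bounds, symmetries -/
structure BalOK (κ : RawC) (C1 : ℝ) (F : Raw) (nf : NF F) : Prop where
  ell_rec : ∀ j, F.j0 ≤ j → nf.ell j = F.lam j * nf.ell (j + 1)
  ell_bd : ∀ j, F.j0 ≤ j → ‖nf.ell j - 1‖ ≤ C1 * Real.exp (-κ.c * j) ∧ ‖nf.ell j - 1‖ ≤ 1 / 2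
  ell_re : ∀ j, F.j0 ≤ j → (nf.ell j).im = 0
  bt_rec : ∀ j, F.j0 ≤ j → ∀ R, nf.bt j R = F.Pt j R + nf.bt (j + 1) (F.Cc j R)
  bz_rec : ∀ j, F.j0 ≤ j → ∀ R, nf.bz j R = nf.ell (j + 1) * F.Pz j R + nf.bz (j + 1) (F.Cc j R)
  bt_bd : ∀ j, F.j0 ≤ j → ‖nf.bt j‖ ≤ C1
  bz_bd : ∀ j, F.j0 ≤ j → ‖nf.bz j‖ ≤ C1
  bt_par : ∀ j, F.j0 ≤ j → ∀ R, nf.bt j (F.σ j R) = nf.bt j R
  bz_par : ∀ j, F.j0 ≤ j → ∀ R, nf.bz j (F.σ j R) = -nf.bz j R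
  bt_re : ∀ j, F.j0 ≤ j → ∀ R, nf.bt j (F.cj j R) = starRingEnd ℂ (nf.bt j R)
  bz_re : ∀ j, F.j0 ≤ j → ∀ R, nf.bz j (F.cj j R) = starRingEnd ℂ (nf.bz j R)

/-- [B] (10.6): the charts.  `ch j` lives on the ball `rb`, `ci j` on the ball `r'`, and `ci ∘ ch = id` on the ball `r`. -/
structure ChartOK (κ : RawC) (r r' rb C1 : ℝ) (F : Raw) (g : Curve F) (nf : NF F) : Prop where
  bal : BalOK κ C1 F nf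
  ch_an : ∀ j, F.j0 ≤ j → DifferentiableOn ℂ (nf.ch g j) (Metric.ball 0 rb)
  ch_bd : ∀ j, F.j0 ≤ j → ∀ Y ∈ Metric.ball (0 : ℂ × ℂ × F.A j) rb, ‖nf.ch g j Y‖ ≤ C1 * ‖Y‖ ∧ ‖nf.ch g j Y‖ < κ.ρ
  ch_q : ∀ j, F.j0 ≤ j → ∀ Y ∈ Metric.ball (0 : ℂ × ℂ × F.A j) rb, ‖nf.ch g j Y - nf.Lch j Y‖ ≤ C1 * ‖Y.1‖ ^ 2
  ci_an : ∀ j, F.j0 ≤ j → DifferentiableOn ℂ (nf.ci j) (Metric.ball 0 r')
  ci_bd : ∀ j, F.j0 ≤ j → ∀ X ∈ Metric.ball (0 : ℂ × ℂ × F.A j) r', ‖nf.ci j X‖ ≤ C1 * ‖X‖ ∧ ‖nf.ci j X‖ < rb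
  ci_q : ∀ j, F.j0 ≤ j → ∀ X ∈ Metric.ball (0 : ℂ × ℂ × F.A j) r', ‖nf.ci j X - nf.Lci j X‖ ≤ C1 * ‖X‖ ^ 2
  ch_ci : ∀ j, F.j0 ≤ j → ∀ X ∈ Metric.ball (0 : ℂ × ℂ × F.A j) r', nf.ch g j (nf.ci j X) = X
  ci_ch : ∀ j, F.j0 ≤ j → ∀ Y ∈ Metric.ball (0 : ℂ × ℂ × F.A j) r, ‖nf.ch g j Y‖ < r' ∧ nf.ci j (nf.ch g j Y) = Y
  ci_par : ∀ j, F.j0 ≤ j → ∀ X ∈ Metric.ball (0 : ℂ × ℂ × F.A j) r', nf.ci j (F.S j X) = F.S j (nf.ci j X)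
  ci_re : ∀ j, F.j0 ≤ j → ∀ X ∈ Metric.ball (0 : ℂ × ℂ × F.A j) r', nf.ci j (F.K j X) = F.K j (nf.ci j X)
  ch_par : ∀ j, F.j0 ≤ j → ∀ Y ∈ Metric.ball (0 : ℂ × ℂ × F.A j) rb, nf.ch g j (F.S j Y) = F.S j (nf.ch g j Y)
  ch_re : ∀ j, F.j0 ≤ j → ∀ Y ∈ Metric.ball (0 : ℂ × ℂ × F.A j) rb, nf.ch g j (F.K j Y) = F.K j (nf.ch g j Y)
  /-- the unbalanced scalars in terms of the normal coordinates, [E] (3.13) -/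
  sc_t : ∀ j, F.j0 ≤ j → ∀ Y ∈ Metric.ball (0 : ℂ × ℂ × F.A j) rb,
    ‖(nf.ch g j Y).1 - Y.1‖ ≤ C1 * (‖Y.1‖ ^ 2 + ‖Y.2.2‖)
  sc_z : ∀ j, F.j0 ≤ j → ∀ Y ∈ Metric.ball (0 : ℂ × ℂ × F.A j) rb,
    ‖(nf.ch g j Y).2.1 - Y.2.1‖ ≤ C1 * (Real.exp (-κ.c * j) * ‖Y.2.1‖ + ‖Y.2.2‖)

/-- [B] (10.6) + L10.6 (= [F] L5.2) + (10.10)-(10.11): everything about the normal form.  `w = max (|u|, |Z|)` is `Flow.wn`. -/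
structure NFOK (κ : RawC) (κ' : NFC) (F : Raw) (g : Curve F) (nf : NF F) : Prop
    extends ChartOK κ κ'.r κ'.r' κ'.rb κ'.C1 F g nf where
  /-- one step stays in the domain of the inverse chart; conjugacy -/
  step_in : ∀ j, F.j0 ≤ j → ∀ Y ∈ Metric.ball (0 : ℂ × ℂ × F.A j) κ'.r, ‖F.Φ j (nf.ch g j Y)‖ < κ'.r'
  conj : ∀ j, F.j0 ≤ j → ∀ Y ∈ Metric.ball (0 : ℂ × ℂ × F.A j) κ'.r, nf.ch g (j + 1) (nf.N g j Y) = F.Φ j (nf.ch g j Y)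
  N_an : ∀ j, F.j0 ≤ j → DifferentiableOn ℂ (nf.N g j) (Metric.ball 0 κ'.r)
  /-- the Gaussian curve is a line of fixed points -/
  N_g : ∀ j, F.j0 ≤ j → ∀ u : ℂ, ‖u‖ < κ'.r → nf.N g j (u, 0, 0) = (u, 0, 0)
  N_par : ∀ j, F.j0 ≤ j → ∀ Y ∈ Metric.ball (0 : ℂ × ℂ × F.A j) κ'.r, nf.N g j (F.S j Y) = F.S (j + 1) (nf.N g j Y)
  N_re : ∀ j, F.j0 ≤ j → ∀ Y ∈ Metric.ball (0 : ℂ × ℂ × F.A j) κ'.r, nf.N g j (F.K j Y) = F.K (j + 1) (nf.N g j Y)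
  /-- the linear part is `(u, Z, B) ↦ (u, Z, Cc B)` -/
  N_q : ∀ j, F.j0 ≤ j → ∀ Y ∈ Metric.ball (0 : ℂ × ℂ × F.A j) κ'.r,
    ‖nf.N g j Y - (Y.1, Y.2.1, F.Cc j Y.2.2)‖ ≤ κ'.C1 * ‖Y‖ ^ 2
  N_u : ∀ j, F.j0 ≤ j → ∀ Y ∈ Metric.ball (0 : ℂ × ℂ × F.A j) κ'.r,
    ‖(nf.N g j Y).1 - (Y.1 - nf.Hc g j * Y.2.1 ^ 2)‖
      ≤ κ'.C1 * (Flow.wn Y * ‖Y.2.1‖ ^ 2 + (Flow.wn Y + ‖Y.2.2‖) * ‖Y.2.2‖)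
  N_Z : ∀ j, F.j0 ≤ j → ∀ Y ∈ Metric.ball (0 : ℂ × ℂ × F.A j) κ'.r,
    ‖(nf.N g j Y).2.1 - (Y.2.1 - nf.bc g j * Y.1 * Y.2.1)‖
      ≤ κ'.C1 * (Flow.wn Y ^ 2 * ‖Y.2.1‖ + (Flow.wn Y + ‖Y.2.2‖) * ‖Y.2.2‖)
  N_B : ∀ j, F.j0 ≤ j → ∀ Y ∈ Metric.ball (0 : ℂ × ℂ × F.A j) κ'.r,
    ‖(nf.N g j Y).2.2‖ ≤ κ'.θ1 * ‖Y.2.2‖ + κ'.C1 * (Flow.wn Y * ‖Y.2.1‖)
  Hc_bd : ∀ j, F.j0 ≤ j → ‖nf.Hc g j‖ ≤ κ'.C1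
  bc_bd : ∀ j, F.j0 ≤ j → ‖nf.bc g j‖ ≤ κ'.C1

/-! ## 3. Rescaling to the coordinates of `Flow.MapOK`:  `x = b_* u`, `y = √(b_* H) Z`, `Q = B` -/

def dn (bs Hq : ℝ) {E : Type} (Y : ℂ × ℂ × E) : ℂ × ℂ × E := (Y.1 / bs, Y.2.1 / Real.sqrt (bs * Hq), Y.2.2)
def up (bs Hq : ℝ) {E : Type} (Y : ℂ × ℂ × E) : ℂ × ℂ × E := (bs * Y.1, Real.sqrt (bs * Hq) * Y.2.1, Y.2.2)

/-- the field `N` of `Flow.Hist` -/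
def NF.fN {F : Raw} (nf : NF F) (g : Curve F) (bs Hq : ℝ) (j : ℕ) (Y : ℂ × ℂ × F.A j) : ℂ × ℂ × F.A (j + 1) :=
  up bs Hq (nf.N g j (dn bs Hq Y))

/-- the field `sc` of `Flow.Hist` -/
def NF.fsc {F : Raw} (nf : NF F) (g : Curve F) (bs Hq : ℝ) (j : ℕ) (Y : ℂ × ℂ × F.A j) : ℂ × ℂ :=
  ((nf.ch g j (dn bs Hq Y)).1, (nf.ch g j (dn bs Hq Y)).2.1)

/-- the PLANE fields of `Flow.MapOK`, verbatim, for free-standing data -/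
structure PlaneOK (ρ θ C c bs Hq : ℝ) (j0 : ℕ) {Q : ℕ → Type} [∀ j, NormedAddCommGroup (Q j)] [∀ j, NormedSpace ℂ (Q j)]
    (N : ∀ j, ℂ × ℂ × Q j → ℂ × ℂ × Q (j + 1)) (sc : ∀ j, ℂ × ℂ × Q j → ℂ × ℂ) (σQ : ∀ j, Q j →L[ℂ] Q j) : Prop where
  N_an : ∀ j, j0 ≤ j → DifferentiableOn ℂ (N j) (Metric.ball 0 ρ)
  N_x : ∀ j, j0 ≤ j → ∀ Y ∈ Metric.ball (0 : ℂ × ℂ × Q j) ρ, ‖(N j Y).1 - (Y.1 - Y.2.1 ^ 2)‖ ≤ C * Flow.eord j Y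
  N_y : ∀ j, j0 ≤ j → ∀ Y ∈ Metric.ball (0 : ℂ × ℂ × Q j) ρ, ‖(N j Y).2.1 - (Y.2.1 - Y.1 * Y.2.1)‖ ≤ C * Flow.eord j Y
  N_q : ∀ j, j0 ≤ j → ∀ Y ∈ Metric.ball (0 : ℂ × ℂ × Q j) ρ, ‖(N j Y).2.2‖ ≤ θ * ‖Y.2.2‖ + C * Flow.wn Y ^ 2
  N_g : ∀ j, j0 ≤ j → ∀ u : ℂ, ‖u‖ < ρ → N j (u, 0, 0) = (u, 0, 0)
  sc_an : ∀ j, j0 ≤ j → DifferentiableOn ℂ (sc j) (Metric.ball 0 ρ)
  sc_t : ∀ j, j0 ≤ j → ∀ Y ∈ Metric.ball (0 : ℂ × ℂ × Q j) ρ, ‖(sc j Y).1 - Y.1 / bs‖ ≤ C * (Flow.wn Y ^ 2 + ‖Y.2.2‖)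
  sc_z : ∀ j, j0 ≤ j → ∀ Y ∈ Metric.ball (0 : ℂ × ℂ × Q j) ρ,
    ‖(sc j Y).2 - Y.2.1 / Real.sqrt (bs * Hq)‖ ≤ C * (Real.exp (-c * j) * ‖Y.2.1‖ + Flow.wn Y ^ 2 + ‖Y.2.2‖)
  σQ_inv : ∀ j q, σQ j (σQ j q) = q
  σQ_iso : ∀ j q, ‖σQ j q‖ = ‖q‖
  N_par : ∀ j, j0 ≤ j → ∀ Y ∈ Metric.ball (0 : ℂ × ℂ × Q j) ρ, N j (Flow.parY (σQ j) Y) = Flow.parY (σQ (j + 1)) (N j Y)
  sc_par : ∀ j, j0 ≤ j → ∀ Y ∈ Metric.ball (0 : ℂ × ℂ × Q j) ρ, sc j (Flow.parY (σQ j) Y) = ((sc j Y).1, -(sc j Y).2)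

/-! ## 5. The Gaussian curve ([B] L10.3) -/

/-- torus data behind the stops, driven by the plane scalars (copying) -/
structure Tor where
  T : ℕ → ℕ → Type
  [nT : ∀ j h, NormedAddCommGroup (T j h)]
  [sT : ∀ j h, NormedSpace ℂ (T j h)]
  Ψ : ∀ j h, (ℂ × ℂ) × T j h → T (j + 1) h
  rV : ∀ h, (ℂ × ℂ) × T h h → ℂ
  kV : ℕ → ℝ
  /-- half-period translation -/
  σT : ∀ j h, T j h →L[ℂ] T j h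

attribute [instance] Tor.nT Tor.sT

structure TorOK (κ : RawC) (j0 : ℕ) (𝒯 : Tor) : Prop where
  Ψ_an : ∀ j h, j0 ≤ j → j < h → DifferentiableOn ℂ (𝒯.Ψ j h) (Metric.ball 0 κ.ρ)
  Ψ_par : ∀ j h, j0 ≤ j → j < h → ∀ X ∈ Metric.ball (0 : (ℂ × ℂ) × 𝒯.T j h) κ.ρ,
    𝒯.Ψ j h (Flow.parX (𝒯.σT j h) X) = 𝒯.σT (j + 1) h (𝒯.Ψ j h X)
  Ψ_bd : ∀ j h, j0 ≤ j → j < h → ∀ X ∈ Metric.ball (0 : (ℂ × ℂ) × 𝒯.T j h) κ.ρ, ‖𝒯.Ψ j h X‖ ≤ κ.θ * ‖X.2‖ + κ.C * ‖X‖ ^ 2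
  rV_bd : ∀ h, j0 ≤ h → ∀ X ∈ Metric.ball (0 : (ℂ × ℂ) × 𝒯.T h h) κ.ρ,
    ‖𝒯.rV h X - 𝒯.kV h * X.1.1‖ ≤ κ.C * (‖X.2‖ + ‖X‖ ^ 2)
  kV_bd : ∀ h, j0 ≤ h → 1 / κ.C ≤ 𝒯.kV h

/-- the plane history started from the entry `e j0` at the index `j0` (no casts: `e j` is used for `j ≤ j0`) -/
def pl (F : Raw) (e : Curve F) : Curve F
  | 0 => e 0
  | j + 1 => if j + 1 ≤ F.j0 then e (j + 1) else fun d => F.Φ j (pl F e j d)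

/-- the torus history behind the stop `h` -/
def tr (F : Raw) (𝒯 : Tor) (e : Curve F) (eT : ∀ j h, ℂ → 𝒯.T j h) (h : ℕ) : ∀ j, ℂ → 𝒯.T j h
  | 0 => eT 0 h
  | j + 1 => if j + 1 ≤ F.j0 then eT (j + 1) h
      else fun d => 𝒯.Ψ j h (((pl F e j d).1, (pl F e j d).2.1), tr F 𝒯 e eT h j d)

/-- the entries of the pure Gaussian laws with coefficient shift `d`, and their exactly known response -/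
structure PureOK (κ : RawC) (d1 : ℝ) (F : Raw) (𝒯 : Tor) (e : Curve F) (eT : ∀ j h, ℂ → 𝒯.T j h) : Prop where
  e_an : DifferentiableOn ℂ (e F.j0) (Metric.ball 0 d1)
  e_t : ∀ d ∈ Metric.ball (0 : ℂ) d1, (e F.j0 d).1 = d
  e_R : ∀ d ∈ Metric.ball (0 : ℂ) d1, ‖(e F.j0 d).2.2‖ ≤ κ.C * ‖d‖ ^ 2
  e_S : ∀ d ∈ Metric.ball (0 : ℂ) d1, F.S F.j0 (e F.j0 d) = e F.j0 d
  e_re : ∀ d ∈ Metric.ball (0 : ℂ) d1, F.K F.j0 (e F.j0 d) = e F.j0 (starRingEnd ℂ d)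
  eT_an : ∀ h, F.j0 ≤ h → DifferentiableOn ℂ (eT F.j0 h) (Metric.ball 0 d1)
  eT_bd : ∀ h, F.j0 ≤ h → ∀ d ∈ Metric.ball (0 : ℂ) d1, ‖eT F.j0 h d‖ ≤ κ.C * ‖d‖ ^ 2
  eT_S : ∀ h, F.j0 ≤ h → ∀ d ∈ Metric.ball (0 : ℂ) d1, 𝒯.σT F.j0 h (eT F.j0 h d) = eT F.j0 h d
  /-- as long as the history stays in the domain, the read-out at the stop `h` is the exact Gaussian response, which is `O(d)` -/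
  resp : ∀ h, F.j0 ≤ h → ∀ d ∈ Metric.ball (0 : ℂ) d1,
    (∀ j, F.j0 ≤ j → j ≤ h → ‖pl F e j d‖ < κ.ρ ∧ ‖tr F 𝒯 e eT h j d‖ < κ.ρ) →
    ‖𝒯.rV h (((pl F e h d).1, (pl F e h d).2.1), tr F 𝒯 e eT h h d)‖ ≤ κ.C * ‖d‖

/-- the pure Gaussian TORUS remainders ([F] (trj:gaussian-curve) on tori) -/
structure TorCurveOK (d0 K : ℝ) (F : Raw) (𝒯 : Tor) (e : Curve F) (eT : ∀ j h, ℂ → 𝒯.T j h) : Prop where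
  an : ∀ j h, F.j0 ≤ j → j ≤ h → DifferentiableOn ℂ (tr F 𝒯 e eT h j) (Metric.ball 0 d0)
  bd : ∀ j h, F.j0 ≤ j → j ≤ h → ∀ d ∈ Metric.ball (0 : ℂ) d0, ‖tr F 𝒯 e eT h j d‖ ≤ K * ‖d‖ ^ 2
  even : ∀ j h, F.j0 ≤ j → j ≤ h → ∀ d ∈ Metric.ball (0 : ℂ) d0, 𝒯.σT j h (tr F 𝒯 e eT h j d) = tr F 𝒯 e eT h j d

/-- the field `G` of `Flow.Hist` -/
def fG (F : Raw) (𝒯 : Tor) (e : Curve F) (eT : ∀ j h, ℂ → 𝒯.T j h) (bs : ℝ) (j h : ℕ) (x : ℂ) : 𝒯.T j h :=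
  tr F 𝒯 e eT h j (x / bs)

/-- the fields `G_*` of `Flow.MapOK`, verbatim, for free-standing data -/
structure GOK (ρ C : ℝ) (j0 : ℕ) {Q : ℕ → Type} [∀ j, NormedAddCommGroup (Q j)] {T : ℕ → ℕ → Type} [∀ j h, NormedAddCommGroup (T j h)]
    [∀ j h, NormedSpace ℂ (T j h)] (sc : ∀ j, ℂ × ℂ × Q j → ℂ × ℂ) (Ψ : ∀ j h, (ℂ × ℂ) × T j h → T (j + 1) h)
    (σT : ∀ j h, T j h →L[ℂ] T j h) (G : ∀ j h, ℂ → T j h) : Prop where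
  G_an : ∀ j h, j0 ≤ j → j ≤ h → DifferentiableOn ℂ (G j h) (Metric.ball 0 ρ)
  G_bd : ∀ j h, j0 ≤ j → j ≤ h → ∀ x : ℂ, ‖x‖ < ρ → ‖G j h x‖ ≤ C * ‖x‖ ^ 2
  G_even : ∀ j h, j0 ≤ j → j ≤ h → ∀ x : ℂ, ‖x‖ < ρ → σT j h (G j h x) = G j h x
  G_step : ∀ j h, j0 ≤ j → j < h → ∀ x : ℂ, ‖x‖ < ρ → Ψ j h (sc j (x, 0, 0), G j h x) = G (j + 1) h x

end

end Claimed.Agent.R285.B10
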