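import Claimed.Agent.R285.Flow.Defs

/-!
# ROW 285, layer FLOW, leaf GAUSS: the Gaussian curve [B] L10.3                                      (contract helper21)

Plan.  `pl F e j0 = e j0`, `pl F e (j+1) d = Φ j (pl F e j d)` for `j ≥ j0` (unfold; no casts).  Same for `tr`.
Induction on `j ≥ j0`, for fixed `d`, `‖d‖ < d0`, with `K = 2 C²`, `K2 = C (2K)² / (1 - θ) + C`:
   for all `j' ≤ j`: `|t| ≤ K |d|`, `z = 0`, `σ R = R`, `‖R‖ ≤ K2 |d|²`, `‖τ_{h}‖ ≤ K2 |d|²` for all `h ≥ j'`.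
Step: `S`-fixed by `par`; `‖R₊‖ ≤ θ ‖R‖ + C ‖X‖²`; crude `|t₊| ≤ |t| + C ‖R‖ + C ‖X‖² ≤ 2 K |d| < ρ`; so `PureOK.resp` applies at the stop `h = j + 1`:
   `kV |t₊| ≤ C |d| + C (τ + ‖X‖²)`, `kV ≥ 1 / C`  ⟹  `|t₊| ≤ C² (|d| + K2 |d|² + 4 K² |d|²) ≤ K |d|` for `d0` small.
`TorCurveOK`: `bd` is part of the induction; `an` by composition (`Ψ_an`, `eT_an`); `even` by `Ψ_par` (`z = 0`, so `parX` fixes the state).
`CurveOK`: `an` by composition; `zero` from the bound; `der`: `HasFDerivAt (Φ j) (lin j) 0` from `quad`, and `lin j (1,0,0) = (1,0,0)`.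
-/

set_option autoImplicit false

namespace Claimed.Agent.R285.B10

open Filter Topology

/-! ### unfolding of the histories -/

theorem gc_pl_le (F : Raw) (e : Curve F) {j : ℕ} (h : j ≤ F.j0) : pl F e j = e j := by
  cases j with
  | zero => rfl
  | succ j =>
    show (if j + 1 ≤ F.j0 then e (j + 1) else fun d => F.Φ j (pl F e j d)) = e (j + 1)
    rw [if_pos h]

theorem gc_pl_succ (F : Raw) (e : Curve F) {j : ℕ} (h : F.j0 ≤ j) (d : ℂ) :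
    pl F e (j + 1) d = F.Φ j (pl F e j d) := by
  have hn : ¬ (j + 1 ≤ F.j0) := by omega
  show (if j + 1 ≤ F.j0 then e (j + 1) else fun d => F.Φ j (pl F e j d)) d = _
  rw [if_neg hn]

theorem gc_tr_le (F : Raw) (𝒯 : Tor) (e : Curve F) (eT : ∀ j h, ℂ → 𝒯.T j h) (h : ℕ) {j : ℕ}
    (hj : j ≤ F.j0) : tr F 𝒯 e eT h j = eT j h := by
  cases j with
  | zero => rfl
  | succ j =>
    show (if j + 1 ≤ F.j0 then eT (j + 1) h
      else fun d => 𝒯.Ψ j h (((pl F e j d).1, (pl F e j d).2.1), tr F 𝒯 e eT h j d)) = eT (j + 1) h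
    rw [if_pos hj]

theorem gc_tr_succ (F : Raw) (𝒯 : Tor) (e : Curve F) (eT : ∀ j h, ℂ → 𝒯.T j h) (h : ℕ) {j : ℕ}
    (hj : F.j0 ≤ j) (d : ℂ) :
    tr F 𝒯 e eT h (j + 1) d
      = 𝒯.Ψ j h (((pl F e j d).1, (pl F e j d).2.1), tr F 𝒯 e eT h j d) := by
  have hn : ¬ (j + 1 ≤ F.j0) := by omega
  show (if j + 1 ≤ F.j0 then eT (j + 1) h
      else fun d => 𝒯.Ψ j h (((pl F e j d).1, (pl F e j d).2.1), tr F 𝒯 e eT h j d)) d = _
  rw [if_neg hn]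

/-! ### norms of triples -/

theorem gc_norm3_le {A : Type} [NormedAddCommGroup A] {X : ℂ × ℂ × A} {b : ℝ} (h1 : ‖X.1‖ ≤ b)
    (h2 : ‖X.2.1‖ ≤ b) (h3 : ‖X.2.2‖ ≤ b) : ‖X‖ ≤ b := by
  rw [Prod.norm_def, Prod.norm_def]
  exact max_le h1 (max_le h2 h3)

theorem gc_norm3'_le {A : Type} [NormedAddCommGroup A] {X : (ℂ × ℂ) × A} {b : ℝ} (h1 : ‖X.1.1‖ ≤ b)
    (h2 : ‖X.1.2‖ ≤ b) (h3 : ‖X.2‖ ≤ b) : ‖X‖ ≤ b := by
  rw [Prod.norm_def, Prod.norm_def]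
  exact max_le (max_le h1 h2) h3

theorem gc_n1 {A : Type} [NormedAddCommGroup A] (X : ℂ × ℂ × A) : ‖X.1‖ ≤ ‖X‖ := norm_fst_le X
theorem gc_n3 {A : Type} [NormedAddCommGroup A] (X : ℂ × ℂ × A) : ‖X.2.2‖ ≤ ‖X‖ :=
  (norm_snd_le X.2).trans (norm_snd_le X)

theorem gc_z_zero (F : Raw) {j : ℕ} {X : ℂ × ℂ × F.A j} (h : F.S j X = X) : X.2.1 = 0 := by
  have h1 : (F.S j X).2.1 = X.2.1 := by rw [h]
  have h2 : -X.2.1 = X.2.1 := h1
  have h3 : X.2.1 + X.2.1 = 0 := by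
    nth_rewrite 1 [← h2]
    exact neg_add_cancel _
  have h4 : (2 : ℂ) * X.2.1 = 0 := by rw [two_mul]; exact h3
  exact (mul_eq_zero.1 h4).resolve_left two_ne_zero

/-! ### one step of the raw map -/

section step

variable {κ : RawC} {F : Raw}

theorem gc_step_t (hF : RawOK κ F) {j : ℕ} (hj : F.j0 ≤ j) {X : ℂ × ℂ × F.A j}
    (hX : X ∈ Metric.ball (0 : ℂ × ℂ × F.A j) κ.ρ) :
    ‖(F.Φ j X).1 - X.1‖ ≤ κ.C * ‖X.2.2‖ + κ.C * ‖X‖ ^ 2 := by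
  have h1 : ‖(F.Φ j X - F.lin j X).1‖ ≤ κ.C * ‖X‖ ^ 2 := (gc_n1 _).trans (hF.quad j hj X hX)
  have h2 : (F.Φ j X).1 - X.1 = (F.Φ j X - F.lin j X).1 + F.Pt j X.2.2 := by
    show _ = ((F.Φ j X).1 - (X.1 + F.Pt j X.2.2)) + F.Pt j X.2.2
    ring
  have h3 : ‖F.Pt j X.2.2‖ ≤ κ.C * ‖X.2.2‖ :=
    ((F.Pt j).le_opNorm _).trans (mul_le_mul_of_nonneg_right (hF.Pt_bd j hj) (norm_nonneg _))
  rw [h2]
  exact (norm_add_le _ _).trans (by linarith)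

theorem gc_step_R (hF : RawOK κ F) {j : ℕ} (hj : F.j0 ≤ j) {X : ℂ × ℂ × F.A j}
    (hX : X ∈ Metric.ball (0 : ℂ × ℂ × F.A j) κ.ρ) :
    ‖(F.Φ j X).2.2‖ ≤ κ.θ * ‖X.2.2‖ + κ.C * ‖X‖ ^ 2 := by
  have h1 : ‖(F.Φ j X - F.lin j X).2.2‖ ≤ κ.C * ‖X‖ ^ 2 := (gc_n3 _).trans (hF.quad j hj X hX)
  have h2 : (F.Φ j X).2.2 = (F.Φ j X - F.lin j X).2.2 + F.Cc j X.2.2 := by
    show _ = ((F.Φ j X).2.2 - F.Cc j X.2.2) + F.Cc j X.2.2
    rw [sub_add_cancel]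
  have h3 : ‖F.Cc j X.2.2‖ ≤ κ.θ * ‖X.2.2‖ :=
    ((F.Cc j).le_opNorm _).trans (mul_le_mul_of_nonneg_right (hF.Cc_bd j hj) (norm_nonneg _))
  rw [h2]
  exact (norm_add_le _ _).trans (by linarith)

end step

/-! ### the constants -/

noncomputable def gcK (κ : RawC) : ℝ := 2 * κ.C ^ 2
noncomputable def gcK2 (κ : RawC) : ℝ := κ.C * (2 * gcK κ) ^ 2 / (1 - κ.θ) + κ.C
noncomputable def gcM (κ : RawC) : ℝ :=
  gcK2 κ + 4 * gcK κ ^ 2 + (κ.C * gcK2 κ + κ.C * gcK κ ^ 2) + 2 * gcK κ / κ.ρ + 1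

theorem gcK_ge (κ : RawC) : 2 ≤ gcK κ := by
  have := κ.hC
  unfold gcK
  nlinarith

theorem gcK2_ge (κ : RawC) : κ.C ≤ gcK2 κ := by
  have h1 := κ.hC
  have h2 : 0 < 1 - κ.θ := by linarith [κ.hθ]
  unfold gcK2
  have : 0 ≤ κ.C * (2 * gcK κ) ^ 2 / (1 - κ.θ) := by positivity
  linarith

/-- `θ K2 + C K² ≤ K2` -/
theorem gcK2_contr (κ : RawC) : κ.θ * gcK2 κ + κ.C * gcK κ ^ 2 ≤ gcK2 κ := by
  have h1 := κ.hC
  have h2 : 0 < 1 - κ.θ := by linarith [κ.hθ]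
  have h3 : (1 - κ.θ) * gcK2 κ = κ.C * (2 * gcK κ) ^ 2 + (1 - κ.θ) * κ.C := by
    unfold gcK2
    field_simp
  have h4 : 0 ≤ κ.C * gcK κ ^ 2 := by positivity
  have h5 : 0 ≤ (1 - κ.θ) * κ.C := by positivity
  nlinarith

theorem gcM_pos (κ : RawC) : 0 < gcM κ := by
  have h1 := κ.hC
  have h2 := gcK_ge κ
  have h3 := gcK2_ge κ
  have h4 := κ.hρ
  have q1 : 0 < gcK κ := by linarith
  have q2 : 0 < gcK2 κ := by linarith
  have q3 : 0 < κ.C := by linarith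
  unfold gcM
  positivity

/-- the smallness conditions -/
theorem gc_small (κ : RawC) {a : ℝ} (ha0 : 0 ≤ a) (ha : a < 1 / gcM κ) :
    gcK2 κ * a ≤ gcK κ ∧ (κ.C * gcK2 κ + κ.C * gcK κ ^ 2) * a ≤ gcK κ ∧ 2 * gcK κ * a < κ.ρ ∧
      (gcK2 κ + 4 * gcK κ ^ 2) * a ≤ 1 := by
  have h1 := κ.hC
  have h2 := gcK_ge κ
  have h3 := gcK2_ge κ
  have h4 := κ.hρ
  have q1 : 0 < gcK κ := by linarith
  have q2 : 0 < gcK2 κ := by linarith
  have q3 : 0 < κ.C := by linarith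
  have hM : gcM κ * a < 1 := by
    rw [lt_div_iff₀ (gcM_pos κ)] at ha
    linarith
  have e : gcM κ * a = gcK2 κ * a + 4 * gcK κ ^ 2 * a + (κ.C * gcK2 κ + κ.C * gcK κ ^ 2) * a
      + 2 * gcK κ / κ.ρ * a + a := by
    unfold gcM
    ring
  have p1 : 0 ≤ gcK2 κ * a := by positivity
  have p2 : 0 ≤ 4 * gcK κ ^ 2 * a := by positivity
  have p3 : 0 ≤ (κ.C * gcK2 κ + κ.C * gcK κ ^ 2) * a := by positivity
  have p4 : 0 ≤ 2 * gcK κ / κ.ρ * a := by positivity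
  refine ⟨by linarith, by linarith, ?_, by linarith⟩
  have h5 : 2 * gcK κ / κ.ρ * a < 1 := by linarith
  have h6 : 2 * gcK κ / κ.ρ * a = 2 * gcK κ * a / κ.ρ := by ring
  rw [h6, div_lt_one h4] at h5
  exact h5

/-! ### the invariant -/

structure GcInv (κ : RawC) (F : Raw) (𝒯 : Tor) (e : Curve F) (eT : ∀ j h, ℂ → 𝒯.T j h) (d : ℂ)
    (j : ℕ) : Prop where
  t : ‖(pl F e j d).1‖ ≤ gcK κ * ‖d‖
  S : F.S j (pl F e j d) = pl F e j d
  R : ‖(pl F e j d).2.2‖ ≤ gcK2 κ * ‖d‖ ^ 2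
  τ : ∀ h, j ≤ h → ‖tr F 𝒯 e eT h j d‖ ≤ gcK2 κ * ‖d‖ ^ 2

section inv

variable {κ : RawC} {d1 : ℝ} {F : Raw} {𝒯 : Tor} {e : Curve F} {eT : ∀ j h, ℂ → 𝒯.T j h}

theorem gc_sq_le (κ : RawC) {a : ℝ} (ha0 : 0 ≤ a) (ha : a < 1 / gcM κ) :
    gcK2 κ * a ^ 2 ≤ gcK κ * a := by
  have := (gc_small κ ha0 ha).1
  nlinarith

theorem GcInv.norm_le {d : ℂ} {j : ℕ} (h : GcInv κ F 𝒯 e eT d j) (hd : ‖d‖ < 1 / gcM κ) :
    ‖pl F e j d‖ ≤ gcK κ * ‖d‖ := by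
  have hK := gcK_ge κ
  refine gc_norm3_le h.t ?_ (h.R.trans (gc_sq_le κ (norm_nonneg d) hd))
  rw [gc_z_zero F h.S, norm_zero]
  positivity

theorem GcInv.norm_lt {d : ℂ} {j : ℕ} (h : GcInv κ F 𝒯 e eT d j) (hd : ‖d‖ < 1 / gcM κ) :
    ‖pl F e j d‖ < κ.ρ := by
  have h1 := h.norm_le hd
  have h2 := (gc_small κ (norm_nonneg d) hd).2.2.1
  have hK := gcK_ge κ
  have : 0 ≤ gcK κ * ‖d‖ := by positivity
  linarith

theorem GcInv.tor_le {d : ℂ} {j : ℕ} (h : GcInv κ F 𝒯 e eT d j) (hd : ‖d‖ < 1 / gcM κ) {s : ℕ}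
    (hs : j ≤ s) :
    ‖(((pl F e j d).1, (pl F e j d).2.1), tr F 𝒯 e eT s j d)‖ ≤ gcK κ * ‖d‖ := by
  have hK := gcK_ge κ
  refine gc_norm3'_le h.t ?_ ((h.τ s hs).trans (gc_sq_le κ (norm_nonneg d) hd))
  show ‖(pl F e j d).2.1‖ ≤ _
  rw [gc_z_zero F h.S, norm_zero]
  positivity

theorem GcInv.tor_lt {d : ℂ} {j : ℕ} (h : GcInv κ F 𝒯 e eT d j) (hd : ‖d‖ < 1 / gcM κ) {s : ℕ}
    (hs : j ≤ s) :
    ‖(((pl F e j d).1, (pl F e j d).2.1), tr F 𝒯 e eT s j d)‖ < κ.ρ := by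
  have h1 := h.tor_le hd hs
  have h2 := (gc_small κ (norm_nonneg d) hd).2.2.1
  have hK := gcK_ge κ
  have : 0 ≤ gcK κ * ‖d‖ := by positivity
  linarith

theorem gc_inv_base (hP : PureOK κ d1 F 𝒯 e eT) {d : ℂ} (hd1 : ‖d‖ < d1) :
    GcInv κ F 𝒯 e eT d F.j0 := by
  have hdm : d ∈ Metric.ball (0 : ℂ) d1 := by rwa [mem_ball_zero_iff]
  have hK := gcK_ge κ
  have hK2 := gcK2_ge κ
  refine ⟨?_, ?_, ?_, ?_⟩
  · rw [gc_pl_le F e le_rfl, hP.e_t d hdm]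
    nlinarith [norm_nonneg d]
  · rw [gc_pl_le F e le_rfl]
    exact hP.e_S d hdm
  · rw [gc_pl_le F e le_rfl]
    exact (hP.e_R d hdm).trans (mul_le_mul_of_nonneg_right hK2 (by positivity))
  · intro h hh
    rw [gc_tr_le F 𝒯 e eT h le_rfl]
    exact (hP.eT_bd h hh d hdm).trans (mul_le_mul_of_nonneg_right hK2 (by positivity))

theorem gc_inv_step (hF : RawOK κ F) (hT : TorOK κ F.j0 𝒯) (hP : PureOK κ d1 F 𝒯 e eT) {d : ℂ}
    (hd1 : ‖d‖ < d1) (hd : ‖d‖ < 1 / gcM κ) {j : ℕ} (hj : F.j0 ≤ j)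
    (ih : ∀ j', F.j0 ≤ j' → j' ≤ j → GcInv κ F 𝒯 e eT d j') : GcInv κ F 𝒯 e eT d (j + 1) := by
  have hdm : d ∈ Metric.ball (0 : ℂ) d1 := by rwa [mem_ball_zero_iff]
  have hC := κ.hC
  have hK := gcK_ge κ
  have hK2 := gcK2_ge κ
  have hθ0 := κ.hθ0
  obtain ⟨r1, r2, r3, r4⟩ := gc_small κ (norm_nonneg d) hd
  have hI := ih j hj le_rfl
  set a := ‖d‖ with ha
  have ha0 : 0 ≤ a := norm_nonneg d
  have hXle := hI.norm_le hd
  have hXm : pl F e j d ∈ Metric.ball (0 : ℂ × ℂ × F.A j) κ.ρ := by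
    rw [mem_ball_zero_iff]
    exact hI.norm_lt hd
  have hsq : ‖pl F e j d‖ ^ 2 ≤ gcK κ ^ 2 * a ^ 2 := by
    rw [← mul_pow]
    exact pow_le_pow_left₀ (norm_nonneg _) hXle 2
  have hcontr := gcK2_contr κ
  -- `S`
  have hS : F.S (j + 1) (pl F e (j + 1) d) = pl F e (j + 1) d := by
    rw [gc_pl_succ F e hj, ← hF.par j hj _ hXm, hI.S]
  -- `R`
  have hR : ‖(pl F e (j + 1) d).2.2‖ ≤ gcK2 κ * a ^ 2 := by
    rw [gc_pl_succ F e hj]
    refine (gc_step_R hF hj hXm).trans ?_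
    have e1 : κ.θ * ‖(pl F e j d).2.2‖ ≤ κ.θ * (gcK2 κ * a ^ 2) :=
      mul_le_mul_of_nonneg_left hI.R hθ0.le
    have e2 : κ.C * ‖pl F e j d‖ ^ 2 ≤ κ.C * (gcK κ ^ 2 * a ^ 2) :=
      mul_le_mul_of_nonneg_left hsq (by linarith)
    have e3 : (κ.θ * gcK2 κ + κ.C * gcK κ ^ 2) * a ^ 2 ≤ gcK2 κ * a ^ 2 :=
      mul_le_mul_of_nonneg_right hcontr (by positivity)
    nlinarith
  -- `τ`
  have hτ : ∀ h, j + 1 ≤ h → ‖tr F 𝒯 e eT h (j + 1) d‖ ≤ gcK2 κ * a ^ 2 := by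
    intro h hh
    have hjh : j ≤ h := by omega
    have hm : (((pl F e j d).1, (pl F e j d).2.1), tr F 𝒯 e eT h j d)
        ∈ Metric.ball (0 : (ℂ × ℂ) × 𝒯.T j h) κ.ρ := by
      rw [mem_ball_zero_iff]
      exact hI.tor_lt hd hjh
    rw [gc_tr_succ F 𝒯 e eT h hj]
    refine (hT.Ψ_bd j h hj (by omega) _ hm).trans ?_
    have hsq' : ‖(((pl F e j d).1, (pl F e j d).2.1), tr F 𝒯 e eT h j d)‖ ^ 2
        ≤ gcK κ ^ 2 * a ^ 2 := by
      rw [← mul_pow]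
      exact pow_le_pow_left₀ (norm_nonneg _) (hI.tor_le hd hjh) 2
    have e1 : κ.θ * ‖tr F 𝒯 e eT h j d‖ ≤ κ.θ * (gcK2 κ * a ^ 2) :=
      mul_le_mul_of_nonneg_left (hI.τ h hjh) hθ0.le
    have e2 : κ.C * ‖(((pl F e j d).1, (pl F e j d).2.1), tr F 𝒯 e eT h j d)‖ ^ 2
        ≤ κ.C * (gcK κ ^ 2 * a ^ 2) := mul_le_mul_of_nonneg_left hsq' (by linarith)
    have e3 : (κ.θ * gcK2 κ + κ.C * gcK κ ^ 2) * a ^ 2 ≤ gcK2 κ * a ^ 2 :=
      mul_le_mul_of_nonneg_right hcontr (by positivity)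
    show κ.θ * ‖tr F 𝒯 e eT h j d‖ + _ ≤ _
    nlinarith
  have hz : (pl F e (j + 1) d).2.1 = 0 := gc_z_zero F hS
  have hsqle : gcK2 κ * a ^ 2 ≤ gcK κ * a := gc_sq_le κ ha0 hd
  -- crude bound of `t`
  have htc : ‖(pl F e (j + 1) d).1‖ ≤ 2 * gcK κ * a := by
    have h1 := gc_step_t hF hj hXm
    rw [← gc_pl_succ F e hj] at h1
    have h2 : ‖(pl F e (j + 1) d).1‖ ≤ ‖(pl F e j d).1‖ + ‖(pl F e (j + 1) d).1 - (pl F e j d).1‖ := by
      have := norm_add_le (pl F e j d).1 ((pl F e (j + 1) d).1 - (pl F e j d).1)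
      rwa [add_sub_cancel] at this
    have e1 : κ.C * ‖(pl F e j d).2.2‖ ≤ κ.C * (gcK2 κ * a ^ 2) :=
      mul_le_mul_of_nonneg_left hI.R (by linarith)
    have e2 : κ.C * ‖pl F e j d‖ ^ 2 ≤ κ.C * (gcK κ ^ 2 * a ^ 2) :=
      mul_le_mul_of_nonneg_left hsq (by linarith)
    have e3 : (κ.C * gcK2 κ + κ.C * gcK κ ^ 2) * a * a ≤ gcK κ * a :=
      mul_le_mul_of_nonneg_right r2 ha0
    have := hI.t
    nlinarith
  have h2Ka : 0 ≤ gcK κ * a := by positivity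
  have hX'le : ‖pl F e (j + 1) d‖ ≤ 2 * gcK κ * a := by
    refine gc_norm3_le htc ?_ (by linarith)
    rw [hz, norm_zero]
    linarith
  have hY'le : ‖(((pl F e (j + 1) d).1, (pl F e (j + 1) d).2.1), tr F 𝒯 e eT (j + 1) (j + 1) d)‖
      ≤ 2 * gcK κ * a := by
    refine gc_norm3'_le htc ?_ (by linarith [hτ (j + 1) le_rfl])
    show ‖(pl F e (j + 1) d).2.1‖ ≤ _
    rw [hz, norm_zero]
    linarith
  -- the response at the stop `j + 1`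
  have hresp := hP.resp (j + 1) (by omega) d hdm (by
    intro j' hj' hj'1
    rcases Nat.lt_or_ge j j' with hlt | hge
    · have : j' = j + 1 := by omega
      subst this
      exact ⟨by linarith, by linarith [hτ (j + 1) le_rfl]⟩
    · have hI' := ih j' hj' hge
      refine ⟨hI'.norm_lt hd, ?_⟩
      have := hI'.τ (j + 1) hj'1
      linarith)
  have hY'm : (((pl F e (j + 1) d).1, (pl F e (j + 1) d).2.1), tr F 𝒯 e eT (j + 1) (j + 1) d)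
      ∈ Metric.ball (0 : (ℂ × ℂ) × 𝒯.T (j + 1) (j + 1)) κ.ρ := by
    rw [mem_ball_zero_iff]
    linarith
  have hrV := hT.rV_bd (j + 1) (by omega) _ hY'm
  have hkV := hT.kV_bd (j + 1) (by omega)
  have ht : ‖(pl F e (j + 1) d).1‖ ≤ gcK κ * a := by
    set t' := (pl F e (j + 1) d).1 with ht'
    set Y' := (((pl F e (j + 1) d).1, (pl F e (j + 1) d).2.1), tr F 𝒯 e eT (j + 1) (j + 1) d)
      with hY'
    have h1 : ‖(𝒯.kV (j + 1) : ℂ) * t'‖ ≤ ‖𝒯.rV (j + 1) Y'‖ + ‖𝒯.rV (j + 1) Y' - 𝒯.kV (j + 1) * t'‖ := by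
      have := norm_sub_le (𝒯.rV (j + 1) Y') (𝒯.rV (j + 1) Y' - 𝒯.kV (j + 1) * t')
      rwa [sub_sub_cancel] at this
    have hkpos : 0 < 𝒯.kV (j + 1) := lt_of_lt_of_le (by positivity) hkV
    have h2 : ‖(𝒯.kV (j + 1) : ℂ) * t'‖ = 𝒯.kV (j + 1) * ‖t'‖ := by
      rw [norm_mul, Complex.norm_real, Real.norm_eq_abs, abs_of_pos hkpos]
    have h3 : ‖Y'‖ ^ 2 ≤ 4 * gcK κ ^ 2 * a ^ 2 := by
      have := pow_le_pow_left₀ (norm_nonneg _) hY'le 2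
      nlinarith
    have h4 : ‖Y'.2‖ ≤ gcK2 κ * a ^ 2 := hτ (j + 1) le_rfl
    have h5 : κ.C * (‖Y'.2‖ + ‖Y'‖ ^ 2) ≤ κ.C * ((gcK2 κ + 4 * gcK κ ^ 2) * a * a) := by
      refine mul_le_mul_of_nonneg_left ?_ (by linarith)
      nlinarith
    have h6 : (gcK2 κ + 4 * gcK κ ^ 2) * a * a ≤ 1 * a := mul_le_mul_of_nonneg_right r4 ha0
    have h7 : 𝒯.kV (j + 1) * ‖t'‖ ≤ 2 * κ.C * a := by
      have h8 : κ.C * ((gcK2 κ + 4 * gcK κ ^ 2) * a * a) ≤ κ.C * (1 * a) :=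
        mul_le_mul_of_nonneg_left h6 (by linarith)
      have h9 : ‖𝒯.rV (j + 1) Y' - 𝒯.kV (j + 1) * t'‖ ≤ κ.C * (‖Y'.2‖ + ‖Y'‖ ^ 2) := hrV
      rw [h2] at h1
      linarith
    have h8 : 1 / κ.C * ‖t'‖ ≤ 2 * κ.C * a :=
      (mul_le_mul_of_nonneg_right hkV (norm_nonneg _)).trans h7
    have h9 : ‖t'‖ = κ.C * (1 / κ.C * ‖t'‖) := by
      field_simp
    rw [h9]
    calc κ.C * (1 / κ.C * ‖t'‖) ≤ κ.C * (2 * κ.C * a) := mul_le_mul_of_nonneg_left h8 (by linarith)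
      _ = gcK κ * a := by unfold gcK; ring
  exact ⟨ht, hS, hR, hτ⟩

theorem gc_inv (hF : RawOK κ F) (hT : TorOK κ F.j0 𝒯) (hP : PureOK κ d1 F 𝒯 e eT) {d : ℂ}
    (hd1 : ‖d‖ < d1) (hd : ‖d‖ < 1 / gcM κ) : ∀ j, F.j0 ≤ j → GcInv κ F 𝒯 e eT d j := by
  have key : ∀ j, F.j0 ≤ j → ∀ j', F.j0 ≤ j' → j' ≤ j → GcInv κ F 𝒯 e eT d j' := by
    intro j hj
    induction j, hj using Nat.le_induction with
    | base =>
      intro j' h1 h2
      have : j' = F.j0 := le_antisymm h2 h1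
      subst this
      exact gc_inv_base hP hd1
    | succ j hj ih =>
      intro j' h1 h2
      rcases Nat.lt_or_ge j j' with hlt | hge
      · have : j' = j + 1 := by omega
        subst this
        exact gc_inv_step hF hT hP hd1 hd hj ih
      · exact ih j' h1 hge
  exact fun j hj => key j hj j hj le_rfl

end inv

/-- **T4** ([B] L10.3): the pure histories never leave, on a disk whose radius depends only on the constants -/
theorem gauss_curve (κ : RawC) (d1 : ℝ) (hd1 : 0 < d1) : ∃ d0 K : ℝ, 0 < d0 ∧ d0 ≤ d1 ∧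
    ∀ (F : Raw) (𝒯 : Tor) (e : Curve F) (eT : ∀ j h, ℂ → 𝒯.T j h),
      RawOK κ F → TorOK κ F.j0 𝒯 → PureOK κ d1 F 𝒯 e eT →
      CurveOK κ.ρ d0 F (pl F e) ∧ TorCurveOK d0 K F 𝒯 e eT ∧
      ∀ j, F.j0 ≤ j → ∀ d ∈ Metric.ball (0 : ℂ) d0, ‖pl F e j d‖ ≤ K * ‖d‖ ∧ ‖(pl F e j d).2.2‖ ≤ K * ‖d‖ ^ 2 := by
  have hd0pos : 0 < min d1 (1 / gcM κ) := lt_min hd1 (by have := gcM_pos κ; positivity)
  refine ⟨min d1 (1 / gcM κ), gcK κ + gcK2 κ, hd0pos, min_le_left _ _, ?_⟩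
  intro F 𝒯 e eT hF hT hP
  set d0 := min d1 (1 / gcM κ) with hd0
  have hC := κ.hC
  have hK := gcK_ge κ
  have hK2 := gcK2_ge κ
  have hsub : Metric.ball (0 : ℂ) d0 ⊆ Metric.ball (0 : ℂ) d1 :=
    Metric.ball_subset_ball (min_le_left _ _)
  have hsm : ∀ d ∈ Metric.ball (0 : ℂ) d0, ‖d‖ < 1 / gcM κ := by
    intro d hd
    rw [mem_ball_zero_iff] at hd
    exact hd.trans_le (min_le_right _ _)
  have hI : ∀ d ∈ Metric.ball (0 : ℂ) d0, ∀ j, F.j0 ≤ j → GcInv κ F 𝒯 e eT d j := by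
    intro d hd
    have h1 := hsub hd
    rw [mem_ball_zero_iff] at h1
    exact gc_inv hF hT hP h1 (hsm d hd)
  have hmem : ∀ d ∈ Metric.ball (0 : ℂ) d0, ∀ j, F.j0 ≤ j →
      pl F e j d ∈ Metric.ball (0 : ℂ × ℂ × F.A j) κ.ρ := by
    intro d hd j hj
    rw [mem_ball_zero_iff]
    exact (hI d hd j hj).norm_lt (hsm d hd)
  have h0mem : (0 : ℂ) ∈ Metric.ball (0 : ℂ) d0 := Metric.mem_ball_self hd0pos
  have han : ∀ j, F.j0 ≤ j → DifferentiableOn ℂ (pl F e j) (Metric.ball 0 d0) := by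
    intro j hj
    induction j, hj using Nat.le_induction with
    | base =>
      rw [gc_pl_le F e le_rfl]
      exact hP.e_an.mono hsub
    | succ j hj ih =>
      exact ((hF.an j hj).comp ih (fun d hd => hmem d hd j hj)).congr
        (fun d _ => gc_pl_succ F e hj d)
  have hzero : ∀ j, F.j0 ≤ j → pl F e j 0 = 0 := by
    intro j hj
    have := (hI 0 h0mem j hj).norm_le (hsm 0 h0mem)
    rw [norm_zero, mul_zero] at this
    exact norm_le_zero_iff.1 this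
  have hdt : ∀ j, F.j0 ≤ j → ∃ M : ℝ, ∀ d ∈ Metric.ball (0 : ℂ) d0,
      ‖(pl F e j d).1 - d‖ ≤ M * ‖d‖ ^ 2 := by
    intro j hj
    induction j, hj using Nat.le_induction with
    | base =>
      refine ⟨0, fun d hd => ?_⟩
      rw [gc_pl_le F e le_rfl, hP.e_t d (hsub hd), sub_self, norm_zero, zero_mul]
    | succ j hj ih =>
      obtain ⟨M, hM⟩ := ih
      refine ⟨M + (κ.C * gcK2 κ + κ.C * gcK κ ^ 2), fun d hd => ?_⟩
      have h1 := gc_step_t hF hj (hmem d hd j hj)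
      rw [← gc_pl_succ F e hj] at h1
      have h2 : (pl F e (j + 1) d).1 - d
          = ((pl F e (j + 1) d).1 - (pl F e j d).1) + ((pl F e j d).1 - d) := by ring
      have hIj := hI d hd j hj
      have hsq : ‖pl F e j d‖ ^ 2 ≤ gcK κ ^ 2 * ‖d‖ ^ 2 := by
        rw [← mul_pow]
        exact pow_le_pow_left₀ (norm_nonneg _) (hIj.norm_le (hsm d hd)) 2
      have e1 : κ.C * ‖(pl F e j d).2.2‖ ≤ κ.C * (gcK2 κ * ‖d‖ ^ 2) :=
        mul_le_mul_of_nonneg_left hIj.R (by linarith)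
      have e2 : κ.C * ‖pl F e j d‖ ^ 2 ≤ κ.C * (gcK κ ^ 2 * ‖d‖ ^ 2) :=
        mul_le_mul_of_nonneg_left hsq (by linarith)
      rw [h2]
      refine (norm_add_le _ _).trans ?_
      have := hM d hd
      nlinarith
  have hder : ∀ j, F.j0 ≤ j → HasDerivAt (pl F e j) ((1 : ℂ), (0 : ℂ), (0 : F.A j)) 0 := by
    intro j hj
    obtain ⟨M, hM⟩ := hdt j hj
    rw [hasDerivAt_iff_isLittleO_nhds_zero]
    have hO : (fun h : ℂ => pl F e j (0 + h) - pl F e j 0 - h • ((1 : ℂ), (0 : ℂ), (0 : F.A j)))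
        =O[𝓝 0] fun h : ℂ => ‖h‖ ^ 2 := by
      refine Asymptotics.IsBigO.of_bound (max M (gcK2 κ)) ?_
      filter_upwards [Metric.ball_mem_nhds (0 : ℂ) hd0pos] with h hh
      rw [zero_add, hzero j hj, sub_zero, norm_pow, norm_norm]
      have hIj := hI h hh j hj
      have hp : 0 ≤ ‖h‖ ^ 2 := by positivity
      refine gc_norm3_le ?_ ?_ ?_
      · show ‖(pl F e j h).1 - h • (1 : ℂ)‖ ≤ _
        rw [smul_eq_mul, mul_one]
        exact (hM h hh).trans (mul_le_mul_of_nonneg_right (le_max_left _ _) hp)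
      · show ‖(pl F e j h).2.1 - h • (0 : ℂ)‖ ≤ _
        rw [smul_zero, sub_zero, gc_z_zero F hIj.S, norm_zero]
        exact mul_nonneg (le_trans (by linarith) (le_max_right _ _)) hp
      · show ‖(pl F e j h).2.2 - h • (0 : F.A j)‖ ≤ _
        rw [smul_zero, sub_zero]
        exact hIj.R.trans (mul_le_mul_of_nonneg_right (le_max_right _ _) hp)
    exact hO.trans_isLittleO (Asymptotics.isLittleO_norm_pow_id one_lt_two)
  have hreal : ∀ j, F.j0 ≤ j → ∀ d ∈ Metric.ball (0 : ℂ) d0,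
      F.K j (pl F e j d) = pl F e j (starRingEnd ℂ d) := by
    intro j hj
    induction j, hj using Nat.le_induction with
    | base =>
      intro d hd
      rw [gc_pl_le F e le_rfl]
      exact hP.e_re d (hsub hd)
    | succ j hj ih =>
      intro d hd
      rw [gc_pl_succ F e hj, gc_pl_succ F e hj, ← hF.real j hj _ (hmem d hd j hj), ih d hd]
  have htan : ∀ j h, F.j0 ≤ j → j ≤ h →
      DifferentiableOn ℂ (tr F 𝒯 e eT h j) (Metric.ball 0 d0) := by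
    intro j h hj
    induction j, hj using Nat.le_induction with
    | base =>
      intro hh
      rw [gc_tr_le F 𝒯 e eT h le_rfl]
      exact (hP.eT_an h hh).mono hsub
    | succ j hj ih =>
      intro hh
      have ih' := ih (by omega)
      have hpair : DifferentiableOn ℂ
          (fun d => (((pl F e j d).1, (pl F e j d).2.1), tr F 𝒯 e eT h j d)) (Metric.ball 0 d0) :=
        (((han j hj).fst).prodMk ((han j hj).snd.fst)).prodMk ih'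
      exact ((hT.Ψ_an j h hj (by omega)).comp hpair (fun d hd => by
        rw [mem_ball_zero_iff]
        exact (hI d hd j hj).tor_lt (hsm d hd) (by omega))).congr
        (fun d _ => gc_tr_succ F 𝒯 e eT h hj d)
  have hteven : ∀ j h, F.j0 ≤ j → j ≤ h → ∀ d ∈ Metric.ball (0 : ℂ) d0,
      𝒯.σT j h (tr F 𝒯 e eT h j d) = tr F 𝒯 e eT h j d := by
    intro j h hj
    induction j, hj using Nat.le_induction with
    | base =>
      intro hh d hd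
      rw [gc_tr_le F 𝒯 e eT h le_rfl]
      exact hP.eT_S h hh d (hsub hd)
    | succ j hj ih =>
      intro hh d hd
      have hm : (((pl F e j d).1, (pl F e j d).2.1), tr F 𝒯 e eT h j d)
          ∈ Metric.ball (0 : (ℂ × ℂ) × 𝒯.T j h) κ.ρ := by
        rw [mem_ball_zero_iff]
        exact (hI d hd j hj).tor_lt (hsm d hd) (by omega)
      have hfix : Flow.parX (𝒯.σT j h) (((pl F e j d).1, (pl F e j d).2.1), tr F 𝒯 e eT h j d)
          = (((pl F e j d).1, (pl F e j d).2.1), tr F 𝒯 e eT h j d) := by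
        refine Prod.ext (Prod.ext rfl ?_) (ih (by omega) d hd)
        show -(pl F e j d).2.1 = (pl F e j d).2.1
        rw [gc_z_zero F (hI d hd j hj).S, neg_zero]
      rw [gc_tr_succ F 𝒯 e eT h hj, ← hT.Ψ_par j h hj (by omega) _ hm, hfix]
  refine ⟨⟨han, ?_, hzero, hder, ?_, ?_, hreal⟩, ⟨htan, ?_, hteven⟩, ?_⟩
  · intro j hj d hd
    have h1 := (hI d hd j hj).norm_le (hsm d hd)
    have h2 := (gc_small κ (norm_nonneg d) (hsm d hd)).2.2.1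
    linarith
  · intro j hj d _
    exact (gc_pl_succ F e hj d).symm
  · intro j hj d hd
    exact (hI d hd j hj).S
  · intro j h hj hjh d hd
    exact ((hI d hd j hj).τ h hjh).trans
      (mul_le_mul_of_nonneg_right (by linarith) (by positivity))
  · intro j hj d hd
    exact ⟨((hI d hd j hj).norm_le (hsm d hd)).trans
      (mul_le_mul_of_nonneg_right (by linarith) (norm_nonneg d)),
      (hI d hd j hj).R.trans (mul_le_mul_of_nonneg_right (by linarith) (by positivity))⟩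

end Claimed.Agent.R285.B10
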