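import Claimed.Agent.R285.Flow.Defs

/-!
# ROW 285, layer FLOW, leaf GAP: the `S`-fixed sector ([B] (10.10)-(10.11); consumer [C] s5)           (contract helper21)

Plan.  `S`-fixed means `Z = 0`, `σ B = B`; preserved by `N_par`.  `N_B`: `‖B₊‖ ≤ θ1 ‖B‖`.  `N_u`: `|u₊ - u| ≤ C1 (|u| + ‖B‖) ‖B‖`.
Induction with `|u_i| ≤ 2 ‖Y‖`, `K = 3 C1 / (1 - θ1)`, `r1 = min (r / 3) (1 / K)`.
-/

set_option autoImplicit false

namespace Claimed.Agent.R285.B10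

open Filter Topology

theorem gap_Sfix {F : Raw} {j : ℕ} {Y : ℂ × ℂ × F.A j} (hS : F.S j Y = Y) : Y.2.1 = 0 ∧ F.σ j Y.2.2 = Y.2.2 := by
  have h1 : (F.S j Y).2.1 = Y.2.1 := by rw [hS]
  have h2 : (F.S j Y).2.2 = Y.2.2 := by rw [hS]
  simp only [Raw.S] at h1 h2
  refine ⟨?_, h2⟩
  have h3 : (2 : ℂ) * Y.2.1 = 0 := by linear_combination -h1
  simpa using h3

/-- one step in the `S`-fixed sector = [B] (10.10)-(10.11) = the fields `N_B`, `N_u`, `sc_bd` of `C5.GMapOK`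
(one-coordinate scheme: dummy slot `Φ (t, z, R) = (t', z, R')`, `lam = 1`, `Pz = 0`, `σ = id`; then every state with `z = 0` is `S`-fixed) -/
theorem gap_fields (κ : RawC) (κ' : NFC) (F : Raw) (g : Curve F) (nf : NF F) (h : NFOK κ κ' F g nf) (j : ℕ) (hj : F.j0 ≤ j)
    (Y : ℂ × ℂ × F.A j) (hY : ‖Y‖ < κ'.r) (hS : F.S j Y = Y) :
    F.S (j + 1) (nf.N g j Y) = nf.N g j Y ∧ ‖(nf.N g j Y).2.2‖ ≤ κ'.θ1 * ‖Y.2.2‖ ∧
      ‖(nf.N g j Y).1 - Y.1‖ ≤ κ'.C1 * ((‖Y.1‖ + ‖Y.2.2‖) * ‖Y.2.2‖) ∧ ‖(nf.ch g j Y).1‖ ≤ κ'.C1 * ‖Y‖ ∧ (nf.ch g j Y).2.1 = 0 := by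
  obtain ⟨hZ, hσ⟩ := gap_Sfix hS
  have hmem : Y ∈ Metric.ball (0 : ℂ × ℂ × F.A j) κ'.r := by simpa using hY
  have hmemb : Y ∈ Metric.ball (0 : ℂ × ℂ × F.A j) κ'.rb := by
    have := κ'.hrr
    have := κ'.hrb
    simp only [Metric.mem_ball, dist_zero_right]
    linarith
  have hw : Flow.wn Y = ‖Y.1‖ := by
    simp [Flow.wn, hZ]
  refine ⟨?_, ?_, ?_, ?_, ?_⟩
  · have := h.N_par j hj Y hmem
    rw [hS] at this
    exact this.symm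
  · have := h.N_B j hj Y hmem
    rw [hZ] at this
    simpa using this
  · have := h.N_u j hj Y hmem
    rw [hZ, hw] at this
    simpa using this
  · exact (norm_fst_le _).trans (h.ch_bd j hj Y hmemb).1
  · have := h.ch_par j hj Y hmemb
    rw [hS] at this
    exact (gap_Sfix this.symm).1

/-- **T5**: an `S`-fixed small state (`Z = 0`, `σ B = B`) converges exponentially to the Gaussian line; `u` moves by `O(‖Y‖ ‖B‖)` -/
theorem gapped_stable (κ : RawC) (κ' : NFC) : ∃ r1 K : ℝ, 0 < r1 ∧ r1 ≤ κ'.r ∧ 1 ≤ K ∧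
    ∀ (F : Raw) (g : Curve F) (nf : NF F), NFOK κ κ' F g nf →
    ∀ (j1 : ℕ) (Y : ∀ j, ℂ × ℂ × F.A j), F.j0 ≤ j1 → (∀ j, j1 ≤ j → Y (j + 1) = nf.N g j (Y j)) →
      F.S j1 (Y j1) = Y j1 → ‖Y j1‖ ≤ r1 →
      ∀ i, ‖Y (j1 + i)‖ < κ'.r ∧ F.S (j1 + i) (Y (j1 + i)) = Y (j1 + i) ∧
        ‖(Y (j1 + i)).2.2‖ ≤ κ'.θ1 ^ i * ‖(Y j1).2.2‖ ∧
        ‖(Y (j1 + i)).1 - (Y j1).1‖ ≤ K * ‖Y j1‖ * ‖(Y j1).2.2‖ := by
  obtain ⟨θ, hθe⟩ : ∃ θ : ℝ, θ = κ'.θ1 := ⟨_, rfl⟩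
  obtain ⟨C, hCe⟩ : ∃ C : ℝ, C = κ'.C1 := ⟨_, rfl⟩
  obtain ⟨r, hre⟩ : ∃ r : ℝ, r = κ'.r := ⟨_, rfl⟩
  have hθ0 : 0 < θ := hθe ▸ κ'.hθ0
  have hθ1 : θ < 1 := hθe ▸ κ'.hθ
  have hC : 1 ≤ C := hCe ▸ κ'.hC
  have hr : 0 < r := hre ▸ κ'.hr
  have h1θ : 0 < 1 - θ := by linarith
  obtain ⟨K, hK⟩ : ∃ K : ℝ, K = 3 * C / (1 - θ) := ⟨_, rfl⟩
  have hK1 : 1 ≤ K := by
    rw [hK, le_div_iff₀ h1θ]
    linarith
  have hK0 : 0 < K := by linarith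
  have hKθ : K * (1 - θ) = 3 * C := by
    rw [hK]; field_simp
  refine ⟨min (r / 3) (1 / K), K, lt_min (by positivity) (by positivity), ?_, hK1, ?_⟩
  · rw [← hre]
    exact (min_le_left _ _).trans (by linarith)
  intro F g nf h j1 Y hj1 hrec hS0 hY0
  rw [← hθe, ← hre]
  have hY0r : ‖Y j1‖ ≤ r / 3 := hY0.trans (min_le_left _ _)
  have hY0K : ‖Y j1‖ ≤ 1 / K := hY0.trans (min_le_right _ _)
  obtain ⟨y, hy⟩ : ∃ y : ℝ, y = ‖Y j1‖ := ⟨_, rfl⟩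
  obtain ⟨b, hb⟩ : ∃ b : ℝ, b = ‖(Y j1).2.2‖ := ⟨_, rfl⟩
  rw [← hy] at hY0r hY0K
  rw [← hy, ← hb]
  have hy0 : 0 ≤ y := hy ▸ norm_nonneg _
  have hb0 : 0 ≤ b := hb ▸ norm_nonneg _
  have hby : b ≤ y := by
    rw [hb, hy]
    exact (norm_snd_le _).trans (norm_snd_le _)
  have huy : ‖(Y j1).1‖ ≤ y := hy ▸ norm_fst_le _
  have hKy : K * y ≤ 1 := by
    rw [le_div_iff₀ hK0] at hY0K
    linarith
  have hKyb : K * y * b ≤ y := by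
    calc K * y * b ≤ 1 * b := mul_le_mul_of_nonneg_right hKy hb0
      _ = b := one_mul b
      _ ≤ y := hby
  -- strengthened induction
  have key : ∀ i, ‖Y (j1 + i)‖ < r ∧ F.S (j1 + i) (Y (j1 + i)) = Y (j1 + i) ∧
        ‖(Y (j1 + i)).2.2‖ ≤ θ ^ i * b ∧
        ‖(Y (j1 + i)).1 - (Y j1).1‖ ≤ K * (1 - θ ^ i) * (y * b) := by
    -- from the last three to the first
    have hfirst : ∀ i, F.S (j1 + i) (Y (j1 + i)) = Y (j1 + i) → ‖(Y (j1 + i)).2.2‖ ≤ θ ^ i * b →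
        ‖(Y (j1 + i)).1 - (Y j1).1‖ ≤ K * (1 - θ ^ i) * (y * b) →
        ‖(Y (j1 + i)).1‖ ≤ 2 * y ∧ ‖Y (j1 + i)‖ < r := by
      intro i hS hB hu
      have hθi0 : 0 ≤ θ ^ i := by positivity
      have hθi1 : θ ^ i ≤ 1 := pow_le_one₀ hθ0.le hθ1.le
      have hyb0 : 0 ≤ y * b := by positivity
      have h1 : K * (1 - θ ^ i) * (y * b) ≤ y := by
        calc K * (1 - θ ^ i) * (y * b) ≤ K * 1 * (y * b) :=
              mul_le_mul_of_nonneg_right (mul_le_mul_of_nonneg_left (by linarith) hK0.le) hyb0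
          _ = K * y * b := by ring
          _ ≤ y := hKyb
      have h2 : ‖(Y (j1 + i)).1‖ ≤ 2 * y := by
        have := norm_sub_norm_le (Y (j1 + i)).1 (Y j1).1
        linarith
      refine ⟨h2, ?_⟩
      have h3 : ‖(Y (j1 + i)).2.2‖ ≤ 2 * y := by
        have : θ ^ i * b ≤ 1 * b := mul_le_mul_of_nonneg_right hθi1 hb0
        linarith
      have h4 : ‖Y (j1 + i)‖ ≤ 2 * y := by
        rw [norm_prod_le_iff]
        refine ⟨h2, ?_⟩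
        rw [norm_prod_le_iff]
        refine ⟨?_, h3⟩
        rw [(gap_Sfix hS).1]
        simpa using hy0
      linarith
    intro i
    induction i with
    | zero =>
      refine ⟨?_, hS0, ?_, ?_⟩
      · show ‖Y j1‖ < r
        rw [← hy]; linarith
      · simp only [pow_zero, one_mul]; exact hb.ge
      · show ‖(Y j1).1 - (Y j1).1‖ ≤ _
        simp
    | succ i ih =>
      obtain ⟨i1, i2, i3, i4⟩ := ih
      obtain ⟨hu2, -⟩ := hfirst i i2 i3 i4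
      obtain ⟨f1, f2, f3, -, -⟩ := gap_fields κ κ' F g nf h (j1 + i) (by omega) (Y (j1 + i)) (hre ▸ i1) i2
      have hstep : Y (j1 + (i + 1)) = nf.N g (j1 + i) (Y (j1 + i)) := hrec (j1 + i) (by omega)
      rw [← hstep, ← hθe] at f2
      rw [← hstep, ← hCe] at f3
      have hθi0 : 0 ≤ θ ^ i := by positivity
      have hθi1 : θ ^ i ≤ 1 := pow_le_one₀ hθ0.le hθ1.le
      have g2 : ‖(Y (j1 + (i + 1))).2.2‖ ≤ θ ^ (i + 1) * b := by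
        calc ‖(Y (j1 + (i + 1))).2.2‖ ≤ θ * ‖(Y (j1 + i)).2.2‖ := f2
          _ ≤ θ * (θ ^ i * b) := mul_le_mul_of_nonneg_left i3 hθ0.le
          _ = θ ^ (i + 1) * b := by ring
      have g3 : ‖(Y (j1 + (i + 1))).1 - (Y j1).1‖ ≤ K * (1 - θ ^ (i + 1)) * (y * b) := by
        have hB1 : ‖(Y (j1 + i)).2.2‖ ≤ y := by
          have : θ ^ i * b ≤ 1 * b := mul_le_mul_of_nonneg_right hθi1 hb0
          linarith
        have t1 : (‖(Y (j1 + i)).1‖ + ‖(Y (j1 + i)).2.2‖) * ‖(Y (j1 + i)).2.2‖ ≤ (3 * y) * (θ ^ i * b) :=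
          mul_le_mul (by linarith) i3 (norm_nonneg _) (by positivity)
        have t2 : C * ((‖(Y (j1 + i)).1‖ + ‖(Y (j1 + i)).2.2‖) * ‖(Y (j1 + i)).2.2‖) ≤ C * ((3 * y) * (θ ^ i * b)) :=
          mul_le_mul_of_nonneg_left t1 (by linarith)
        have t3 : ‖(Y (j1 + (i + 1))).1 - (Y j1).1‖ ≤
            ‖(Y (j1 + (i + 1))).1 - (Y (j1 + i)).1‖ + ‖(Y (j1 + i)).1 - (Y j1).1‖ := norm_sub_le_norm_sub_add_norm_sub _ _ _
        have e : K * (1 - θ ^ (i + 1)) * (y * b) = K * (1 - θ ^ i) * (y * b) + (K * (1 - θ)) * (θ ^ i * (y * b)) := by ring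
        rw [e, hKθ]
        have e2 : C * ((3 * y) * (θ ^ i * b)) = 3 * C * (θ ^ i * (y * b)) := by ring
        linarith
      have g1 : F.S (j1 + (i + 1)) (Y (j1 + (i + 1))) = Y (j1 + (i + 1)) := by
        rw [hstep]; exact f1
      exact ⟨(hfirst (i + 1) g1 g2 g3).2, g1, g2, g3⟩
  intro i
  obtain ⟨k1, k2, k3, k4⟩ := key i
  refine ⟨k1, k2, k3, k4.trans ?_⟩
  have hθi0 : 0 ≤ θ ^ i := by positivity
  have hyb0 : 0 ≤ y * b := by positivity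
  calc K * (1 - θ ^ i) * (y * b) ≤ K * 1 * (y * b) :=
        mul_le_mul_of_nonneg_right (mul_le_mul_of_nonneg_left (by linarith) hK0.le) hyb0
    _ = K * y * b := by ring

end Claimed.Agent.R285.B10
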