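import Claimed.Agent.R285.Flow.Schwarz

/-!
# ROW 285, layer FLOW, leaf SCHWARZ2: separately holomorphic bounded functions of two variables with a parity     (helper21)  ALL PROVED

Constants (checked by hand, with slack).
* `sw_param`: difference quotients `P l μ / μ`-type converge uniformly (`sw_taylor2` in `μ`), `TendstoLocallyUniformlyOn.differentiableOn`;
  bound by `Complex.norm_deriv_le_div_of_mapsTo_ball` (`closedBall (f 0) (2 M)`).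
* `sw_even`: (1) `φ = P l ·` is even, `φ 0 = 0`, so `deriv φ 0 = 0` and `‖P l μ‖ ≤ 8 M (|μ|/R)²` (`sw_taylor2`); (2) `l ↦ P l Z - P 0 Z` is bounded by
  `16 M (|Z|/R)²` and vanishes at `0`: Schwarz gives the factor `|u| / R`; (3) `sw_taylor3` for `P 0 ·`.
* `sw_odd`: (1) `φ = P u ·` odd: `φ 0 = 0`, `iteratedDeriv 2 φ 0 = 0` (`iteratedDeriv_comp_neg`), `sw_taylor3`: `‖P u Z - Z a(u)‖ ≤ 16 M (|Z|/R)³`;
  (2) `a` is holomorphic, bounded by `2 M / R` (`sw_param`), `sw_taylor2` for `a`.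
-/

set_option autoImplicit false

namespace Claimed.Agent.R285.B10

open Filter Topology Metric

/-- the derivative at `0` in the second variable of a bounded separately holomorphic function is holomorphic in the first variable
(locally uniform limit of the difference quotients) -/
theorem sw_param {P : ℂ → ℂ → ℂ} {R M : ℝ} (hR : 0 < R)
    (h1 : ∀ μ ∈ ball (0 : ℂ) R, DifferentiableOn ℂ (fun l => P l μ) (ball 0 R))
    (h2 : ∀ l ∈ ball (0 : ℂ) R, DifferentiableOn ℂ (fun μ => P l μ) (ball 0 R))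
    (hM : ∀ l ∈ ball (0 : ℂ) R, ∀ μ ∈ ball (0 : ℂ) R, ‖P l μ‖ ≤ M) :
    DifferentiableOn ℂ (fun l => deriv (fun μ => P l μ) 0) (ball 0 R) ∧
      ∀ l ∈ ball (0 : ℂ) R, ‖deriv (fun μ => P l μ) 0‖ ≤ 2 * M / R := by
  have h0 : (0 : ℂ) ∈ ball (0 : ℂ) R := mem_ball_self hR
  have hM0 : 0 ≤ M := (norm_nonneg _).trans (hM 0 h0 0 h0)
  refine ⟨?_, ?_⟩
  · -- locally uniform limit of difference quotients
    have hunif : TendstoUniformlyOn (fun (μ : ℂ) (l : ℂ) => (P l μ - P l 0) / μ) (fun l => deriv (fun μ => P l μ) 0)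
        (𝓝[≠] (0 : ℂ)) (ball 0 R) := by
      rw [Metric.tendstoUniformlyOn_iff]
      intro ε hε
      have hK : 0 < 8 * M / R ^ 2 + 1 := by positivity
      have hmem : ball (0 : ℂ) (min R (ε / (8 * M / R ^ 2 + 1))) ∈ 𝓝 (0 : ℂ) :=
        ball_mem_nhds 0 (lt_min hR (div_pos hε hK))
      filter_upwards [nhdsWithin_le_nhds hmem, self_mem_nhdsWithin] with μ hμ hμ0 l hl
      rw [mem_ball_zero_iff, lt_min_iff] at hμ
      have hμ0' : μ ≠ 0 := hμ0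
      have hμpos : 0 < ‖μ‖ := norm_pos_iff.mpr hμ0'
      have ht := sw_taylor2 hR (h2 l hl) (hM l hl) μ (by rw [mem_ball_zero_iff]; exact hμ.1)
      rw [dist_comm, dist_eq_norm]
      have e : (P l μ - P l 0) / μ - deriv (fun μ => P l μ) 0 = (P l μ - P l 0 - μ • deriv (fun μ => P l μ) 0) / μ := by
        rw [smul_eq_mul]; field_simp
      rw [e, norm_div, div_lt_iff₀ hμpos]
      have h3 : (8 * M / R ^ 2 + 1) * ‖μ‖ < ε := by
        have := hμ.2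
        rwa [lt_div_iff₀ hK, mul_comm] at this
      calc _ ≤ 8 * M * (‖μ‖ / R) ^ 2 := ht
        _ = (8 * M / R ^ 2 * ‖μ‖) * ‖μ‖ := by field_simp
        _ ≤ ((8 * M / R ^ 2 + 1) * ‖μ‖) * ‖μ‖ := by gcongr; linarith
        _ < ε * ‖μ‖ := by gcongr
    refine hunif.tendstoLocallyUniformlyOn.differentiableOn ?_ isOpen_ball
    filter_upwards [nhdsWithin_le_nhds (ball_mem_nhds (0 : ℂ) hR)] with μ hμ
    exact ((h1 μ hμ).sub (h1 0 h0)).div_const μ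
  · intro l hl
    refine Complex.norm_deriv_le_div_of_mapsTo_ball (h2 l hl) ?_ hR
    intro y hy
    rw [mem_closedBall, dist_eq_norm]
    calc ‖P l y - P l 0‖ ≤ ‖P l y‖ + ‖P l 0‖ := norm_sub_le _ _
      _ ≤ 2 * M := by linarith [hM l hl y hy, hM l hl 0 h0]

/-- an even function has vanishing derivative at `0` -/
theorem sw_even_deriv {f : ℂ → ℂ} {R : ℝ} (hR : 0 < R) (hd : DifferentiableOn ℂ f (ball 0 R))
    (hev : ∀ μ ∈ ball (0 : ℂ) R, f (-μ) = f μ) : deriv f 0 = 0 := by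
  have h0 : (0 : ℂ) ∈ ball (0 : ℂ) R := mem_ball_self hR
  have hda : HasDerivAt f (deriv f 0) 0 := (hd.differentiableAt (isOpen_ball.mem_nhds h0)).hasDerivAt
  have h1 : HasDerivAt (fun μ : ℂ => f (-μ)) (-(deriv f 0)) 0 := by
    have hn : HasDerivAt (fun μ : ℂ => -μ) (-1) 0 := (hasDerivAt_id (0 : ℂ)).neg
    have hda' : HasDerivAt f (deriv f 0) (-(0 : ℂ)) := by simpa using hda
    have := hda'.comp (0 : ℂ) hn
    simpa [Function.comp_def] using this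
  have h2 : (fun μ : ℂ => f (-μ)) =ᶠ[𝓝 0] f := by
    filter_upwards [isOpen_ball.mem_nhds h0] with μ hμ using hev μ hμ
  have h3 := (h1.congr_of_eventuallyEq h2.symm).unique hda
  have : (2 : ℂ) * deriv f 0 = 0 := by linear_combination -h3
  simpa using this

/-- an odd function has vanishing value and second derivative at `0` -/
theorem sw_odd_deriv2 {f : ℂ → ℂ} {R : ℝ} (hR : 0 < R)
    (hodd : ∀ μ ∈ ball (0 : ℂ) R, f (-μ) = -f μ) : f 0 = 0 ∧ iteratedDeriv 2 f 0 = 0 := by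
  have h0 : (0 : ℂ) ∈ ball (0 : ℂ) R := mem_ball_self hR
  constructor
  · have := hodd 0 h0
    rw [neg_zero] at this
    have : (2 : ℂ) * f 0 = 0 := by linear_combination this
    simpa using this
  · have h2 : (fun μ : ℂ => f (-μ)) =ᶠ[𝓝 0] fun μ => -f μ := by
      filter_upwards [isOpen_ball.mem_nhds h0] with μ hμ using hodd μ hμ
    have h3 := h2.iteratedDeriv_eq 2
    rw [iteratedDeriv_comp_neg, iteratedDeriv_fun_neg] at h3
    simp only [neg_zero, even_two, Even.neg_pow, one_pow, one_smul] at h3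
    have : (2 : ℂ) * iteratedDeriv 2 f 0 = 0 := by linear_combination h3
    simpa using this

/-- EVEN case: `P (u, 0) = 0`, `P (u, -Z) = P (u, Z)`  ⟹  `P (u, Z) = c Z² + O((|u| + |Z|) |Z|²)` -/
theorem sw_even {P : ℂ → ℂ → ℂ} {R M : ℝ} (hR : 0 < R)
    (h1 : ∀ μ ∈ ball (0 : ℂ) R, DifferentiableOn ℂ (fun l => P l μ) (ball 0 R))
    (h2 : ∀ l ∈ ball (0 : ℂ) R, DifferentiableOn ℂ (fun μ => P l μ) (ball 0 R))
    (hM : ∀ l ∈ ball (0 : ℂ) R, ∀ μ ∈ ball (0 : ℂ) R, ‖P l μ‖ ≤ M)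
    (h0 : ∀ l ∈ ball (0 : ℂ) R, P l 0 = 0)
    (hev : ∀ l ∈ ball (0 : ℂ) R, ∀ μ ∈ ball (0 : ℂ) R, P l (-μ) = P l μ) :
    ∀ u ∈ ball (0 : ℂ) R, ∀ Z ∈ ball (0 : ℂ) R,
      ‖P u Z - (1 / 2) * iteratedDeriv 2 (fun μ => P 0 μ) 0 * Z ^ 2‖ ≤ 32 * M / R ^ 3 * (‖u‖ + ‖Z‖) * ‖Z‖ ^ 2 := by
  intro u hu Z hZ
  have hz : (0 : ℂ) ∈ ball (0 : ℂ) R := mem_ball_self hR
  have hM0 : 0 ≤ M := (norm_nonneg _).trans (hM 0 hz 0 hz)
  -- (1)
  have s1 : ∀ l ∈ ball (0 : ℂ) R, ‖P l Z‖ ≤ 8 * M * (‖Z‖ / R) ^ 2 := by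
    intro l hl
    have := sw_taylor2 hR (h2 l hl) (hM l hl) Z hZ
    rw [sw_even_deriv hR (h2 l hl) (hev l hl), h0 l hl] at this
    simpa using this
  -- (2)
  have s2 : ‖P u Z - P 0 Z‖ ≤ 16 * M * (‖Z‖ / R) ^ 2 / R * ‖u‖ := by
    have hd : DifferentiableOn ℂ (fun l => P l Z - P 0 Z) (ball 0 R) := (h1 Z hZ).sub (differentiableOn_const _)
    have hmaps : Set.MapsTo (fun l => P l Z - P 0 Z) (ball 0 R)
        (closedBall ((fun l => P l Z - P 0 Z) 0) (16 * M * (‖Z‖ / R) ^ 2)) := by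
      intro l hl
      simp only [sub_self, mem_closedBall_zero_iff]
      calc ‖P l Z - P 0 Z‖ ≤ ‖P l Z‖ + ‖P 0 Z‖ := norm_sub_le _ _
        _ ≤ 16 * M * (‖Z‖ / R) ^ 2 := by linarith [s1 l hl, s1 0 hz]
    have := Complex.dist_le_div_mul_dist_of_mapsTo_ball hd hmaps hu
    simpa using this
  -- (3)
  have s3 : ‖P 0 Z - (Z ^ 2 / 2) * iteratedDeriv 2 (fun μ => P 0 μ) 0‖ ≤ 16 * M * (‖Z‖ / R) ^ 3 := by
    have := sw_taylor3 hR (h2 0 hz) (hM 0 hz) Z hZ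
    rw [sw_even_deriv hR (h2 0 hz) (hev 0 hz), h0 0 hz] at this
    simpa using this
  have e : P u Z - (1 / 2) * iteratedDeriv 2 (fun μ => P 0 μ) 0 * Z ^ 2
      = (P u Z - P 0 Z) + (P 0 Z - (Z ^ 2 / 2) * iteratedDeriv 2 (fun μ => P 0 μ) 0) := by ring
  rw [e]
  have hu0 := norm_nonneg u
  have hZ0 := norm_nonneg Z
  calc _ ≤ ‖P u Z - P 0 Z‖ + ‖P 0 Z - (Z ^ 2 / 2) * iteratedDeriv 2 (fun μ => P 0 μ) 0‖ := norm_add_le _ _
    _ ≤ 16 * M * (‖Z‖ / R) ^ 2 / R * ‖u‖ + 16 * M * (‖Z‖ / R) ^ 3 := add_le_add s2 s3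
    _ = 16 * M / R ^ 3 * (‖u‖ + ‖Z‖) * ‖Z‖ ^ 2 := by field_simp
    _ ≤ 32 * M / R ^ 3 * (‖u‖ + ‖Z‖) * ‖Z‖ ^ 2 := by gcongr; norm_num

/-- ODD case: `P (u, -Z) = - P (u, Z)`  ⟹  `P (u, Z) = a Z + b u Z + O((|u| + |Z|)² |Z|)` -/
theorem sw_odd {P : ℂ → ℂ → ℂ} {R M : ℝ} (hR : 0 < R)
    (h1 : ∀ μ ∈ ball (0 : ℂ) R, DifferentiableOn ℂ (fun l => P l μ) (ball 0 R))
    (h2 : ∀ l ∈ ball (0 : ℂ) R, DifferentiableOn ℂ (fun μ => P l μ) (ball 0 R))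
    (hM : ∀ l ∈ ball (0 : ℂ) R, ∀ μ ∈ ball (0 : ℂ) R, ‖P l μ‖ ≤ M)
    (hodd : ∀ l ∈ ball (0 : ℂ) R, ∀ μ ∈ ball (0 : ℂ) R, P l (-μ) = -P l μ) :
    ∀ u ∈ ball (0 : ℂ) R, ∀ Z ∈ ball (0 : ℂ) R,
      ‖P u Z - deriv (fun μ => P 0 μ) 0 * Z - deriv (fun l => deriv (fun μ => P l μ) 0) 0 * u * Z‖
        ≤ 64 * M / R ^ 3 * (‖u‖ + ‖Z‖) ^ 2 * ‖Z‖ := by
  intro u hu Z hZ
  have hz : (0 : ℂ) ∈ ball (0 : ℂ) R := mem_ball_self hR
  have hM0 : 0 ≤ M := (norm_nonneg _).trans (hM 0 hz 0 hz)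
  obtain ⟨ha, hb⟩ := sw_param hR h1 h2 hM
  set a : ℂ → ℂ := fun l => deriv (fun μ => P l μ) 0 with hadef
  have s1 : ‖P u Z - Z * a u‖ ≤ 16 * M * (‖Z‖ / R) ^ 3 := by
    have := sw_taylor3 hR (h2 u hu) (hM u hu) Z hZ
    obtain ⟨o1, o2⟩ := sw_odd_deriv2 (f := fun μ => P u μ) hR (hodd u hu)
    rw [o2] at this
    simp only [o1] at this
    simpa using this
  have s2 : ‖a u - a 0 - u * deriv a 0‖ ≤ 8 * (2 * M / R) * (‖u‖ / R) ^ 2 := by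
    have := sw_taylor2 hR ha hb u hu
    simpa using this
  have e : P u Z - a 0 * Z - deriv a 0 * u * Z = (P u Z - Z * a u) + Z * (a u - a 0 - u * deriv a 0) := by ring
  rw [e]
  have hu0 := norm_nonneg u
  have hZ0 := norm_nonneg Z
  calc _ ≤ ‖P u Z - Z * a u‖ + ‖Z * (a u - a 0 - u * deriv a 0)‖ := norm_add_le _ _
    _ ≤ 16 * M * (‖Z‖ / R) ^ 3 + ‖Z‖ * (8 * (2 * M / R) * (‖u‖ / R) ^ 2) := by
      rw [norm_mul]
      gcongr
    _ = 16 * M / R ^ 3 * (‖Z‖ ^ 2 + ‖u‖ ^ 2) * ‖Z‖ := by field_simp; ring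
    _ ≤ 64 * M / R ^ 3 * (‖u‖ + ‖Z‖) ^ 2 * ‖Z‖ := by
      have h3 : ‖Z‖ ^ 2 + ‖u‖ ^ 2 ≤ (‖u‖ + ‖Z‖) ^ 2 := by nlinarith
      have h4 : 16 * M / R ^ 3 ≤ 64 * M / R ^ 3 := by gcongr; norm_num
      gcongr

end Claimed.Agent.R285.B10
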