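import Claimed.Agent.R285.Flow.Chart
import Claimed.Agent.R285.Flow.Schwarz2

/-!
# ROW 285, layer FLOW, leaf NFORM: the map in normal coordinates ([B] L10.6 = [F] L5.2, (10.10)-(10.11))       (helper21)  ALL PROVED from `chart_exists`, `ChartOK.mono`, `sw_*`

Plan.  Fix `j ≥ j0`.  `N = ci (j+1) ∘ Φ j ∘ ch j`.
1. `step_in`: `‖Φ X‖ ≤ ‖lin X‖ + C ‖X‖² ≤ (2 + 2 C) ‖X‖` for `‖X‖ ≤ 1`, `‖ch Y‖ ≤ C1 ‖Y‖`: choose `r` small.  `conj` = `ch_ci`.  `N_an`: composition.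
2. `N_g`: `ch (u,0,0) = g j u`, `CurveOK.step`, `ci_ch` at `j + 1`.   `N_par`, `N_re`: `ch_par`, `RawOK.par`, `ci_par` (and `_re`).
3. `N_q`: `Lci (j+1) (lin j (Lch j Y)) = (u, Z, Cc B)` by `bt_rec`, `bz_rec`, `ell_rec`; errors by `ch_q`, `quad`, `ci_q`.
4. `h Y := N Y - (u, Z, Cc B)` is holomorphic and `≤ K ‖Y‖²`: `sw_diff` with `p = (u, Z, 0)`, `v = (0, 0, B)` removes `B` at the cost
   `8 K (‖p‖ + ‖v‖) ‖B‖`;  `N_B`: `sw_diff` again with `p = (u, 0, 0)`, `v = (0, Z, 0)` and `h (u,0,0) = 0`; `θ1 = (1 + θ) / 2`, `r` small.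
5. `N_u`: `sw_even` for `P u Z := (N (u, Z, 0)).1 - u`;   `N_Z`: `sw_odd` for `P u Z := (N (u, Z, 0)).2.1 - Z` (its linear coefficient vanishes by `N_q`).
6. `Hc_bd`, `bc_bd`: Cauchy estimates (`Complex.norm_iteratedDeriv_le_of_forall_mem_sphere_norm_le`, `sw_param`).
-/

set_option autoImplicit false

namespace Claimed.Agent.R285.B10

open Filter Topology Metric

variable {κ : RawC} {d0 r r' rb C1 : ℝ} {F : Raw} {g : Curve F} {nf : NF F}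

theorem nf_lam_le (hF : RawOK κ F) {j : ℕ} (hj : F.j0 ≤ j) : ‖F.lam j‖ ≤ 2 := by
  have h1 := hF.lam_bd j hj
  have h2 := hF.lam_sm
  have hc := κ.hc
  have hC := κ.hC
  have he : Real.exp (-κ.c * j) ≤ Real.exp (-κ.c * F.j0) := by
    apply Real.exp_le_exp.mpr
    have : (F.j0 : ℝ) ≤ j := by exact_mod_cast hj
    nlinarith
  have he1 : Real.exp (-κ.c) < 1 := by
    have := Real.exp_lt_exp.mpr (show -κ.c < 0 by linarith)
    simpa using this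
  have hpos : 0 < 1 - Real.exp (-κ.c) := by linarith
  have hle1 : 1 - Real.exp (-κ.c) ≤ 1 := by linarith [Real.exp_pos (-κ.c)]
  have hx : 0 ≤ κ.C * Real.exp (-κ.c * F.j0) := by positivity
  have h3 : κ.C * Real.exp (-κ.c * F.j0) ≤ κ.C * Real.exp (-κ.c * F.j0) / (1 - Real.exp (-κ.c)) := by
    rw [le_div_iff₀ hpos]; nlinarith
  have h4 : ‖F.lam j - 1‖ ≤ 1 / 4 := by
    calc ‖F.lam j - 1‖ ≤ κ.C * Real.exp (-κ.c * j) := h1
      _ ≤ κ.C * Real.exp (-κ.c * F.j0) := by gcongr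
      _ ≤ 1 / 4 := h3.trans h2
  calc ‖F.lam j‖ = ‖(F.lam j - 1) + 1‖ := by ring_nf
    _ ≤ ‖F.lam j - 1‖ + ‖(1 : ℂ)‖ := norm_add_le _ _
    _ ≤ 2 := by simp only [norm_one]; linarith

theorem nf_lin_le (hF : RawOK κ F) {j : ℕ} (hj : F.j0 ≤ j) (X : ℂ × ℂ × F.A j) : ‖F.lin j X‖ ≤ (2 + κ.C) * ‖X‖ := by
  have hC := κ.hC
  have h1 := nf_fst_le X
  have h2 := nf_snd_le X
  have h3 := nf_trd_le X
  have hX := norm_nonneg X
  have hPt : ‖F.Pt j X.2.2‖ ≤ κ.C * ‖X‖ :=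
    ((F.Pt j).le_opNorm _).trans (mul_le_mul (hF.Pt_bd j hj) h3 (norm_nonneg _) (by linarith))
  have hPz : ‖F.Pz j X.2.2‖ ≤ κ.C * ‖X‖ :=
    ((F.Pz j).le_opNorm _).trans (mul_le_mul (hF.Pz_bd j hj) h3 (norm_nonneg _) (by linarith))
  have hCc : ‖F.Cc j X.2.2‖ ≤ κ.θ * ‖X‖ :=
    ((F.Cc j).le_opNorm _).trans (mul_le_mul (hF.Cc_bd j hj) h3 (norm_nonneg _) κ.hθ0.le)
  unfold Raw.lin
  refine nf_norm_le ?_ ?_ ?_
  · calc ‖X.1 + F.Pt j X.2.2‖ ≤ ‖X.1‖ + ‖F.Pt j X.2.2‖ := norm_add_le _ _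
      _ ≤ (2 + κ.C) * ‖X‖ := by nlinarith
  · calc ‖F.lam j * X.2.1 + F.Pz j X.2.2‖ ≤ ‖F.lam j * X.2.1‖ + ‖F.Pz j X.2.2‖ := norm_add_le _ _
      _ ≤ 2 * ‖X‖ + κ.C * ‖X‖ := by
        rw [norm_mul]
        exact add_le_add (mul_le_mul (nf_lam_le hF hj) h2 (norm_nonneg _) (by norm_num)) hPz
      _ = (2 + κ.C) * ‖X‖ := by ring
  · have := κ.hθ
    nlinarith

theorem nf_Phi_le (hF : RawOK κ F) {j : ℕ} (hj : F.j0 ≤ j) {X : ℂ × ℂ × F.A j} (hX : X ∈ ball (0 : ℂ × ℂ × F.A j) κ.ρ) :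
    ‖F.Φ j X‖ ≤ (2 + κ.C) * ‖X‖ + κ.C * ‖X‖ ^ 2 := by
  have h1 := hF.quad j hj X hX
  have h2 := nf_lin_le hF hj X
  calc ‖F.Φ j X‖ = ‖F.lin j X + (F.Φ j X - F.lin j X)‖ := by congr 1; abel
    _ ≤ ‖F.lin j X‖ + ‖F.Φ j X - F.lin j X‖ := norm_add_le _ _
    _ ≤ _ := add_le_add h2 h1

theorem nf_Lci_sub (j : ℕ) (X X' : ℂ × ℂ × F.A j) : nf.Lci j (X - X') = nf.Lci j X - nf.Lci j X' := by
  unfold NF.Lci NF.Tb NF.Zb
  ext
  · simp only [Prod.fst_sub, Prod.snd_sub, map_sub]; ring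
  · simp only [Prod.fst_sub, Prod.snd_sub, map_sub]; ring
  · simp only [Prod.snd_sub]

theorem nf_lin_sub (j : ℕ) (X X' : ℂ × ℂ × F.A j) : F.lin j (X - X') = F.lin j X - F.lin j X' := by
  unfold Raw.lin
  ext
  · simp only [Prod.fst_sub, Prod.snd_sub, map_sub]; ring
  · simp only [Prod.fst_sub, Prod.snd_sub, map_sub]; ring
  · simp only [Prod.snd_sub, map_sub]

/-- the balance identities: in the balanced coordinates the linear part is `(u, Z, B) ↦ (u, Z, Cc B)` -/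
theorem nf_lin_conj (hb : BalOK κ C1 F nf) {j : ℕ} (hj : F.j0 ≤ j) (Y : ℂ × ℂ × F.A j) :
    nf.Lci (j + 1) (F.lin j (nf.Lch j Y)) = (Y.1, Y.2.1, F.Cc j Y.2.2) := by
  have h1 := hb.bt_rec j hj Y.2.2
  have h2 := hb.bz_rec j hj Y.2.2
  have h3 := hb.ell_rec j hj
  have h4 := (nf_ell_le hb hj).2
  unfold NF.Lci NF.Tb NF.Zb Raw.lin NF.Lch
  ext
  · simp only
    rw [h1]; ring
  · simp only
    rw [h2]
    have h5 : nf.ell (j + 1) * F.lam j = nf.ell j := by rw [h3]; ring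
    have : nf.ell (j + 1) * (F.lam j * ((Y.2.1 - (nf.ell (j + 1) * F.Pz j Y.2.2 + nf.bz (j + 1) (F.Cc j Y.2.2))) / nf.ell j))
        = Y.2.1 - (nf.ell (j + 1) * F.Pz j Y.2.2 + nf.bz (j + 1) (F.Cc j Y.2.2)) := by
      rw [← mul_assoc, h5]; field_simp
    linear_combination this
  · simp only


/-- the nonlinear part of `N` -/
noncomputable def nfH (nf : NF F) (g : Curve F) (j : ℕ) (Y : ℂ × ℂ × F.A j) : ℂ × ℂ × F.A (j + 1) :=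
  nf.N g j Y - (Y.1, Y.2.1, F.Cc j Y.2.2)

/-- what the structured estimates need -/
structure NCore (s Kq : ℝ) (F : Raw) (g : Curve F) (nf : NF F) (j : ℕ) : Prop where
  an : DifferentiableOn ℂ (nf.N g j) (ball 0 s)
  q : ∀ Y ∈ ball (0 : ℂ × ℂ × F.A j) s, ‖nfH nf g j Y‖ ≤ Kq * ‖Y‖ ^ 2
  gfix : ∀ u : ℂ, ‖u‖ < s → nf.N g j (u, 0, 0) = (u, 0, 0)
  par : ∀ Y ∈ ball (0 : ℂ × ℂ × F.A j) s, nf.N g j (F.S j Y) = F.S (j + 1) (nf.N g j Y)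

theorem nf_step (hF : RawOK κ F) (hc : ChartOK κ r r' rb C1 F g nf) (hrr : r ≤ r') (hrb : r' ≤ rb) (hC1 : 1 ≤ C1)
    {s : ℝ} (hs1 : s ≤ r) (hs2 : C1 * s ≤ 1) (hs3 : (2 + 2 * κ.C) * C1 * s ≤ r') {j : ℕ} (hj : F.j0 ≤ j)
    {Y : ℂ × ℂ × F.A j} (hY : Y ∈ ball (0 : ℂ × ℂ × F.A j) s) :
    nf.ch g j Y ∈ ball (0 : ℂ × ℂ × F.A j) κ.ρ ∧ ‖nf.ch g j Y‖ ≤ C1 * ‖Y‖ ∧
      ‖F.Φ j (nf.ch g j Y)‖ ≤ (2 + 2 * κ.C) * C1 * ‖Y‖ ∧ F.Φ j (nf.ch g j Y) ∈ ball (0 : ℂ × ℂ × F.A (j + 1)) r' := by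
  have hC := κ.hC
  have hYs : ‖Y‖ < s := by simpa using hY
  have hYb : Y ∈ ball (0 : ℂ × ℂ × F.A j) rb := by
    rw [mem_ball_zero_iff]; linarith
  obtain ⟨h1, h2⟩ := hc.ch_bd j hj Y hYb
  have hX : nf.ch g j Y ∈ ball (0 : ℂ × ℂ × F.A j) κ.ρ := by rwa [mem_ball_zero_iff]
  have h3 := nf_Phi_le hF hj hX
  have hX1 : ‖nf.ch g j Y‖ ≤ 1 := by
    refine h1.trans (le_trans ?_ hs2)
    gcongr
  have hX0 := norm_nonneg (nf.ch g j Y)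
  have h4 : ‖F.Φ j (nf.ch g j Y)‖ ≤ (2 + 2 * κ.C) * C1 * ‖Y‖ := by
    calc ‖F.Φ j (nf.ch g j Y)‖ ≤ (2 + κ.C) * ‖nf.ch g j Y‖ + κ.C * ‖nf.ch g j Y‖ ^ 2 := h3
      _ ≤ (2 + 2 * κ.C) * ‖nf.ch g j Y‖ := by
        have : ‖nf.ch g j Y‖ ^ 2 ≤ ‖nf.ch g j Y‖ := by nlinarith
        nlinarith
      _ ≤ (2 + 2 * κ.C) * (C1 * ‖Y‖) := by gcongr
      _ = _ := by ring
  refine ⟨hX, h1, h4, ?_⟩
  rw [mem_ball_zero_iff]
  refine lt_of_le_of_lt h4 (lt_of_lt_of_le ?_ hs3)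
  have : 0 < (2 + 2 * κ.C) * C1 := by positivity
  exact mul_lt_mul_of_pos_left hYs this

/-- the constant of `N_q` -/
noncomputable def nfKq (κ : RawC) (C1 : ℝ) : ℝ :=
  C1 * ((2 + 2 * κ.C) * C1) ^ 2 + (2 + C1) * (κ.C * C1 ^ 2) + (2 + C1) * ((2 + κ.C) * C1)

theorem nf_ch_line (j : ℕ) (u : ℂ) : nf.ch g j (u, 0, 0) = g j u := by
  unfold NF.ch
  simp

theorem nf_core (hF : RawOK κ F) (hg : CurveOK κ.ρ d0 F g) (hc : ChartOK κ r r' rb C1 F g nf) (hrr : r ≤ r') (hrb : r' ≤ rb)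
    (hd : rb ≤ d0) (hC1 : 1 ≤ C1)
    {s : ℝ} (hs1 : s ≤ r) (hs2 : C1 * s ≤ 1) (hs3 : (2 + 2 * κ.C) * C1 * s ≤ r') {j : ℕ} (hj : F.j0 ≤ j) :
    NCore s (nfKq κ C1) F g nf j := by
  have hC := κ.hC
  have hj1 : F.j0 ≤ j + 1 := hj.trans (Nat.le_succ j)
  have hst := fun {Y : ℂ × ℂ × F.A j} (hY : Y ∈ ball (0 : ℂ × ℂ × F.A j) s) =>
    nf_step hF hc hrr hrb hC1 hs1 hs2 hs3 hj hY
  have hsb : ball (0 : ℂ × ℂ × F.A j) s ⊆ ball 0 rb := ball_subset_ball (by linarith)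
  refine ⟨?_, ?_, ?_, ?_⟩
  · -- analyticity
    have h1 : DifferentiableOn ℂ (nf.ch g j) (ball 0 s) := (hc.ch_an j hj).mono hsb
    have h2 : DifferentiableOn ℂ (fun Y => F.Φ j (nf.ch g j Y)) (ball 0 s) :=
      (hF.an j hj).comp h1 (fun Y hY => (hst hY).1)
    exact (hc.ci_an (j + 1) hj1).comp h2 (fun Y hY => (hst hY).2.2.2)
  · intro Y hY
    obtain ⟨hX, hX1, hP1, hP2⟩ := hst hY
    set X := nf.ch g j Y with hXdef
    have e : nfH nf g j Y = (nf.ci (j + 1) (F.Φ j X) - nf.Lci (j + 1) (F.Φ j X))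
        + nf.Lci (j + 1) (F.Φ j X - F.lin j X) + nf.Lci (j + 1) (F.lin j (X - nf.Lch j Y)) := by
      rw [nf_Lci_sub, nf_lin_sub, nf_Lci_sub, nf_lin_conj hc.bal hj]
      unfold nfH NF.N
      abel
    have b1 : ‖nf.ci (j + 1) (F.Φ j X) - nf.Lci (j + 1) (F.Φ j X)‖ ≤ C1 * (((2 + 2 * κ.C) * C1) ^ 2 * ‖Y‖ ^ 2) := by
      refine (hc.ci_q (j + 1) hj1 _ hP2).trans ?_
      have : ‖F.Φ j X‖ ^ 2 ≤ ((2 + 2 * κ.C) * C1 * ‖Y‖) ^ 2 := by gcongr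
      rw [mul_pow] at this
      gcongr
    have b2 : ‖nf.Lci (j + 1) (F.Φ j X - F.lin j X)‖ ≤ (2 + C1) * (κ.C * (C1 ^ 2 * ‖Y‖ ^ 2)) := by
      refine (nf_Lci_le hC1 hc.bal hj1 _).trans ?_
      have h1 := hF.quad j hj X hX
      have : ‖X‖ ^ 2 ≤ (C1 * ‖Y‖) ^ 2 := by gcongr
      rw [mul_pow] at this
      gcongr
      exact h1.trans (by gcongr)
    have b3 : ‖nf.Lci (j + 1) (F.lin j (X - nf.Lch j Y))‖ ≤ (2 + C1) * ((2 + κ.C) * (C1 * ‖Y‖ ^ 2)) := by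
      refine (nf_Lci_le hC1 hc.bal hj1 _).trans ?_
      gcongr
      refine (nf_lin_le hF hj _).trans ?_
      gcongr
      refine (hc.ch_q j hj Y (hsb hY)).trans ?_
      gcongr
      exact nf_fst_le Y
    rw [e]
    calc _ ≤ ‖nf.ci (j + 1) (F.Φ j X) - nf.Lci (j + 1) (F.Φ j X)‖ + ‖nf.Lci (j + 1) (F.Φ j X - F.lin j X)‖
          + ‖nf.Lci (j + 1) (F.lin j (X - nf.Lch j Y))‖ := norm_add₃_le
      _ ≤ C1 * (((2 + 2 * κ.C) * C1) ^ 2 * ‖Y‖ ^ 2) + (2 + C1) * (κ.C * (C1 ^ 2 * ‖Y‖ ^ 2))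
          + (2 + C1) * ((2 + κ.C) * (C1 * ‖Y‖ ^ 2)) := add_le_add (add_le_add b1 b2) b3
      _ = nfKq κ C1 * ‖Y‖ ^ 2 := by unfold nfKq; ring
  · intro u hu
    unfold NF.N
    rw [nf_ch_line, hg.step j hj u (by rw [mem_ball_zero_iff]; linarith), ← nf_ch_line (nf := nf) (g := g) (j + 1) u]
    refine (hc.ci_ch (j + 1) hj1 _ ?_).2
    rw [mem_ball_zero_iff]
    have hu0 : 0 ≤ ‖u‖ := norm_nonneg u
    exact nf_norm_lt (by linarith) (by simp; linarith) (by simp; linarith)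
  · intro Y hY
    obtain ⟨hX, hX1, hP1, hP2⟩ := hst hY
    unfold NF.N
    rw [hc.ch_par j hj Y (hsb hY), hF.par j hj _ hX, hc.ci_par (j + 1) hj1 _ hP2]


/-! ### slices -/

section slices

variable {E G : Type*} [NormedAddCommGroup E] [NormedSpace ℂ E] [NormedAddCommGroup G] [NormedSpace ℂ G]

theorem nf_slice1 {f : ℂ × ℂ × E → G} {s : ℝ} (hf : DifferentiableOn ℂ f (ball 0 s)) {μ : ℂ} (hμ : μ ∈ ball (0 : ℂ) s) :
    DifferentiableOn ℂ (fun l : ℂ => f (l, μ, 0)) (ball 0 s) := by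
  refine hf.comp (f := fun l : ℂ => (l, μ, (0 : E))) (by fun_prop) (fun l hl => ?_)
  rw [mem_ball_zero_iff] at *
  exact nf_norm_lt hl hμ (by simpa using lt_of_le_of_lt (norm_nonneg _) hl)

theorem nf_slice2 {f : ℂ × ℂ × E → G} {s : ℝ} (hf : DifferentiableOn ℂ f (ball 0 s)) {l : ℂ} (hl : l ∈ ball (0 : ℂ) s) :
    DifferentiableOn ℂ (fun μ : ℂ => f (l, μ, 0)) (ball 0 s) := by
  refine hf.comp (f := fun μ : ℂ => (l, μ, (0 : E))) (by fun_prop) (fun μ hμ => ?_)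
  rw [mem_ball_zero_iff] at *
  exact nf_norm_lt hl hμ (by simpa using lt_of_le_of_lt (norm_nonneg _) hl)

theorem nf_deriv_zero {f : ℂ → ℂ} {K s : ℝ} (hs : 0 < s) (h : ∀ μ : ℂ, ‖μ‖ < s → ‖f μ‖ ≤ K * ‖μ‖ ^ 2) : deriv f 0 = 0 := by
  have h0 : f 0 = 0 := by
    have := h 0 (by simpa using hs)
    simpa using this
  have : HasDerivAt f 0 0 := by
    rw [hasDerivAt_iff_isLittleO]
    simp only [h0, sub_zero, smul_zero]
    refine Asymptotics.isLittleO_iff.mpr (fun c hc => ?_)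
    have hK : 0 < |K| + 1 := by positivity
    filter_upwards [ball_mem_nhds (0 : ℂ) (lt_min hs (div_pos hc hK))] with x hx
    rw [mem_ball_zero_iff, lt_min_iff] at hx
    have h1 := h x hx.1
    have h2 : (|K| + 1) * ‖x‖ ≤ c := by
      have := hx.2.le
      rwa [le_div_iff₀ hK, mul_comm] at this
    calc ‖f x‖ ≤ K * ‖x‖ ^ 2 := h1
      _ ≤ (|K| + 1) * ‖x‖ ^ 2 := by
        have : K ≤ |K| + 1 := by linarith [le_abs_self K]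
        gcongr
      _ = ((|K| + 1) * ‖x‖) * ‖x‖ := by ring
      _ ≤ c * ‖x‖ := by gcongr
  exact this.deriv

end slices

section core

variable {s Kq : ℝ} {j : ℕ}

theorem nfH_an (h : NCore s Kq F g nf j) : DifferentiableOn ℂ (nfH nf g j) (ball 0 s) := by
  unfold nfH
  refine h.an.sub ?_
  have : Differentiable ℂ (fun Y : ℂ × ℂ × F.A j => (Y.1, Y.2.1, F.Cc j Y.2.2)) := by fun_prop
  exact this.differentiableOn

theorem nfH_line (h : NCore s Kq F g nf j) {u : ℂ} (hu : ‖u‖ < s) : nfH nf g j (u, 0, 0) = 0 := by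
  unfold nfH
  rw [h.gfix u hu]
  simp

/-- removing `B` -/
theorem nfH_diffB (h : NCore s Kq F g nf j) (hK : 0 ≤ Kq) {Y : ℂ × ℂ × F.A j} (hY : ‖Y‖ < s / 4) :
    ‖nfH nf g j Y - nfH nf g j (Y.1, Y.2.1, 0)‖ ≤ 8 * Kq * (Flow.wn Y + ‖Y.2.2‖) * ‖Y.2.2‖ := by
  have hp : ‖((Y.1, Y.2.1, 0) : ℂ × ℂ × F.A j)‖ ≤ Flow.wn Y :=
    nf_norm_le (le_max_left _ _) (le_max_right _ _) (by rw [norm_zero]; exact le_max_of_le_left (norm_nonneg Y.1))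
  have hw : Flow.wn Y ≤ ‖Y‖ := max_le (nf_fst_le Y) (nf_snd_le Y)
  have hv : ‖((0, 0, Y.2.2) : ℂ × ℂ × F.A j)‖ ≤ ‖Y.2.2‖ := nf_norm_le (by simp) (by simp) le_rfl
  have hB : ‖Y.2.2‖ ≤ ‖Y‖ := nf_trd_le Y
  have e : ((Y.1, Y.2.1, 0) : ℂ × ℂ × F.A j) + (0, 0, Y.2.2) = Y := by
    ext <;> simp
  have := sw_diff (nfH_an h) h.q (p := (Y.1, Y.2.1, 0)) (v := (0, 0, Y.2.2)) (by linarith)
  rw [e] at this
  refine this.trans ?_
  have h0 := norm_nonneg ((0, 0, Y.2.2) : ℂ × ℂ × F.A j)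
  have h1 := norm_nonneg ((Y.1, Y.2.1, 0) : ℂ × ℂ × F.A j)
  have h2 : 0 ≤ Flow.wn Y := h1.trans hp
  have h3 := norm_nonneg Y.2.2
  gcongr

/-- removing `Z` -/
theorem nfH_diffZ (h : NCore s Kq F g nf j) (hK : 0 ≤ Kq) {u Z : ℂ} (hu : ‖u‖ < s / 4) (hZ : ‖Z‖ < s / 4) :
    ‖nfH nf g j (u, Z, 0)‖ ≤ 8 * Kq * (‖u‖ + ‖Z‖) * ‖Z‖ := by
  have hu0 := norm_nonneg u
  have hZ0 := norm_nonneg Z
  have hp : ‖((u, 0, 0) : ℂ × ℂ × F.A j)‖ ≤ ‖u‖ := nf_norm_le le_rfl (by simp) (by simp)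
  have hv : ‖((0, Z, 0) : ℂ × ℂ × F.A j)‖ ≤ ‖Z‖ := nf_norm_le (by simp) le_rfl (by simp)
  have e : ((u, 0, 0) : ℂ × ℂ × F.A j) + (0, Z, 0) = (u, Z, 0) := by
    ext <;> simp
  have := sw_diff (nfH_an h) h.q (p := (u, 0, 0)) (v := (0, Z, 0)) (by linarith)
  rw [e, nfH_line h (by linarith), sub_zero] at this
  refine this.trans ?_
  have h0 := norm_nonneg ((0, Z, 0) : ℂ × ℂ × F.A j)
  have h1 := norm_nonneg ((u, 0, 0) : ℂ × ℂ × F.A j)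
  gcongr

theorem nfH_bd (h : NCore s Kq F g nf j) (hK : 0 ≤ Kq) {l μ : ℂ} (hl : l ∈ ball (0 : ℂ) s) (hμ : μ ∈ ball (0 : ℂ) s) :
    ‖nfH nf g j (l, μ, 0)‖ ≤ Kq * s ^ 2 := by
  rw [mem_ball_zero_iff] at hl hμ
  have h1 : ‖((l, μ, 0) : ℂ × ℂ × F.A j)‖ < s := nf_norm_lt hl hμ (by simpa using lt_of_le_of_lt (norm_nonneg _) hl)
  refine (h.q _ (by rwa [mem_ball_zero_iff])).trans ?_
  gcongr


theorem nf_wn_le (Y : ℂ × ℂ × F.A j) : Flow.wn Y ≤ ‖Y‖ := max_le (nf_fst_le Y) (nf_snd_le Y)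

/-- `N_B` -/
theorem nf_NB (hF : RawOK κ F) (hj : F.j0 ≤ j) (h : NCore s Kq F g nf j) (hK : 0 ≤ Kq) {Y : ℂ × ℂ × F.A j} (hY : ‖Y‖ < s / 4)
    (hsm : 16 * Kq * ‖Y‖ ≤ (1 - κ.θ) / 2) :
    ‖(nf.N g j Y).2.2‖ ≤ (1 + κ.θ) / 2 * ‖Y.2.2‖ + 16 * Kq * (Flow.wn Y * ‖Y.2.1‖) := by
  have h1 := nfH_diffB h hK hY
  have hu : ‖Y.1‖ ≤ Flow.wn Y := le_max_left _ _
  have hZ : ‖Y.2.1‖ ≤ Flow.wn Y := le_max_right _ _
  have hw := nf_wn_le Y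
  have hB := nf_trd_le Y
  have h2 := nfH_diffZ h hK (u := Y.1) (Z := Y.2.1) (by linarith) (by linarith)
  have e : (nf.N g j Y).2.2 = F.Cc j Y.2.2 + ((nfH nf g j Y - nfH nf g j (Y.1, Y.2.1, 0)).2.2 + (nfH nf g j (Y.1, Y.2.1, 0)).2.2) := by
    simp only [nfH, Prod.snd_sub]
    abel
  have hCc : ‖F.Cc j Y.2.2‖ ≤ κ.θ * ‖Y.2.2‖ :=
    ((F.Cc j).le_opNorm _).trans (mul_le_mul_of_nonneg_right (hF.Cc_bd j hj) (norm_nonneg _))
  have hB0 := norm_nonneg Y.2.2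
  have hZ0 := norm_nonneg Y.2.1
  have hu0 := norm_nonneg Y.1
  have hw0 : 0 ≤ Flow.wn Y := hu0.trans hu
  rw [e]
  calc _ ≤ ‖F.Cc j Y.2.2‖ + (‖(nfH nf g j Y - nfH nf g j (Y.1, Y.2.1, 0)).2.2‖ + ‖(nfH nf g j (Y.1, Y.2.1, 0)).2.2‖) :=
        (norm_add_le _ _).trans (add_le_add le_rfl (norm_add_le _ _))
    _ ≤ κ.θ * ‖Y.2.2‖ + (8 * Kq * (Flow.wn Y + ‖Y.2.2‖) * ‖Y.2.2‖ + 8 * Kq * (‖Y.1‖ + ‖Y.2.1‖) * ‖Y.2.1‖) :=
        add_le_add hCc (add_le_add ((nf_trd_le _).trans h1) ((nf_trd_le _).trans h2))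
    _ ≤ _ := by
      have a1 : 8 * Kq * (Flow.wn Y + ‖Y.2.2‖) ≤ (1 - κ.θ) / 2 := by
        refine le_trans ?_ hsm
        nlinarith
      have a2 : 8 * Kq * (Flow.wn Y + ‖Y.2.2‖) * ‖Y.2.2‖ ≤ (1 - κ.θ) / 2 * ‖Y.2.2‖ := by gcongr
      have a3 : 8 * Kq * (‖Y.1‖ + ‖Y.2.1‖) * ‖Y.2.1‖ ≤ 8 * Kq * (Flow.wn Y + Flow.wn Y) * ‖Y.2.1‖ := by gcongr
      nlinarith

/-- `N_u` -/
theorem nf_Nu (hs : 0 < s) (h : NCore s Kq F g nf j) (hK : 0 ≤ Kq) {Y : ℂ × ℂ × F.A j} (hY : ‖Y‖ < s / 4) :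
    ‖(nf.N g j Y).1 - (Y.1 - nf.Hc g j * Y.2.1 ^ 2)‖
      ≤ 64 * Kq / s * (Flow.wn Y * ‖Y.2.1‖ ^ 2) + 8 * Kq * ((Flow.wn Y + ‖Y.2.2‖) * ‖Y.2.2‖) := by
  have h1 := nfH_diffB h hK hY
  have hu : ‖Y.1‖ ≤ Flow.wn Y := le_max_left _ _
  have hZ : ‖Y.2.1‖ ≤ Flow.wn Y := le_max_right _ _
  have hw := nf_wn_le Y
  set P : ℂ → ℂ → ℂ := fun l μ => (nfH nf g j (l, μ, 0)).1 with hP
  have hfst : DifferentiableOn ℂ (fun Y => (nfH nf g j Y).1) (ball 0 s) :=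
    differentiable_fst.comp_differentiableOn (nfH_an h)
  have key := sw_even (P := P) (R := s) (M := Kq * s ^ 2) hs
    (fun μ hμ => nf_slice1 hfst hμ) (fun l hl => nf_slice2 hfst hl)
    (fun l hl μ hμ => (nf_fst_le _).trans (nfH_bd h hK hl hμ))
    (fun l hl => by
      simp only [hP]
      rw [nfH_line h (by simpa using hl)]; rfl)
    (fun l hl μ hμ => by
      simp only [hP, nfH]
      have hmem : ((l, μ, 0) : ℂ × ℂ × F.A j) ∈ ball (0 : ℂ × ℂ × F.A j) s := by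
        rw [mem_ball_zero_iff] at *
        exact nf_norm_lt hl hμ (by simpa using lt_of_le_of_lt (norm_nonneg _) hl)
      have := h.par _ hmem
      simp only [Raw.S, map_zero] at this
      rw [this]
      simp only [Prod.fst_sub])
    Y.1 (by rw [mem_ball_zero_iff]; linarith) Y.2.1 (by rw [mem_ball_zero_iff]; linarith)
  have hP0 : (fun μ => P 0 μ) = fun Z : ℂ => (nf.N g j (0, Z, 0)).1 := by
    funext μ
    simp [hP, nfH]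
  rw [hP0] at key
  have e : (nf.N g j Y).1 - (Y.1 - nf.Hc g j * Y.2.1 ^ 2)
      = (nfH nf g j Y - nfH nf g j (Y.1, Y.2.1, 0)).1
        + (P Y.1 Y.2.1 - 1 / 2 * iteratedDeriv 2 (fun Z : ℂ => (nf.N g j (0, Z, 0)).1) 0 * Y.2.1 ^ 2) := by
    simp only [hP, nfH, NF.Hc, Prod.fst_sub]
    ring
  rw [e]
  have hZ0 := norm_nonneg Y.2.1
  have hu0 := norm_nonneg Y.1
  have hw0 : 0 ≤ Flow.wn Y := hu0.trans hu
  calc _ ≤ ‖(nfH nf g j Y - nfH nf g j (Y.1, Y.2.1, 0)).1‖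
        + ‖P Y.1 Y.2.1 - 1 / 2 * iteratedDeriv 2 (fun Z : ℂ => (nf.N g j (0, Z, 0)).1) 0 * Y.2.1 ^ 2‖ := norm_add_le _ _
    _ ≤ 8 * Kq * (Flow.wn Y + ‖Y.2.2‖) * ‖Y.2.2‖ + 32 * (Kq * s ^ 2) / s ^ 3 * (‖Y.1‖ + ‖Y.2.1‖) * ‖Y.2.1‖ ^ 2 :=
        add_le_add ((nf_fst_le _).trans h1) key
    _ ≤ _ := by
      have a1 : 32 * (Kq * s ^ 2) / s ^ 3 = 32 * Kq / s := by field_simp
      rw [a1]
      have a2 : 32 * Kq / s * (‖Y.1‖ + ‖Y.2.1‖) * ‖Y.2.1‖ ^ 2 ≤ 32 * Kq / s * (Flow.wn Y + Flow.wn Y) * ‖Y.2.1‖ ^ 2 := by gcongr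
      have a3 : 32 * Kq / s * (Flow.wn Y + Flow.wn Y) * ‖Y.2.1‖ ^ 2 = 64 * Kq / s * (Flow.wn Y * ‖Y.2.1‖ ^ 2) := by ring
      linarith


/-- the `Z`-component of the nonlinear part on the scalar plane -/
noncomputable def nfPZ (nf : NF F) (g : Curve F) (j : ℕ) (l μ : ℂ) : ℂ := (nfH nf g j (l, μ, 0)).2.1

theorem nfPZ_an (h : NCore s Kq F g nf j) :
    (∀ μ ∈ ball (0 : ℂ) s, DifferentiableOn ℂ (fun l => nfPZ nf g j l μ) (ball 0 s)) ∧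
    (∀ l ∈ ball (0 : ℂ) s, DifferentiableOn ℂ (fun μ => nfPZ nf g j l μ) (ball 0 s)) := by
  have hsnd : DifferentiableOn ℂ (fun Y => (nfH nf g j Y).2.1) (ball 0 s) :=
    (differentiable_fst.comp differentiable_snd).comp_differentiableOn (nfH_an h)
  exact ⟨fun μ hμ => nf_slice1 hsnd hμ, fun l hl => nf_slice2 hsnd hl⟩

theorem nfPZ_bd (h : NCore s Kq F g nf j) (hK : 0 ≤ Kq) :
    ∀ l ∈ ball (0 : ℂ) s, ∀ μ ∈ ball (0 : ℂ) s, ‖nfPZ nf g j l μ‖ ≤ Kq * s ^ 2 :=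
  fun _ hl _ hμ => (nf_snd_le _).trans (nfH_bd h hK hl hμ)

/-- `b_j` in terms of the nonlinear part -/
theorem nf_bc_eq (hs : 0 < s) (h : NCore s Kq F g nf j) :
    nf.bc g j = -deriv (fun l => deriv (fun μ => nfPZ nf g j l μ) 0) 0 := by
  unfold NF.bc
  congr 1
  have hsnd : DifferentiableOn ℂ (fun Y => (nf.N g j Y).2.1) (ball 0 s) :=
    (differentiable_fst.comp differentiable_snd).comp_differentiableOn h.an
  have hev : (fun l => deriv (fun μ => nfPZ nf g j l μ) 0)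
      =ᶠ[𝓝 0] fun u : ℂ => deriv (fun Z : ℂ => (nf.N g j (u, Z, 0)).2.1) 0 - 1 := by
    filter_upwards [ball_mem_nhds (0 : ℂ) hs] with l hl
    have h1 : DifferentiableAt ℂ (fun Z : ℂ => (nf.N g j (l, Z, 0)).2.1) 0 :=
      (nf_slice2 hsnd hl).differentiableAt (ball_mem_nhds 0 hs)
    have h2 : (fun μ => nfPZ nf g j l μ) = fun Z : ℂ => (nf.N g j (l, Z, 0)).2.1 - Z := by
      funext μ
      simp [nfPZ, nfH]
    rw [h2]
    exact (h1.hasDerivAt.sub (hasDerivAt_id (0 : ℂ))).deriv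
  rw [hev.deriv_eq, deriv_sub_const]

/-- `N_Z` -/
theorem nf_NZ (hs : 0 < s) (h : NCore s Kq F g nf j) (hK : 0 ≤ Kq) {Y : ℂ × ℂ × F.A j} (hY : ‖Y‖ < s / 4) :
    ‖(nf.N g j Y).2.1 - (Y.2.1 - nf.bc g j * Y.1 * Y.2.1)‖
      ≤ 256 * Kq / s * (Flow.wn Y ^ 2 * ‖Y.2.1‖) + 8 * Kq * ((Flow.wn Y + ‖Y.2.2‖) * ‖Y.2.2‖) := by
  have h1 := nfH_diffB h hK hY
  have hu : ‖Y.1‖ ≤ Flow.wn Y := le_max_left _ _
  have hZ : ‖Y.2.1‖ ≤ Flow.wn Y := le_max_right _ _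
  have hw := nf_wn_le Y
  have key := sw_odd (P := nfPZ nf g j) (R := s) (M := Kq * s ^ 2) hs (nfPZ_an h).1 (nfPZ_an h).2 (nfPZ_bd h hK)
    (fun l hl μ hμ => by
      simp only [nfPZ, nfH]
      have hmem : ((l, μ, 0) : ℂ × ℂ × F.A j) ∈ ball (0 : ℂ × ℂ × F.A j) s := by
        rw [mem_ball_zero_iff] at *
        exact nf_norm_lt hl hμ (by simpa using lt_of_le_of_lt (norm_nonneg _) hl)
      have := h.par _ hmem
      simp only [Raw.S, map_zero] at this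
      rw [this]
      simp only [Prod.fst_sub, Prod.snd_sub]
      ring)
    Y.1 (by rw [mem_ball_zero_iff]; linarith) Y.2.1 (by rw [mem_ball_zero_iff]; linarith)
  have hd0 : deriv (fun μ => nfPZ nf g j 0 μ) 0 = 0 := by
    refine nf_deriv_zero (K := Kq) hs (fun μ hμ => ?_)
    have hmem : ((0, μ, 0) : ℂ × ℂ × F.A j) ∈ ball (0 : ℂ × ℂ × F.A j) s := by
      rw [mem_ball_zero_iff]
      exact nf_norm_lt (by simpa using hs) hμ (by simpa using hs)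
    refine ((nf_snd_le _).trans (h.q _ hmem)).trans ?_
    have : ‖((0, μ, 0) : ℂ × ℂ × F.A j)‖ ≤ ‖μ‖ := nf_norm_le (by simp) le_rfl (by simp)
    gcongr
  rw [hd0, zero_mul, sub_zero] at key
  have hbc := nf_bc_eq hs h
  have e : (nf.N g j Y).2.1 - (Y.2.1 - nf.bc g j * Y.1 * Y.2.1)
      = (nfH nf g j Y - nfH nf g j (Y.1, Y.2.1, 0)).2.1
        + (nfPZ nf g j Y.1 Y.2.1 - deriv (fun l => deriv (fun μ => nfPZ nf g j l μ) 0) 0 * Y.1 * Y.2.1) := by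
    rw [hbc]
    simp only [nfPZ, nfH, Prod.fst_sub, Prod.snd_sub]
    ring
  rw [e]
  have hZ0 := norm_nonneg Y.2.1
  have hu0 := norm_nonneg Y.1
  have hw0 : 0 ≤ Flow.wn Y := hu0.trans hu
  calc _ ≤ ‖(nfH nf g j Y - nfH nf g j (Y.1, Y.2.1, 0)).2.1‖
        + ‖nfPZ nf g j Y.1 Y.2.1 - deriv (fun l => deriv (fun μ => nfPZ nf g j l μ) 0) 0 * Y.1 * Y.2.1‖ := norm_add_le _ _
    _ ≤ 8 * Kq * (Flow.wn Y + ‖Y.2.2‖) * ‖Y.2.2‖ + 64 * (Kq * s ^ 2) / s ^ 3 * (‖Y.1‖ + ‖Y.2.1‖) ^ 2 * ‖Y.2.1‖ :=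
        add_le_add ((nf_snd_le _).trans h1) key
    _ ≤ _ := by
      have a1 : 64 * (Kq * s ^ 2) / s ^ 3 = 64 * Kq / s := by field_simp
      rw [a1]
      have a2 : 64 * Kq / s * (‖Y.1‖ + ‖Y.2.1‖) ^ 2 * ‖Y.2.1‖ ≤ 64 * Kq / s * (Flow.wn Y + Flow.wn Y) ^ 2 * ‖Y.2.1‖ := by gcongr
      have a3 : 64 * Kq / s * (Flow.wn Y + Flow.wn Y) ^ 2 * ‖Y.2.1‖ = 256 * Kq / s * (Flow.wn Y ^ 2 * ‖Y.2.1‖) := by ring
      linarith

/-- `bc_bd` -/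
theorem nf_bc_le (hs : 0 < s) (h : NCore s Kq F g nf j) (hK : 0 ≤ Kq) : ‖nf.bc g j‖ ≤ 4 * Kq := by
  rw [nf_bc_eq hs h, norm_neg]
  obtain ⟨ha, hb⟩ := sw_param (P := nfPZ nf g j) (R := s) (M := Kq * s ^ 2) hs (nfPZ_an h).1 (nfPZ_an h).2 (nfPZ_bd h hK)
  have hmaps : Set.MapsTo (fun l => deriv (fun μ => nfPZ nf g j l μ) 0) (ball 0 s)
      (closedBall (deriv (fun μ => nfPZ nf g j 0 μ) 0) (4 * Kq * s)) := by
    intro l hl
    rw [mem_closedBall, dist_eq_norm]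
    have e : 2 * (Kq * s ^ 2) / s = 2 * Kq * s := by field_simp
    have h1 := hb l hl
    have h2 := hb 0 (mem_ball_self hs)
    rw [e] at h1 h2
    calc _ ≤ ‖deriv (fun μ => nfPZ nf g j l μ) 0‖ + ‖deriv (fun μ => nfPZ nf g j 0 μ) 0‖ := norm_sub_le _ _
      _ ≤ 4 * Kq * s := by linarith
  have := Complex.norm_deriv_le_div_of_mapsTo_ball ha hmaps hs
  refine this.trans (le_of_eq ?_)
  field_simp

/-- `Hc_bd` -/
theorem nf_Hc_le (hs : 0 < s) (h : NCore s Kq F g nf j) (hK : 0 ≤ Kq) : ‖nf.Hc g j‖ ≤ 4 * Kq := by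
  have hfst : DifferentiableOn ℂ (fun Y => (nfH nf g j Y).1) (ball 0 s) :=
    differentiable_fst.comp_differentiableOn (nfH_an h)
  have hP0 : (fun μ : ℂ => (nfH nf g j (0, μ, 0)).1) = fun Z : ℂ => (nf.N g j (0, Z, 0)).1 := by
    funext μ
    simp [nfH]
  have hd := nf_slice2 hfst (mem_ball_self hs)
  rw [hP0] at hd
  have hr : 0 < s / 2 := by positivity
  have hsub : closedBall (0 : ℂ) (s / 2) ⊆ ball 0 s := closedBall_subset_ball (by linarith)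
  have hdc : DiffContOnCl ℂ (fun Z : ℂ => (nf.N g j (0, Z, 0)).1) (ball 0 (s / 2)) := by
    refine DifferentiableOn.diffContOnCl ?_
    rw [closure_ball _ hr.ne']
    exact hd.mono hsub
  have := Complex.norm_iteratedDeriv_le_of_forall_mem_sphere_norm_le 2 hr hdc
    (C := Kq * s ^ 2) (fun y hy => by
      have := (nf_fst_le _).trans (nfH_bd h hK (mem_ball_self hs) (hsub (sphere_subset_closedBall hy)))
      rw [← congrFun hP0 y]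
      exact this)
  unfold NF.Hc
  rw [norm_mul]
  have e : ‖(-(1 / 2) : ℂ)‖ = 1 / 2 := by simp
  rw [e]
  have e2 : ((2 : ℕ).factorial : ℝ) * (Kq * s ^ 2) / (s / 2) ^ 2 = 8 * Kq := by
    simp only [Nat.factorial]
    field_simp
    ring
  rw [e2] at this
  linarith

end core


theorem nfKq_pos (κ : RawC) {C1 : ℝ} (hC1 : 1 ≤ C1) : 0 < nfKq κ C1 := by
  have := κ.hC
  unfold nfKq
  positivity

/-- **T2b**: from the charts to the normal form -/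
theorem nform_of_chart (κ : RawC) (d0 r r' rb C1 : ℝ) (hr : 0 < r) (hrr : r ≤ r') (hrb : r' ≤ rb) (hd : rb ≤ d0) (hC : 1 ≤ C1) :
    ∃ κ' : NFC, κ'.r ≤ r ∧ κ'.r' = r' ∧ κ'.rb = rb ∧ C1 ≤ κ'.C1 ∧
      ∀ (F : Raw) (g : Curve F) (nf : NF F), RawOK κ F → CurveOK κ.ρ d0 F g → ChartOK κ r r' rb C1 F g nf →
        NFOK κ κ' F g nf := by
  have hκC := κ.hC
  have hθ := κ.hθ
  have hθ0 := κ.hθ0
  set Kq := nfKq κ C1 with hKq
  have hKpos : 0 < Kq := nfKq_pos κ hC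
  have hr' : 0 < r' := lt_of_lt_of_le hr hrr
  set s : ℝ := min r (min (1 / C1) (r' / ((2 + 2 * κ.C) * C1))) with hs
  have hspos : 0 < s := by
    refine lt_min hr (lt_min (by positivity) (by positivity))
  have hs1 : s ≤ r := min_le_left _ _
  have hs2 : C1 * s ≤ 1 := by
    have : s ≤ 1 / C1 := (min_le_right _ _).trans (min_le_left _ _)
    rw [le_div_iff₀ (by positivity)] at this
    linarith
  have hs3 : (2 + 2 * κ.C) * C1 * s ≤ r' := by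
    have : s ≤ r' / ((2 + 2 * κ.C) * C1) := (min_le_right _ _).trans (min_le_right _ _)
    rw [le_div_iff₀ (by positivity)] at this
    linarith
  set rf : ℝ := min (s / 4) ((1 - κ.θ) / (32 * Kq)) with hrf
  have hrfpos : 0 < rf := lt_min (by positivity) (div_pos (by linarith) (by positivity))
  have hrf1 : rf ≤ s / 4 := min_le_left _ _
  have hrf2 : 16 * Kq * rf ≤ (1 - κ.θ) / 2 := by
    have : rf ≤ (1 - κ.θ) / (32 * Kq) := min_le_right _ _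
    rw [le_div_iff₀ (by positivity)] at this
    linarith
  set D1 : ℝ := C1 + 16 * Kq + 256 * Kq / s with hD1
  have hq0 : 0 ≤ 256 * Kq / s := by positivity
  have hD1C : C1 ≤ D1 := by rw [hD1]; linarith
  refine ⟨⟨rf, r', rb, (1 + κ.θ) / 2, D1, hrfpos, by linarith, hrb, by linarith, by linarith, by linarith⟩,
    by show rf ≤ r; linarith, rfl, rfl, hD1C, ?_⟩
  intro F g nf hF hg hc
  have hsub : ∀ j, ball (0 : ℂ × ℂ × F.A j) rf ⊆ ball 0 s := fun j => ball_subset_ball (by linarith)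
  have hcore : ∀ j, F.j0 ≤ j → NCore s Kq F g nf j := fun j hj => nf_core hF hg hc hrr hrb hd hC hs1 hs2 hs3 hj
  have hst := fun (j : ℕ) (hj : F.j0 ≤ j) (Y : ℂ × ℂ × F.A j) (hY : Y ∈ ball (0 : ℂ × ℂ × F.A j) rf) =>
    nf_step hF hc hrr hrb hC hs1 hs2 hs3 hj (hsub j hY)
  have hlt : ∀ j (Y : ℂ × ℂ × F.A j), Y ∈ ball (0 : ℂ × ℂ × F.A j) rf → ‖Y‖ < s / 4 := by
    intro j Y hY
    rw [mem_ball_zero_iff] at hY
    linarith
  refine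
    { toChartOK := hc.mono (by show rf ≤ r; linarith) hD1C
      step_in := ?_, conj := ?_, N_an := ?_, N_g := ?_, N_par := ?_, N_re := ?_, N_q := ?_, N_u := ?_, N_Z := ?_, N_B := ?_,
      Hc_bd := ?_, bc_bd := ?_ }
  · intro j hj Y hY
    have := (hst j hj Y hY).2.2.2
    rwa [mem_ball_zero_iff] at this
  · intro j hj Y hY
    exact hc.ch_ci (j + 1) (hj.trans (Nat.le_succ j)) _ (hst j hj Y hY).2.2.2
  · intro j hj
    exact (hcore j hj).an.mono (hsub j)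
  · intro j hj u hu
    exact (hcore j hj).gfix u (by
      have : ‖u‖ < rf := hu
      linarith)
  · intro j hj Y hY
    exact (hcore j hj).par Y (hsub j hY)
  · intro j hj Y hY
    obtain ⟨hX, -, -, hP2⟩ := hst j hj Y hY
    have hYb : Y ∈ ball (0 : ℂ × ℂ × F.A j) rb := by
      have := hlt j Y hY
      rw [mem_ball_zero_iff]; linarith
    unfold NF.N
    rw [hc.ch_re j hj Y hYb, hF.real j hj _ hX, hc.ci_re (j + 1) (hj.trans (Nat.le_succ j)) _ hP2]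
  · intro j hj Y hY
    have := (hcore j hj).q Y (hsub j hY)
    unfold nfH at this
    refine this.trans ?_
    have : Kq ≤ D1 := by rw [hD1]; linarith
    show Kq * ‖Y‖ ^ 2 ≤ D1 * ‖Y‖ ^ 2
    gcongr
  · intro j hj Y hY
    refine (nf_Nu hspos (hcore j hj) hKpos.le (hlt j Y hY)).trans ?_
    show _ ≤ D1 * _
    have hw0 : 0 ≤ Flow.wn Y := (norm_nonneg Y.1).trans (le_max_left _ _)
    have a1 : 0 ≤ Flow.wn Y * ‖Y.2.1‖ ^ 2 := by positivity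
    have a2 : 0 ≤ (Flow.wn Y + ‖Y.2.2‖) * ‖Y.2.2‖ := by positivity
    have b1 : 64 * Kq / s ≤ D1 := by
      have : 64 * Kq / s ≤ 256 * Kq / s := by gcongr; norm_num
      rw [hD1]; linarith
    have b2 : 8 * Kq ≤ D1 := by rw [hD1]; linarith
    calc _ ≤ D1 * (Flow.wn Y * ‖Y.2.1‖ ^ 2) + D1 * ((Flow.wn Y + ‖Y.2.2‖) * ‖Y.2.2‖) := by gcongr
      _ = _ := by ring
  · intro j hj Y hY
    refine (nf_NZ hspos (hcore j hj) hKpos.le (hlt j Y hY)).trans ?_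
    show _ ≤ D1 * _
    have hw0 : 0 ≤ Flow.wn Y := (norm_nonneg Y.1).trans (le_max_left _ _)
    have a1 : 0 ≤ Flow.wn Y ^ 2 * ‖Y.2.1‖ := by positivity
    have a2 : 0 ≤ (Flow.wn Y + ‖Y.2.2‖) * ‖Y.2.2‖ := by positivity
    have b1 : 256 * Kq / s ≤ D1 := by rw [hD1]; linarith
    have b2 : 8 * Kq ≤ D1 := by rw [hD1]; linarith
    calc _ ≤ D1 * (Flow.wn Y ^ 2 * ‖Y.2.1‖) + D1 * ((Flow.wn Y + ‖Y.2.2‖) * ‖Y.2.2‖) := by gcongr
      _ = _ := by ring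
  · intro j hj Y hY
    have hYr : ‖Y‖ < rf := by simpa using hY
    refine (nf_NB hF hj (hcore j hj) hKpos.le (hlt j Y hY) (le_trans (by gcongr) hrf2)).trans ?_
    show _ ≤ (1 + κ.θ) / 2 * ‖Y.2.2‖ + D1 * _
    have hw0 : 0 ≤ Flow.wn Y := (norm_nonneg Y.1).trans (le_max_left _ _)
    have b2 : 16 * Kq ≤ D1 := by rw [hD1]; linarith
    gcongr
  · intro j hj
    refine (nf_Hc_le hspos (hcore j hj) hKpos.le).trans ?_
    show _ ≤ D1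
    rw [hD1]; linarith
  · intro j hj
    refine (nf_bc_le hspos (hcore j hj) hKpos.le).trans ?_
    show _ ≤ D1
    rw [hD1]; linarith

/-- **T2** ([B] (10.6), L10.6, (10.10)-(10.11); [F] L5.2): THE NORMAL FORM.  The constants depend only on `κ` and `d0`. -/
theorem normal_form (κ : RawC) (d0 : ℝ) (hd : 0 < d0) : ∃ κ' : NFC, ∀ (F : Raw) (g : Curve F),
    RawOK κ F → CurveOK κ.ρ d0 F g → ∃ nf : NF F, NFOK κ κ' F g nf := by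
  obtain ⟨r, r', rb, C1, hr, hrr, hrb, hd0, hC, H⟩ := chart_exists κ d0 hd
  obtain ⟨κ', -, -, -, -, H'⟩ := nform_of_chart κ d0 r r' rb C1 hr hrr hrb hd0 hC
  refine ⟨κ', fun F g hF hg => ?_⟩
  obtain ⟨nf, hnf⟩ := H F g hF hg
  exact ⟨nf, H' F g nf hF hg hnf⟩

end Claimed.Agent.R285.B10
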