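import Claimed.Agent.R285.Flow.Coef

/-!
# ROW 285, layer FLOW: THE CHART CONTRACT between raw coordinates `(t, z, R)` and Flow coordinates `(x, y, Q)`      (interface helper27; proof helper21)  ALL PROVED

Decision D5 (14:55Z): the rate `j⁻²` of [F] L5.3 is dropped; MAP delivers bounded BLOCK SUMS of `b^{zz}_j + H`, `b^{tz}_j + b_*` only.  The bounded partial sums are absorbed in the chart by
a polynomial change of the two scalars.  The consumer (`R285/Asm/RawGlue.lean`) does not want to know HOW the chart is made: it needs exactly the fields of `FChartOK`.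
Producer: `fchart_exists` (helper21, from `B10.normal_form`, `B10.coef_eq`; lemmas `fc_*`: `fc_scalar` = the algebra of the two shears, `shF`/`shI` = shear and its explicit inverse,
`fc_Hc_re`/`fc_bc_re` = the coefficients are real, `fc_mid` = the sheared normal form, `fc_plane`, `fc_ok` = the fields).
-/

set_option autoImplicit false
set_option linter.unusedSectionVars false

namespace Claimed.Agent.R285.B10

open Filter Topology Metric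

noncomputable section

/-- the plane map in Flow coordinates, the chart `(x, y, Q) ↦ (t, z, R)` and its inverse -/
structure FChart (F : Raw) where
  N : ∀ j, ℂ × ℂ × F.A j → ℂ × ℂ × F.A (j + 1)
  ch : ∀ j, ℂ × ℂ × F.A j → ℂ × ℂ × F.A j
  ci : ∀ j, ℂ × ℂ × F.A j → ℂ × ℂ × F.A j

/-- the unbalanced scalars -/
def FChart.sc {F : Raw} (X : FChart F) (j : ℕ) (Y : ℂ × ℂ × F.A j) : ℂ × ℂ := ((X.ch j Y).1, (X.ch j Y).2.1)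

/-- constants of the chart -/
structure FChartC where
  /-- radius in Flow coordinates -/
  ρ : ℝ
  /-- radius of the inverse chart (raw coordinates) -/
  r' : ℝ
  θ : ℝ
  C : ℝ
  hρ : 0 < ρ
  hr' : 0 < r'
  hθ0 : 0 < θ
  hθ : θ < 1
  hC : 1 ≤ C

/-- everything the assembly needs about the chart -/
structure FChartOK (κ : RawC) (d0 bs Hq : ℝ) (c : FChartC) (F : Raw) (g : Curve F) (X : FChart F) : Prop where
  plane : PlaneOK c.ρ c.θ c.C κ.c bs Hq F.j0 X.N X.sc F.σ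
  ch_bd : ∀ j, F.j0 ≤ j → ∀ Y ∈ Metric.ball (0 : ℂ × ℂ × F.A j) c.ρ, ‖X.ch j Y‖ ≤ c.C * ‖Y‖ ∧ ‖X.ch j Y‖ < κ.ρ
  /-- `R = Q + R^g` -/
  ch_R : ∀ j, F.j0 ≤ j → ∀ Y ∈ Metric.ball (0 : ℂ × ℂ × F.A j) c.ρ, ‖(X.ch j Y).2.2 - Y.2.2‖ ≤ c.C * Flow.wn Y ^ 2
  /-- the line `y = 0`, `Q = 0` is the Gaussian curve, `x = b_* d` -/
  ch_g : ∀ j, F.j0 ≤ j → ∀ x : ℂ, ‖x‖ < c.ρ → ‖x / bs‖ < d0 ∧ X.ch j (x, 0, 0) = g j (x / bs)
  conj : ∀ j, F.j0 ≤ j → ∀ Y ∈ Metric.ball (0 : ℂ × ℂ × F.A j) c.ρ, X.ch (j + 1) (X.N j Y) = F.Φ j (X.ch j Y)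
  ci_an : ∀ j, F.j0 ≤ j → DifferentiableOn ℂ (X.ci j) (Metric.ball 0 c.r')
  ci_bd : ∀ j, F.j0 ≤ j → ∀ Z ∈ Metric.ball (0 : ℂ × ℂ × F.A j) c.r', ‖X.ci j Z‖ ≤ c.C * ‖Z‖
  ch_ci : ∀ j, F.j0 ≤ j → ∀ Z ∈ Metric.ball (0 : ℂ × ℂ × F.A j) c.r', X.ch j (X.ci j Z) = Z
  ci_re : ∀ j, F.j0 ≤ j → ∀ Z ∈ Metric.ball (0 : ℂ × ℂ × F.A j) c.r', X.ci j (F.K j Z) = F.K j (X.ci j Z)
  N_re : ∀ j, F.j0 ≤ j → ∀ Y ∈ Metric.ball (0 : ℂ × ℂ × F.A j) c.ρ, X.N j (F.K j Y) = F.K (j + 1) (X.N j Y)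

set_option maxHeartbeats 1000000 in
/-- the scalar computation behind the two shears `Z~ = Z (1 + γ u)`, `u~ = u + β Z~²` -/
theorem fc_scalar {u Z up Zp H b β β' γ γ' Hq bs : ℂ} {w n A : ℝ}
    (hβ : β' = β + H - Hq) (hγ : γ' = γ + b - bs)
    (hu : ‖u‖ ≤ w) (hZ : ‖Z‖ ≤ w) (hn0 : 0 ≤ n) (hA : 1 ≤ A) (hAw : A * w ≤ 1) (hAn : A * n ≤ 1)
    (hH : ‖H‖ ≤ A) (hb : ‖b‖ ≤ A) (hbs : ‖bs‖ ≤ A)
    (hβ0 : ‖β‖ ≤ A) (hβ' : ‖β'‖ ≤ A) (hγ0 : ‖γ‖ ≤ A) (hγ' : ‖γ'‖ ≤ A)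
    (heu : ‖up - (u - H * Z ^ 2)‖ ≤ A * (w ^ 3 + (w + n) * n))
    (heZ : ‖Zp - (Z - b * u * Z)‖ ≤ A * (w ^ 3 + (w + n) * n)) :
    ‖Zp * (1 + γ' * up) - (Z * (1 + γ * u) - bs * (u + β * (Z * (1 + γ * u)) ^ 2) * (Z * (1 + γ * u)))‖
        ≤ 20 * A ^ 2 * (w ^ 3 + (w + n) * n) ∧
    ‖(up + β' * (Zp * (1 + γ' * up)) ^ 2) - ((u + β * (Z * (1 + γ * u)) ^ 2) - Hq * (Z * (1 + γ * u)) ^ 2)‖
        ≤ 2000 * A ^ 3 * (w ^ 3 + (w + n) * n) := by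
  have hw0 : 0 ≤ w := (norm_nonneg u).trans hu
  have hA0 : 0 ≤ A := by linarith
  obtain ⟨E, hE⟩ : ∃ E : ℝ, E = w ^ 3 + (w + n) * n := ⟨_, rfl⟩
  rw [← hE] at heu heZ ⊢
  have hE0 : 0 ≤ E := by rw [hE]; positivity
  have hwE : w ^ 3 ≤ E := by
    have : 0 ≤ (w + n) * n := by positivity
    linarith
  have hw1 : w ≤ 1 := by nlinarith
  have hAE : A ^ 2 * E ≤ 3 := by
    have h1 : A ^ 2 * E = (A * w) ^ 2 * w + (A * w + A * n) * (A * n) := by rw [hE]; ring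
    have h2 : (A * w) ^ 2 * w ≤ 1 := by
      have : (A * w) ^ 2 ≤ 1 := pow_le_one₀ (by positivity) hAw
      nlinarith
    have h3 : (A * w + A * n) * (A * n) ≤ 2 * 1 := by
      apply mul_le_mul (by linarith) hAn (by positivity) (by norm_num)
    linarith
  obtain ⟨eu, hup⟩ : ∃ eu, up = u - H * Z ^ 2 + eu := ⟨up - (u - H * Z ^ 2), by ring⟩
  obtain ⟨eZ, hZp⟩ : ∃ eZ, Zp = Z - b * u * Z + eZ := ⟨Zp - (Z - b * u * Z), by ring⟩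
  have heu' : ‖eu‖ ≤ A * E := by
    have : eu = up - (u - H * Z ^ 2) := by rw [hup]; ring
    rw [this]; exact heu
  have heZ' : ‖eZ‖ ≤ A * E := by
    have : eZ = Zp - (Z - b * u * Z) := by rw [hZp]; ring
    rw [this]; exact heZ
  -- sizes
  have hup_le : ‖up‖ ≤ 2 * w + A * E := by
    rw [hup]
    have h1 : ‖H * Z ^ 2‖ ≤ w := by
      rw [norm_mul, norm_pow]
      calc ‖H‖ * ‖Z‖ ^ 2 ≤ A * w ^ 2 := by gcongr
        _ = (A * w) * w := by ring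
        _ ≤ 1 * w := by gcongr
        _ = w := one_mul _
    calc ‖u - H * Z ^ 2 + eu‖ ≤ ‖u - H * Z ^ 2‖ + ‖eu‖ := norm_add_le _ _
      _ ≤ (‖u‖ + ‖H * Z ^ 2‖) + ‖eu‖ := by gcongr; exact norm_sub_le _ _
      _ ≤ _ := by linarith
  have h1γ : ‖1 + γ * u‖ ≤ 2 := by
    calc ‖1 + γ * u‖ ≤ ‖(1 : ℂ)‖ + ‖γ * u‖ := norm_add_le _ _
      _ = 1 + ‖γ‖ * ‖u‖ := by rw [norm_one, norm_mul]
      _ ≤ 1 + A * w := by gcongr
      _ ≤ 2 := by linarith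
  obtain ⟨Zt, hZt⟩ : ∃ Zt, Zt = Z * (1 + γ * u) := ⟨_, rfl⟩
  rw [← hZt]
  have hZt_le : ‖Zt‖ ≤ 2 * w := by
    rw [hZt, norm_mul]
    calc ‖Z‖ * ‖1 + γ * u‖ ≤ w * 2 := by gcongr
      _ = 2 * w := by ring
  have hAup : A * ‖up‖ ≤ 5 := by
    have : A * (A * E) ≤ 3 := by rw [← mul_assoc, ← pow_two]; exact hAE
    calc A * ‖up‖ ≤ A * (2 * w + A * E) := by gcongr
      _ = 2 * (A * w) + A * (A * E) := by ring
      _ ≤ 5 := by linarith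
  have h1γ' : ‖1 + γ' * up‖ ≤ 6 := by
    calc ‖1 + γ' * up‖ ≤ ‖(1 : ℂ)‖ + ‖γ' * up‖ := norm_add_le _ _
      _ = 1 + ‖γ'‖ * ‖up‖ := by rw [norm_one, norm_mul]
      _ ≤ 1 + A * ‖up‖ := by gcongr
      _ ≤ 6 := by linarith
  have hAA : A ≤ A ^ 2 := by nlinarith
  -- the `Z` component
  have keyZ : Zp * (1 + γ' * up) - (Zt - bs * (u + β * Zt ^ 2) * Zt)
      = -(γ' * H * Z ^ 3) + γ' * eu * Z - b * γ' * u * Z * up + eZ * (1 + γ' * up) + bs * γ * u ^ 2 * Z + bs * β * Zt ^ 3 := by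
    rw [hZt]
    linear_combination (1 + γ' * up) * hZp + (γ' * Z) * hup + (u * Z) * hγ
  have t1 : ‖γ' * H * Z ^ 3‖ ≤ A ^ 2 * E := by
    rw [norm_mul, norm_mul, norm_pow]
    calc ‖γ'‖ * ‖H‖ * ‖Z‖ ^ 3 ≤ A * A * w ^ 3 := by gcongr
      _ ≤ A * A * E := by gcongr
      _ = _ := by ring
  have t2 : ‖γ' * eu * Z‖ ≤ A * E := by
    rw [norm_mul, norm_mul]
    calc ‖γ'‖ * ‖eu‖ * ‖Z‖ ≤ A * (A * E) * w := by gcongr
      _ = (A * w) * (A * E) := by ring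
      _ ≤ 1 * (A * E) := by gcongr
      _ = _ := one_mul _
  have t3 : ‖b * γ' * u * Z * up‖ ≤ 2 * A ^ 2 * E + A * E := by
    rw [norm_mul, norm_mul, norm_mul, norm_mul]
    calc ‖b‖ * ‖γ'‖ * ‖u‖ * ‖Z‖ * ‖up‖ ≤ A * A * w * w * (2 * w + A * E) := by gcongr
      _ = 2 * A ^ 2 * w ^ 3 + (A * w) ^ 2 * (A * E) := by ring
      _ ≤ 2 * A ^ 2 * E + 1 * (A * E) := by
        have : (A * w) ^ 2 ≤ 1 := pow_le_one₀ (by positivity) hAw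
        gcongr
      _ = _ := by ring
  have t4 : ‖eZ * (1 + γ' * up)‖ ≤ 6 * (A * E) := by
    rw [norm_mul]
    calc ‖eZ‖ * ‖1 + γ' * up‖ ≤ (A * E) * 6 := by gcongr
      _ = _ := by ring
  have t5 : ‖bs * γ * u ^ 2 * Z‖ ≤ A ^ 2 * E := by
    rw [norm_mul, norm_mul, norm_mul, norm_pow]
    calc ‖bs‖ * ‖γ‖ * ‖u‖ ^ 2 * ‖Z‖ ≤ A * A * w ^ 2 * w := by gcongr
      _ = A ^ 2 * w ^ 3 := by ring
      _ ≤ _ := by gcongr
  have t6 : ‖bs * β * Zt ^ 3‖ ≤ 8 * A ^ 2 * E := by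
    rw [norm_mul, norm_mul, norm_pow]
    calc ‖bs‖ * ‖β‖ * ‖Zt‖ ^ 3 ≤ A * A * (2 * w) ^ 3 := by gcongr
      _ = 8 * A ^ 2 * w ^ 3 := by ring
      _ ≤ _ := by gcongr
  have hAE' : A * E ≤ A ^ 2 * E := by gcongr
  have DZ : ‖Zp * (1 + γ' * up) - (Zt - bs * (u + β * Zt ^ 2) * Zt)‖ ≤ 20 * A ^ 2 * E := by
    rw [keyZ]
    calc _ ≤ ‖-(γ' * H * Z ^ 3)‖ + ‖γ' * eu * Z‖ + ‖b * γ' * u * Z * up‖ + ‖eZ * (1 + γ' * up)‖ + ‖bs * γ * u ^ 2 * Z‖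
          + ‖bs * β * Zt ^ 3‖ := by
          refine (norm_add_le _ _).trans (add_le_add_left ?_ _)
          refine (norm_add_le _ _).trans (add_le_add_left ?_ _)
          refine (norm_add_le _ _).trans (add_le_add_left ?_ _)
          refine (norm_sub_le _ _).trans (add_le_add_left ?_ _)
          exact norm_add_le _ _
      _ ≤ _ := by rw [norm_neg]; linarith
  refine ⟨DZ, ?_⟩
  -- the `u` component
  obtain ⟨Ztp, hZtp⟩ : ∃ Ztp, Ztp = Zp * (1 + γ' * up) := ⟨_, rfl⟩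
  rw [← hZtp] at DZ ⊢
  have keyu : up + β' * Ztp ^ 2 - (u + β * Zt ^ 2 - Hq * Zt ^ 2)
      = eu + H * (Z ^ 2 * (2 * γ * u + γ ^ 2 * u ^ 2)) + β' * ((Ztp - Zt) * ((Ztp - Zt) + 2 * Zt)) := by
    have : Zt ^ 2 = Z ^ 2 + Z ^ 2 * (2 * γ * u + γ ^ 2 * u ^ 2) := by rw [hZt]; ring
    linear_combination hup + Zt ^ 2 * hβ + H * this
  have s2 : ‖H * (Z ^ 2 * (2 * γ * u + γ ^ 2 * u ^ 2))‖ ≤ 3 * A ^ 2 * E := by
    have h1 : ‖2 * γ * u + γ ^ 2 * u ^ 2‖ ≤ 3 * (A * w) := by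
      calc ‖2 * γ * u + γ ^ 2 * u ^ 2‖ ≤ ‖2 * γ * u‖ + ‖γ ^ 2 * u ^ 2‖ := norm_add_le _ _
        _ = 2 * ‖γ‖ * ‖u‖ + ‖γ‖ ^ 2 * ‖u‖ ^ 2 := by simp [norm_pow]
        _ ≤ 2 * A * w + A ^ 2 * w ^ 2 := by gcongr
        _ = 2 * (A * w) + (A * w) * (A * w) := by ring
        _ ≤ 2 * (A * w) + 1 * (A * w) := by gcongr
        _ = _ := by ring
    rw [norm_mul, norm_mul, norm_pow]
    calc ‖H‖ * (‖Z‖ ^ 2 * ‖2 * γ * u + γ ^ 2 * u ^ 2‖) ≤ A * (w ^ 2 * (3 * (A * w))) := by gcongr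
      _ = 3 * A ^ 2 * w ^ 3 := by ring
      _ ≤ _ := by gcongr
  have hut : ‖u + β * Zt ^ 2‖ ≤ 5 * w := by
    calc ‖u + β * Zt ^ 2‖ ≤ ‖u‖ + ‖β * Zt ^ 2‖ := norm_add_le _ _
      _ = ‖u‖ + ‖β‖ * ‖Zt‖ ^ 2 := by rw [norm_mul, norm_pow]
      _ ≤ w + A * (2 * w) ^ 2 := by gcongr
      _ = w + 4 * (A * w) * w := by ring
      _ ≤ w + 4 * 1 * w := by gcongr
      _ = _ := by ring
  have hδ : ‖Ztp - Zt‖ ≤ 10 * A * w ^ 2 + 20 * A ^ 2 * E := by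
    have e : Ztp - Zt = -(bs * (u + β * Zt ^ 2) * Zt) + (Ztp - (Zt - bs * (u + β * Zt ^ 2) * Zt)) := by ring
    rw [e]
    refine (norm_add_le _ _).trans (add_le_add ?_ DZ)
    rw [norm_neg, norm_mul, norm_mul]
    calc ‖bs‖ * ‖u + β * Zt ^ 2‖ * ‖Zt‖ ≤ A * (5 * w) * (2 * w) := by gcongr
      _ = _ := by ring
  have s3 : ‖β' * ((Ztp - Zt) * ((Ztp - Zt) + 2 * Zt))‖ ≤ 1820 * A ^ 3 * E := by
    obtain ⟨δ, hδd⟩ : ∃ δ : ℝ, δ = 10 * A * w ^ 2 + 20 * A ^ 2 * E := ⟨_, rfl⟩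
    rw [← hδd] at hδ
    have hδ0 : 0 ≤ δ := (norm_nonneg _).trans hδ
    have h1 : ‖(Ztp - Zt) + 2 * Zt‖ ≤ δ + 4 * w := by
      refine (norm_add_le _ _).trans (add_le_add hδ ?_)
      rw [norm_mul]; simp only [Complex.norm_ofNat]; linarith
    have h2 : δ * (δ + 4 * w) ≤ 1820 * A ^ 2 * E := by
      have a1 : A * w ^ 3 ≤ A ^ 2 * E := by
        calc A * w ^ 3 ≤ A * E := by gcongr
          _ ≤ _ := hAE'
      have a2 : 4 * w * δ ≤ 120 * (A ^ 2 * E) := by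
        have : 4 * w * δ = 40 * (A * w ^ 3) + 80 * ((A * w) * (A * E)) := by rw [hδd]; ring
        have h3 : (A * w) * (A * E) ≤ 1 * (A * E) := by gcongr
        linarith
      have a3 : δ * δ ≤ 1700 * (A ^ 2 * E) := by
        have : δ * δ = 100 * ((A * w) * (A * w ^ 3)) + 400 * ((A * w) ^ 2 * (A * E)) + 400 * ((A ^ 2 * E) * (A ^ 2 * E)) := by
          rw [hδd]; ring
        have b1 : (A * w) * (A * w ^ 3) ≤ 1 * (A * w ^ 3) := by gcongr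
        have b2 : (A * w) ^ 2 * (A * E) ≤ 1 * (A * E) := by
          have : (A * w) ^ 2 ≤ 1 := pow_le_one₀ (by positivity) hAw
          gcongr
        have b3 : (A ^ 2 * E) * (A ^ 2 * E) ≤ 3 * (A ^ 2 * E) := by gcongr
        linarith
      have e : δ * (δ + 4 * w) = δ * δ + 4 * w * δ := by ring
      rw [e]; linarith
    rw [norm_mul, norm_mul]
    calc ‖β'‖ * (‖Ztp - Zt‖ * ‖(Ztp - Zt) + 2 * Zt‖) ≤ A * (δ * (δ + 4 * w)) := by gcongr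
      _ ≤ A * (1820 * A ^ 2 * E) := by gcongr
      _ = _ := by ring
  rw [keyu]
  have hA3 : A ^ 2 * E ≤ A ^ 3 * E := by
    have : A ^ 2 ≤ A ^ 3 := by nlinarith [sq_nonneg A]
    gcongr
  calc _ ≤ ‖eu‖ + ‖H * (Z ^ 2 * (2 * γ * u + γ ^ 2 * u ^ 2))‖ + ‖β' * ((Ztp - Zt) * ((Ztp - Zt) + 2 * Zt))‖ := by
        refine (norm_add_le _ _).trans (add_le_add_left ?_ _)
        exact norm_add_le _ _
    _ ≤ _ := by
      have : 0 ≤ A ^ 3 * E := by positivity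
      linarith

section shear

variable {E : Type} [NormedAddCommGroup E] [NormedSpace ℂ E]

/-- the shear `Z~ = Z (1 + γ u)`, `u~ = u + β Z~²` -/
def shF (β γ : ℂ) (Y : ℂ × ℂ × E) : ℂ × ℂ × E :=
  (Y.1 + β * (Y.2.1 * (1 + γ * Y.1)) ^ 2, Y.2.1 * (1 + γ * Y.1), Y.2.2)

/-- its inverse -/
def shI (β γ : ℂ) (Y : ℂ × ℂ × E) : ℂ × ℂ × E :=
  (Y.1 - β * Y.2.1 ^ 2, Y.2.1 / (1 + γ * (Y.1 - β * Y.2.1 ^ 2)), Y.2.2)

theorem fc_wn_fst (Y : ℂ × ℂ × E) : ‖Y.1‖ ≤ Flow.wn Y := le_max_left _ _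
theorem fc_wn_snd (Y : ℂ × ℂ × E) : ‖Y.2.1‖ ≤ Flow.wn Y := le_max_right _ _
theorem fc_wn_nonneg (Y : ℂ × ℂ × E) : 0 ≤ Flow.wn Y := (norm_nonneg _).trans (fc_wn_fst Y)
theorem fc_wn_le (Y : ℂ × ℂ × E) : Flow.wn Y ≤ ‖Y‖ := max_le (nf_fst_le Y) (nf_snd_le Y)

theorem fc_shI_shF {β γ : ℂ} {Y : ℂ × ℂ × E} (h : 1 + γ * Y.1 ≠ 0) : shI β γ (shF β γ Y) = Y := by
  unfold shI shF
  ext
  · simp
  · simp only [add_sub_cancel_right]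
    field_simp
  · rfl

theorem fc_shF_shI {β γ : ℂ} {Y : ℂ × ℂ × E} (h : 1 + γ * (Y.1 - β * Y.2.1 ^ 2) ≠ 0) : shF β γ (shI β γ Y) = Y := by
  unfold shI shF
  ext
  · simp only
    rw [div_mul_cancel₀ _ h]; ring
  · simp only
    rw [div_mul_cancel₀ _ h]
  · rfl

theorem fc_shI_bd {β γ : ℂ} {A : ℝ} (hA : 1 ≤ A) (hβ : ‖β‖ ≤ A) (hγ : ‖γ‖ ≤ A) {Y : ℂ × ℂ × E} (hY : A * Flow.wn Y ≤ 1 / 4) :
    ‖(shI β γ Y).1‖ ≤ 2 * Flow.wn Y ∧ ‖(shI β γ Y).2.1‖ ≤ 2 * ‖Y.2.1‖ ∧ ‖(shI β γ Y).1 - Y.1‖ ≤ A * Flow.wn Y ^ 2 ∧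
      ‖(shI β γ Y).2.1 - Y.2.1‖ ≤ 4 * A * Flow.wn Y ^ 2 ∧ 1 + γ * (Y.1 - β * Y.2.1 ^ 2) ≠ 0 := by
  have h1 := fc_wn_fst Y
  have h2 := fc_wn_snd Y
  have hw := fc_wn_nonneg Y
  obtain ⟨w, hwd⟩ : ∃ w : ℝ, w = Flow.wn Y := ⟨_, rfl⟩
  rw [← hwd] at h1 h2 hw hY ⊢
  have hA0 : 0 ≤ A := by linarith
  have hq : ‖β * Y.2.1 ^ 2‖ ≤ A * w ^ 2 := by
    rw [norm_mul, norm_pow]; gcongr
  have hq' : A * w ^ 2 ≤ w := by
    calc A * w ^ 2 = (A * w) * w := by ring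
      _ ≤ 1 * w := by gcongr; linarith
      _ = w := one_mul _
  have hu : ‖Y.1 - β * Y.2.1 ^ 2‖ ≤ 2 * w := (norm_sub_le _ _).trans (by linarith)
  have hγu : ‖γ * (Y.1 - β * Y.2.1 ^ 2)‖ ≤ 1 / 2 := by
    rw [norm_mul]
    calc ‖γ‖ * ‖Y.1 - β * Y.2.1 ^ 2‖ ≤ A * (2 * w) := by gcongr
      _ = 2 * (A * w) := by ring
      _ ≤ 1 / 2 := by linarith
  have hden : 1 / 2 ≤ ‖1 + γ * (Y.1 - β * Y.2.1 ^ 2)‖ := by
    have : ‖(1 : ℂ)‖ ≤ ‖1 + γ * (Y.1 - β * Y.2.1 ^ 2)‖ + ‖γ * (Y.1 - β * Y.2.1 ^ 2)‖ := by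
      calc ‖(1 : ℂ)‖ = ‖(1 + γ * (Y.1 - β * Y.2.1 ^ 2)) - γ * (Y.1 - β * Y.2.1 ^ 2)‖ := by ring_nf
        _ ≤ _ := norm_sub_le _ _
    rw [norm_one] at this
    linarith
  have hne : 1 + γ * (Y.1 - β * Y.2.1 ^ 2) ≠ 0 := by
    intro h0; rw [h0, norm_zero] at hden; norm_num at hden
  have hinv : ‖(1 + γ * (Y.1 - β * Y.2.1 ^ 2))⁻¹‖ ≤ 2 := by
    rw [norm_inv, inv_le_comm₀ (by linarith) (by norm_num)]; linarith
  refine ⟨hu, ?_, ?_, ?_, hne⟩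
  · unfold shI
    simp only
    rw [div_eq_mul_inv, norm_mul]
    calc ‖Y.2.1‖ * ‖(1 + γ * (Y.1 - β * Y.2.1 ^ 2))⁻¹‖ ≤ ‖Y.2.1‖ * 2 := by gcongr
      _ = _ := by ring
  · unfold shI
    simp only
    rw [sub_sub_cancel_left, norm_neg]; exact hq
  · unfold shI
    simp only
    have e : ∀ z v : ℂ, 1 + v ≠ 0 → z / (1 + v) - z = -(z * v * (1 + v)⁻¹) := by
      intro z v hv; field_simp; ring
    rw [e _ _ hne, norm_neg, norm_mul, norm_mul, norm_mul]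
    calc ‖Y.2.1‖ * (‖γ‖ * ‖Y.1 - β * Y.2.1 ^ 2‖) * ‖(1 + γ * (Y.1 - β * Y.2.1 ^ 2))⁻¹‖ ≤ w * (A * (2 * w)) * 2 := by gcongr
      _ = _ := by ring

theorem fc_shI_wn {β γ : ℂ} {A : ℝ} (hA : 1 ≤ A) (hβ : ‖β‖ ≤ A) (hγ : ‖γ‖ ≤ A) {Y : ℂ × ℂ × E} (hY : A * Flow.wn Y ≤ 1 / 4) :
    Flow.wn (shI β γ Y) ≤ 2 * Flow.wn Y := by
  obtain ⟨h1, h2, -, -, -⟩ := fc_shI_bd hA hβ hγ hY
  exact max_le h1 (h2.trans (by linarith [fc_wn_snd Y]))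

theorem fc_shI_le {β γ : ℂ} {A : ℝ} (hA : 1 ≤ A) (hβ : ‖β‖ ≤ A) (hγ : ‖γ‖ ≤ A) {Y : ℂ × ℂ × E} (hY : A * Flow.wn Y ≤ 1 / 4) :
    ‖shI β γ Y‖ ≤ 2 * ‖Y‖ := by
  obtain ⟨h1, h2, -, -, -⟩ := fc_shI_bd hA hβ hγ hY
  have hw := fc_wn_le Y
  have e : shI β γ Y = ((shI β γ Y).1, (shI β γ Y).2.1, Y.2.2) := rfl
  rw [e]
  exact nf_norm_le (by linarith) (by linarith [nf_snd_le Y]) (by linarith [nf_trd_le Y, norm_nonneg Y])

theorem fc_shF_bd {β γ : ℂ} {A : ℝ} (hA : 1 ≤ A) (hβ : ‖β‖ ≤ A) (hγ : ‖γ‖ ≤ A) {Y : ℂ × ℂ × E} (hY : A * Flow.wn Y ≤ 1) :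
    ‖(shF β γ Y).1‖ ≤ 5 * Flow.wn Y ∧ ‖(shF β γ Y).2.1‖ ≤ 2 * ‖Y.2.1‖ := by
  have h1 := fc_wn_fst Y
  have h2 := fc_wn_snd Y
  have hw := fc_wn_nonneg Y
  obtain ⟨w, hwd⟩ : ∃ w : ℝ, w = Flow.wn Y := ⟨_, rfl⟩
  rw [← hwd] at h1 h2 hw hY ⊢
  have hA0 : 0 ≤ A := by linarith
  have h1γ : ‖1 + γ * Y.1‖ ≤ 2 := by
    calc ‖1 + γ * Y.1‖ ≤ ‖(1 : ℂ)‖ + ‖γ * Y.1‖ := norm_add_le _ _
      _ = 1 + ‖γ‖ * ‖Y.1‖ := by rw [norm_one, norm_mul]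
      _ ≤ 1 + A * w := by gcongr
      _ ≤ 2 := by linarith
  have hZ : ‖Y.2.1 * (1 + γ * Y.1)‖ ≤ 2 * ‖Y.2.1‖ := by
    rw [norm_mul]
    calc ‖Y.2.1‖ * ‖1 + γ * Y.1‖ ≤ ‖Y.2.1‖ * 2 := by gcongr
      _ = _ := by ring
  refine ⟨?_, hZ⟩
  unfold shF
  simp only
  calc ‖Y.1 + β * (Y.2.1 * (1 + γ * Y.1)) ^ 2‖ ≤ ‖Y.1‖ + ‖β * (Y.2.1 * (1 + γ * Y.1)) ^ 2‖ := norm_add_le _ _
    _ = ‖Y.1‖ + ‖β‖ * ‖Y.2.1 * (1 + γ * Y.1)‖ ^ 2 := by rw [norm_mul, norm_pow]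
    _ ≤ w + A * (2 * w) ^ 2 := by
      have : ‖Y.2.1 * (1 + γ * Y.1)‖ ≤ 2 * w := hZ.trans (by linarith)
      gcongr
    _ = w + 4 * (A * w) * w := by ring
    _ ≤ w + 4 * 1 * w := by gcongr
    _ = _ := by ring

theorem fc_shF_le {β γ : ℂ} {A : ℝ} (hA : 1 ≤ A) (hβ : ‖β‖ ≤ A) (hγ : ‖γ‖ ≤ A) {Y : ℂ × ℂ × E} (hY : A * Flow.wn Y ≤ 1) :
    ‖shF β γ Y‖ ≤ 5 * ‖Y‖ := by
  obtain ⟨h1, h2⟩ := fc_shF_bd hA hβ hγ hY
  have hw := fc_wn_le Y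
  have e : shF β γ Y = ((shF β γ Y).1, (shF β γ Y).2.1, Y.2.2) := rfl
  rw [e]
  exact nf_norm_le (by linarith) (by linarith [nf_snd_le Y, norm_nonneg Y]) (by linarith [nf_trd_le Y, norm_nonneg Y])

theorem fc_shF_an (β γ : ℂ) : Differentiable ℂ (shF (E := E) β γ) := by
  unfold shF; fun_prop

theorem fc_shI_an {β γ : ℂ} {s : Set (ℂ × ℂ × E)} (h : ∀ Y ∈ s, 1 + γ * (Y.1 - β * Y.2.1 ^ 2) ≠ 0) :
    DifferentiableOn ℂ (shI (E := E) β γ) s := by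
  unfold shI
  refine DifferentiableOn.prodMk (by fun_prop) (DifferentiableOn.prodMk ?_ (by fun_prop))
  have h1 : DifferentiableOn ℂ (fun Y : ℂ × ℂ × E => Y.2.1) s := by fun_prop
  have h2 : DifferentiableOn ℂ (fun Y : ℂ × ℂ × E => 1 + γ * (Y.1 - β * Y.2.1 ^ 2)) s := by fun_prop
  simp only [div_eq_mul_inv]
  exact h1.fun_mul (h2.fun_inv h)

theorem fc_shF_line (β γ u : ℂ) : shF (E := E) β γ (u, 0, 0) = (u, 0, 0) := by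
  unfold shF; simp

theorem fc_shI_line (β γ u : ℂ) : shI (E := E) β γ (u, 0, 0) = (u, 0, 0) := by
  unfold shI; simp

end shear


/-! ### rescaling -/

section scale

variable {E : Type} [NormedAddCommGroup E] [NormedSpace ℂ E] {bs Hq : ℝ}

theorem fc_sqrt_pos (hb : 0 < bs) (hH : 0 < Hq) : 0 < Real.sqrt (bs * Hq) := Real.sqrt_pos.mpr (mul_pos hb hH)

theorem fc_dn_up (hb : 0 < bs) (hH : 0 < Hq) (Y : ℂ × ℂ × E) : dn bs Hq (up bs Hq Y) = Y := by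
  have h1 : (bs : ℂ) ≠ 0 := by exact_mod_cast hb.ne'
  have h2 : ((Real.sqrt (bs * Hq) : ℝ) : ℂ) ≠ 0 := by exact_mod_cast (fc_sqrt_pos hb hH).ne'
  unfold dn up
  ext
  · simp only; field_simp
  · simp only; field_simp
  · rfl

theorem fc_up_dn (hb : 0 < bs) (hH : 0 < Hq) (Y : ℂ × ℂ × E) : up bs Hq (dn bs Hq Y) = Y := by
  have h1 : (bs : ℂ) ≠ 0 := by exact_mod_cast hb.ne'
  have h2 : ((Real.sqrt (bs * Hq) : ℝ) : ℂ) ≠ 0 := by exact_mod_cast (fc_sqrt_pos hb hH).ne'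
  unfold dn up
  ext
  · simp only; field_simp
  · simp only; field_simp
  · rfl

theorem fc_dn_fst (hb : 0 < bs) (Y : ℂ × ℂ × E) : ‖(dn bs Hq Y).1‖ = ‖Y.1‖ / bs := by
  unfold dn; simp only [norm_div, Complex.norm_real, Real.norm_eq_abs, abs_of_pos hb]

theorem fc_dn_snd (hb : 0 < bs) (hH : 0 < Hq) (Y : ℂ × ℂ × E) : ‖(dn bs Hq Y).2.1‖ = ‖Y.2.1‖ / Real.sqrt (bs * Hq) := by
  unfold dn; simp only [norm_div, Complex.norm_real, Real.norm_eq_abs, abs_of_pos (fc_sqrt_pos hb hH)]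

theorem fc_dn_wn (hb : 0 < bs) (hH : 0 < Hq) (Y : ℂ × ℂ × E) :
    Flow.wn (dn bs Hq Y) ≤ (1 + 1 / bs + 1 / Real.sqrt (bs * Hq)) * Flow.wn Y := by
  have hs := fc_sqrt_pos hb hH
  have hw := fc_wn_nonneg Y
  have p1 : 0 ≤ 1 / bs := by positivity
  have p2 : 0 ≤ 1 / Real.sqrt (bs * Hq) := by positivity
  refine max_le ?_ ?_
  · rw [fc_dn_fst hb, div_eq_mul_one_div, mul_comm]
    have := mul_le_mul_of_nonneg_left (fc_wn_fst Y) p1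
    nlinarith
  · rw [fc_dn_snd hb hH, div_eq_mul_one_div, mul_comm]
    have := mul_le_mul_of_nonneg_left (fc_wn_snd Y) p2
    nlinarith

theorem fc_dn_le (hb : 0 < bs) (hH : 0 < Hq) (Y : ℂ × ℂ × E) :
    ‖dn bs Hq Y‖ ≤ (1 + 1 / bs + 1 / Real.sqrt (bs * Hq)) * ‖Y‖ := by
  have hs := fc_sqrt_pos hb hH
  have hw := fc_wn_le Y
  have h := fc_dn_wn hb hH Y
  have p1 : 0 ≤ 1 / bs := by positivity
  have p2 : 0 ≤ 1 / Real.sqrt (bs * Hq) := by positivity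
  have h' : Flow.wn (dn bs Hq Y) ≤ (1 + 1 / bs + 1 / Real.sqrt (bs * Hq)) * ‖Y‖ :=
    h.trans (mul_le_mul_of_nonneg_left hw (by positivity))
  have e : dn bs Hq Y = ((dn bs Hq Y).1, (dn bs Hq Y).2.1, Y.2.2) := rfl
  rw [e]
  refine nf_norm_le ((fc_wn_fst _).trans h') ((fc_wn_snd _).trans h') ?_
  have := nf_trd_le Y
  have := norm_nonneg Y
  nlinarith

theorem fc_up_le (hb : 0 < bs) (hH : 0 < Hq) (Y : ℂ × ℂ × E) :
    ‖up bs Hq Y‖ ≤ (1 + bs + Real.sqrt (bs * Hq)) * ‖Y‖ := by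
  have hs := fc_sqrt_pos hb hH
  have h1 := nf_fst_le Y
  have h2 := nf_snd_le Y
  have h3 := nf_trd_le Y
  have h0 := norm_nonneg Y
  unfold up
  refine nf_norm_le ?_ ?_ ?_
  · rw [norm_mul, Complex.norm_real, Real.norm_eq_abs, abs_of_pos hb]; nlinarith
  · rw [norm_mul, Complex.norm_real, Real.norm_eq_abs, abs_of_pos hs]; nlinarith
  · nlinarith

theorem fc_dn_an : Differentiable ℂ (dn (E := E) bs Hq) := by unfold dn; fun_prop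
theorem fc_up_an : Differentiable ℂ (up (E := E) bs Hq) := by unfold up; fun_prop

end scale

/-! ### symmetries -/

section sym

variable {F : Raw} {j : ℕ} {bs Hq : ℝ} {β γ : ℂ}

theorem fc_shF_S (Y : ℂ × ℂ × F.A j) : shF β γ (F.S j Y) = F.S j (shF β γ Y) := by
  unfold shF Raw.S
  ext
  · simp only; ring
  · simp only; ring
  · rfl

theorem fc_shI_S (Y : ℂ × ℂ × F.A j) : shI β γ (F.S j Y) = F.S j (shI β γ Y) := by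
  unfold shI Raw.S
  ext
  · simp only; ring
  · simp only [even_two, Even.neg_pow]; ring
  · rfl

theorem fc_shF_K (hβ : starRingEnd ℂ β = β) (hγ : starRingEnd ℂ γ = γ) (Y : ℂ × ℂ × F.A j) :
    shF β γ (F.K j Y) = F.K j (shF β γ Y) := by
  unfold shF Raw.K
  ext
  · simp only [map_add, map_mul, map_pow, map_one, hβ, hγ]
  · simp only [map_add, map_mul, map_one, hγ]
  · rfl

theorem fc_shI_K (hβ : starRingEnd ℂ β = β) (hγ : starRingEnd ℂ γ = γ) (Y : ℂ × ℂ × F.A j) :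
    shI β γ (F.K j Y) = F.K j (shI β γ Y) := by
  unfold shI Raw.K
  ext
  · simp only [map_sub, map_mul, map_pow, hβ]
  · simp only [map_add, map_sub, map_mul, map_pow, map_one, map_div₀, hβ, hγ]
  · rfl

theorem fc_dn_S (Y : ℂ × ℂ × F.A j) : dn bs Hq (F.S j Y) = F.S j (dn bs Hq Y) := by
  unfold dn Raw.S
  ext
  · rfl
  · simp only; ring
  · rfl

theorem fc_up_S (Y : ℂ × ℂ × F.A j) : up bs Hq (F.S j Y) = F.S j (up bs Hq Y) := by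
  unfold up Raw.S
  ext
  · rfl
  · simp only; ring
  · rfl

theorem fc_dn_K (Y : ℂ × ℂ × F.A j) : dn bs Hq (F.K j Y) = F.K j (dn bs Hq Y) := by
  unfold dn Raw.K
  ext
  · simp only [map_div₀, Complex.conj_ofReal]
  · simp only [map_div₀, Complex.conj_ofReal]
  · rfl

theorem fc_up_K (Y : ℂ × ℂ × F.A j) : up bs Hq (F.K j Y) = F.K j (up bs Hq Y) := by
  unfold up Raw.K
  ext
  · simp only [map_mul, Complex.conj_ofReal]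
  · simp only [map_mul, Complex.conj_ofReal]
  · rfl

end sym

/-! ### the coefficients of the normal form are real -/

theorem fc_zero_of_small {x C r : ℝ} (hr : 0 < r) (hC : 0 < C) (h : ∀ t, 0 < t → t < r → |x| ≤ C * t) : x = 0 := by
  by_contra hx
  have hx' : 0 < |x| := abs_pos.mpr hx
  have ht : 0 < min (r / 2) (|x| / (2 * C)) := lt_min (by positivity) (by positivity)
  have h1 := h _ ht ((min_le_left _ _).trans_lt (by linarith))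
  have h2 : C * min (r / 2) (|x| / (2 * C)) ≤ C * (|x| / (2 * C)) := by gcongr; exact min_le_right _ _
  have h3 : C * (|x| / (2 * C)) = |x| / 2 := by field_simp
  linarith

section real

variable {κ : RawC} {κ' : NFC} {F : Raw} {g : Curve F} {nf : NF F} {j : ℕ}

theorem fc_cj_zero (hF : RawOK κ F) (hj : F.j0 ≤ j) : F.cj j 0 = 0 := by
  have h := hF.cj_smul j hj 0 0
  simpa using h

theorem fc_Hc_re (hF : RawOK κ F) (h : NFOK κ κ' F g nf) (hj : F.j0 ≤ j) : (nf.Hc g j).im = 0 := by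
  refine fc_zero_of_small κ'.hr (lt_of_lt_of_le one_pos κ'.hC) (fun t ht htr => ?_)
  have hY : (((0 : ℂ), (t : ℂ), (0 : F.A j)) : ℂ × ℂ × F.A j) ∈ ball (0 : ℂ × ℂ × F.A j) κ'.r := by
    rw [mem_ball_zero_iff]
    refine nf_norm_lt (by simpa using κ'.hr) ?_ (by simpa using κ'.hr)
    rw [Complex.norm_real, Real.norm_eq_abs, abs_of_pos ht]; exact htr
  have hK : F.K j ((0 : ℂ), (t : ℂ), (0 : F.A j)) = ((0 : ℂ), (t : ℂ), (0 : F.A j)) := by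
    unfold Raw.K; simp only [map_zero, Complex.conj_ofReal, fc_cj_zero hF hj]
  have h1 := h.N_re j hj _ hY
  rw [hK] at h1
  have h2 : (nf.N g j ((0 : ℂ), (t : ℂ), (0 : F.A j))).1.im = 0 := by
    have := congrArg (fun X => X.1) h1
    simp only [Raw.K] at this
    exact Complex.conj_eq_iff_im.mp this.symm
  have h3 := h.N_u j hj _ hY
  have hw : Flow.wn (((0 : ℂ), (t : ℂ), (0 : F.A j)) : ℂ × ℂ × F.A j) = t := by
    unfold Flow.wn; simp [abs_of_pos ht, ht.le]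
  simp only [hw, norm_zero, mul_zero, add_zero, Complex.norm_real, Real.norm_eq_abs, abs_of_pos ht] at h3
  have h4 := (Complex.abs_im_le_norm _).trans h3
  have e : ((nf.N g j ((0 : ℂ), (t : ℂ), (0 : F.A j))).1 - (0 - nf.Hc g j * (t : ℂ) ^ 2)).im = (nf.Hc g j).im * t ^ 2 := by
    have : ((t : ℂ) ^ 2) = ((t ^ 2 : ℝ) : ℂ) := by push_cast; ring
    rw [this]
    simp only [Complex.sub_im, Complex.zero_im, Complex.mul_im, Complex.ofReal_im, Complex.ofReal_re, h2]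
    ring
  rw [e, abs_mul, abs_of_pos (pow_pos ht 2)] at h4
  have h5 : |(nf.Hc g j).im| * t ^ 2 ≤ (κ'.C1 * t) * t ^ 2 := by
    calc _ ≤ κ'.C1 * (t * t ^ 2) := h4
      _ = _ := by ring
  exact le_of_mul_le_mul_right h5 (pow_pos ht 2)

theorem fc_bc_re (hF : RawOK κ F) (h : NFOK κ κ' F g nf) (hj : F.j0 ≤ j) : (nf.bc g j).im = 0 := by
  refine fc_zero_of_small κ'.hr (lt_of_lt_of_le one_pos κ'.hC) (fun t ht htr => ?_)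
  have hn : ‖(t : ℂ)‖ = t := by rw [Complex.norm_real, Real.norm_eq_abs, abs_of_pos ht]
  have hY : (((t : ℂ), (t : ℂ), (0 : F.A j)) : ℂ × ℂ × F.A j) ∈ ball (0 : ℂ × ℂ × F.A j) κ'.r := by
    rw [mem_ball_zero_iff]
    exact nf_norm_lt (by rw [hn]; exact htr) (by rw [hn]; exact htr) (by simpa using κ'.hr)
  have hK : F.K j ((t : ℂ), (t : ℂ), (0 : F.A j)) = ((t : ℂ), (t : ℂ), (0 : F.A j)) := by
    unfold Raw.K; simp only [Complex.conj_ofReal, fc_cj_zero hF hj]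
  have h1 := h.N_re j hj _ hY
  rw [hK] at h1
  have h2 : (nf.N g j ((t : ℂ), (t : ℂ), (0 : F.A j))).2.1.im = 0 := by
    have := congrArg (fun X => X.2.1) h1
    simp only [Raw.K] at this
    exact Complex.conj_eq_iff_im.mp this.symm
  have h3 := h.N_Z j hj _ hY
  have hw : Flow.wn (((t : ℂ), (t : ℂ), (0 : F.A j)) : ℂ × ℂ × F.A j) = t := by
    unfold Flow.wn; simp [abs_of_pos ht]
  simp only [hw, norm_zero, mul_zero, add_zero, hn] at h3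
  have h4 := (Complex.abs_im_le_norm _).trans h3
  have e : ((nf.N g j ((t : ℂ), (t : ℂ), (0 : F.A j))).2.1 - ((t : ℂ) - nf.bc g j * (t : ℂ) * (t : ℂ))).im
      = (nf.bc g j).im * t ^ 2 := by
    have : nf.bc g j * (t : ℂ) * (t : ℂ) = nf.bc g j * ((t ^ 2 : ℝ) : ℂ) := by push_cast; ring
    rw [this]
    simp only [Complex.sub_im, Complex.zero_im, Complex.mul_im, Complex.ofReal_im, Complex.ofReal_re, h2]
    ring
  rw [e, abs_mul, abs_of_pos (pow_pos ht 2)] at h4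
  have h5 : |(nf.bc g j).im| * t ^ 2 ≤ (κ'.C1 * t) * t ^ 2 := by
    calc _ ≤ κ'.C1 * (t ^ 2 * t) := h4
      _ = _ := by ring
  exact le_of_mul_le_mul_right h5 (pow_pos ht 2)

end real


/-! ### the sheared normal form -/

/-- the accumulated defects of the coefficients -/
structure ShOK (A bs Hq : ℝ) (F : Raw) (g : Curve F) (nf : NF F) (β γ : ℕ → ℂ) : Prop where
  β_rec : ∀ j, F.j0 ≤ j → β (j + 1) = β j + nf.Hc g j - Hq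
  γ_rec : ∀ j, F.j0 ≤ j → γ (j + 1) = γ j + nf.bc g j - bs
  β_bd : ∀ j, F.j0 ≤ j → ‖β j‖ ≤ A
  γ_bd : ∀ j, F.j0 ≤ j → ‖γ j‖ ≤ A
  β_re : ∀ j, starRingEnd ℂ (β j) = β j
  γ_re : ∀ j, starRingEnd ℂ (γ j) = γ j

theorem fc_pre {E : Type} [NormedAddCommGroup E] [NormedSpace ℂ E] {A ρt : ℝ} (hA : 1 ≤ A) (hρt : A * ρt ≤ 1 / 16) {β γ : ℂ}
    (hβ : ‖β‖ ≤ A) (hγ : ‖γ‖ ≤ A) {W : ℂ × ℂ × E} (hW : ‖W‖ < ρt) :
    A * Flow.wn W ≤ 1 / 4 ∧ ‖shI β γ W‖ < 2 * ρt ∧ ‖shI β γ W‖ ≤ 2 * ‖W‖ ∧ Flow.wn (shI β γ W) ≤ 2 * Flow.wn W ∧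
      shF β γ (shI β γ W) = W := by
  have h0 : A * Flow.wn W ≤ 1 / 4 := by
    have : A * Flow.wn W ≤ A * ρt := by
      have := (fc_wn_le W).trans hW.le
      gcongr
    linarith
  have h1 := fc_shI_le hA hβ hγ h0
  exact ⟨h0, by linarith, h1, fc_shI_wn hA hβ hγ h0, fc_shF_shI (fc_shI_bd hA hβ hγ h0).2.2.2.2⟩

section mid

variable {κ : RawC} {κ' : NFC} {F : Raw} {g : Curve F} {nf : NF F} {j : ℕ} {A bs Hq ρt : ℝ} {β γ : ℕ → ℂ}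

theorem fc_E_mono {w w' n : ℝ} (hw : 0 ≤ w) (hn : 0 ≤ n) {k : ℝ} (hk : 1 ≤ k) (h : w' ≤ k * w) (hw' : 0 ≤ w') :
    w' ^ 3 + (w' + n) * n ≤ k ^ 3 * (w ^ 3 + (w + n) * n) := by
  have h1 : w' ^ 3 ≤ (k * w) ^ 3 := pow_le_pow_left₀ hw' h 3
  have h2 : (w' + n) * n ≤ (k * w + n) * n := by gcongr
  have hk3 : k ≤ k ^ 3 := by nlinarith [sq_nonneg k, sq_nonneg (k - 1)]
  have h3 : (k * w + n) * n ≤ k ^ 3 * ((w + n) * n) := by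
    have e1 : (k * w + n) * n = k * (w * n) + n * n := by ring
    have e2 : k ^ 3 * ((w + n) * n) = k ^ 3 * (w * n) + k ^ 3 * (n * n) := by ring
    rw [e1, e2]
    have p1 : 0 ≤ w * n := by positivity
    have p2 : 0 ≤ n * n := by positivity
    have : k * (w * n) ≤ k ^ 3 * (w * n) := by gcongr
    have : 1 * (n * n) ≤ k ^ 3 * (n * n) := by gcongr; linarith
    linarith
  calc w' ^ 3 + (w' + n) * n ≤ (k * w) ^ 3 + k ^ 3 * ((w + n) * n) := by linarith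
    _ = _ := by ring

theorem fc_mid (h : NFOK κ κ' F g nf) (hS : ShOK A bs Hq F g nf β γ) (hj : F.j0 ≤ j) (hA : 1 ≤ A) (hC1 : κ'.C1 ≤ A)
    (hbs : |bs| ≤ A) (hρt : A * ρt ≤ 1 / 16) (hρr : 2 * ρt ≤ κ'.r) {W : ℂ × ℂ × F.A j} (hW : ‖W‖ < ρt) :
    ‖(shF (β (j + 1)) (γ (j + 1)) (nf.N g j (shI (β j) (γ j) W))).1 - (W.1 - Hq * W.2.1 ^ 2)‖
        ≤ 16000 * A ^ 3 * (Flow.wn W ^ 3 + (Flow.wn W + ‖W.2.2‖) * ‖W.2.2‖) ∧
    ‖(shF (β (j + 1)) (γ (j + 1)) (nf.N g j (shI (β j) (γ j) W))).2.1 - (W.2.1 - bs * W.1 * W.2.1)‖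
        ≤ 160 * A ^ 2 * (Flow.wn W ^ 3 + (Flow.wn W + ‖W.2.2‖) * ‖W.2.2‖) ∧
    ‖(shF (β (j + 1)) (γ (j + 1)) (nf.N g j (shI (β j) (γ j) W))).2.2‖ ≤ κ'.θ1 * ‖W.2.2‖ + 4 * A * Flow.wn W ^ 2 := by
  obtain ⟨h0, h1, h2, h3, h4⟩ := fc_pre hA hρt (hS.β_bd j hj) (hS.γ_bd j hj) hW
  obtain ⟨Y, hY⟩ : ∃ Y, Y = shI (β j) (γ j) W := ⟨_, rfl⟩
  rw [← hY] at h1 h2 h3 h4 ⊢
  have hB : Y.2.2 = W.2.2 := by rw [hY]; rfl
  have hYm : Y ∈ ball (0 : ℂ × ℂ × F.A j) κ'.r := by rw [mem_ball_zero_iff]; linarith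
  have hw0 := fc_wn_nonneg W
  have hwY0 := fc_wn_nonneg Y
  have hA0 : 0 ≤ A := by linarith
  have hC0 : 0 ≤ κ'.C1 := by linarith [κ'.hC]
  obtain ⟨w, hw⟩ : ∃ w : ℝ, w = 2 * Flow.wn W := ⟨_, rfl⟩
  obtain ⟨n, hn⟩ : ∃ n : ℝ, n = ‖W.2.2‖ := ⟨_, rfl⟩
  have hn0 : 0 ≤ n := by rw [hn]; exact norm_nonneg _
  have hww : 0 ≤ w := by rw [hw]; positivity
  have hYw : Flow.wn Y ≤ w := by rw [hw]; exact h3
  have hu : ‖Y.1‖ ≤ w := (fc_wn_fst Y).trans hYw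
  have hZ : ‖Y.2.1‖ ≤ w := (fc_wn_snd Y).trans hYw
  have hAw : A * w ≤ 1 := by rw [hw]; linarith
  have hAn : A * n ≤ 1 := by
    have : n ≤ ρt := by rw [hn]; exact (nf_trd_le W).trans hW.le
    have : A * n ≤ A * ρt := by gcongr
    linarith
  have heu : ‖(nf.N g j Y).1 - (Y.1 - nf.Hc g j * Y.2.1 ^ 2)‖ ≤ A * (w ^ 3 + (w + n) * n) := by
    refine (h.N_u j hj Y hYm).trans ?_
    rw [hB, ← hn]
    calc κ'.C1 * (Flow.wn Y * ‖Y.2.1‖ ^ 2 + (Flow.wn Y + n) * n) ≤ A * (w * w ^ 2 + (w + n) * n) := by gcongr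
      _ = _ := by ring
  have heZ : ‖(nf.N g j Y).2.1 - (Y.2.1 - nf.bc g j * Y.1 * Y.2.1)‖ ≤ A * (w ^ 3 + (w + n) * n) := by
    refine (h.N_Z j hj Y hYm).trans ?_
    rw [hB, ← hn]
    calc κ'.C1 * (Flow.wn Y ^ 2 * ‖Y.2.1‖ + (Flow.wn Y + n) * n) ≤ A * (w ^ 2 * w + (w + n) * n) := by gcongr
      _ = _ := by ring
  have hsc := fc_scalar (Hq := (Hq : ℂ)) (bs := (bs : ℂ)) (hS.β_rec j hj) (hS.γ_rec j hj) hu hZ hn0 hA hAw hAn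
    ((h.Hc_bd j hj).trans hC1) ((h.bc_bd j hj).trans hC1) (by rw [Complex.norm_real]; exact hbs)
    (hS.β_bd j hj) (hS.β_bd (j + 1) (by omega)) (hS.γ_bd j hj) (hS.γ_bd (j + 1) (by omega)) heu heZ
  have e1 : Y.1 + β j * (Y.2.1 * (1 + γ j * Y.1)) ^ 2 = W.1 := congrArg (fun X => X.1) h4
  have e2 : Y.2.1 * (1 + γ j * Y.1) = W.2.1 := congrArg (fun X => X.2.1) h4
  rw [e1, e2] at hsc
  have hE : w ^ 3 + (w + n) * n ≤ 2 ^ 3 * (Flow.wn W ^ 3 + (Flow.wn W + n) * n) :=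
    fc_E_mono hw0 hn0 (by norm_num) hw.le hww
  have hEp : 0 ≤ Flow.wn W ^ 3 + (Flow.wn W + n) * n := by positivity
  rw [← hn]
  refine ⟨?_, ?_, ?_⟩
  · refine hsc.2.trans ?_
    calc 2000 * A ^ 3 * (w ^ 3 + (w + n) * n) ≤ 2000 * A ^ 3 * (2 ^ 3 * (Flow.wn W ^ 3 + (Flow.wn W + n) * n)) := by gcongr
      _ = _ := by ring
  · refine hsc.1.trans ?_
    calc 20 * A ^ 2 * (w ^ 3 + (w + n) * n) ≤ 20 * A ^ 2 * (2 ^ 3 * (Flow.wn W ^ 3 + (Flow.wn W + n) * n)) := by gcongr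
      _ = _ := by ring
  · have h5 := h.N_B j hj Y hYm
    rw [hB, ← hn] at h5
    refine h5.trans ?_
    have : κ'.C1 * (Flow.wn Y * ‖Y.2.1‖) ≤ A * (w * w) := by gcongr
    have e : A * (w * w) = 4 * A * Flow.wn W ^ 2 := by rw [hw]; ring
    have e' : (shF (β (j + 1)) (γ (j + 1)) (nf.N g j Y)).2.2 = (nf.N g j Y).2.2 := rfl
    linarith

end mid

/-- the chart -/
def fcX {F : Raw} (nf : NF F) (g : Curve F) (bs Hq : ℝ) (β γ : ℕ → ℂ) : FChart F where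
  N j Y := up bs Hq (shF (β (j + 1)) (γ (j + 1)) (nf.N g j (shI (β j) (γ j) (dn bs Hq Y))))
  ch j Y := nf.ch g j (shI (β j) (γ j) (dn bs Hq Y))
  ci j X := up bs Hq (shF (β j) (γ j) (nf.ci j X))

theorem fc_ne {γ u : ℂ} {A : ℝ} (hγ : ‖γ‖ ≤ A) (h : A * ‖u‖ < 1) : 1 + γ * u ≠ 0 := by
  intro h0
  have e : γ * u = -1 := by linear_combination h0
  have h1 : ‖γ * u‖ = 1 := by rw [e, norm_neg, norm_one]
  rw [norm_mul] at h1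
  have : ‖γ‖ * ‖u‖ ≤ A * ‖u‖ := by gcongr
  linarith

section asm

variable {κ : RawC} {κ' : NFC} {F : Raw} {g : Curve F} {nf : NF F} {j : ℕ} {A bs Hq ρt ρ a1 : ℝ} {β γ : ℕ → ℂ}

theorem fc_N_le (hF : RawOK κ F) (h : NFOK κ κ' F g nf) (hj : F.j0 ≤ j) {Y : ℂ × ℂ × F.A j}
    (hY : Y ∈ ball (0 : ℂ × ℂ × F.A j) κ'.r) (hs : κ'.C1 * ‖Y‖ ≤ 1) : ‖nf.N g j Y‖ ≤ 2 * ‖Y‖ := by
  have h1 := h.N_q j hj Y hY
  have h2 : ‖((Y.1, Y.2.1, F.Cc j Y.2.2) : ℂ × ℂ × F.A (j + 1))‖ ≤ ‖Y‖ := by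
    refine nf_norm_le (nf_fst_le Y) (nf_snd_le Y) ?_
    have h3 : ‖F.Cc j Y.2.2‖ ≤ κ.θ * ‖Y.2.2‖ :=
      ((F.Cc j).le_opNorm _).trans (mul_le_mul_of_nonneg_right (hF.Cc_bd j hj) (norm_nonneg _))
    have h4 : κ.θ * ‖Y.2.2‖ ≤ 1 * ‖Y.2.2‖ := mul_le_mul_of_nonneg_right κ.hθ.le (norm_nonneg _)
    linarith [nf_trd_le Y]
  have h5 : κ'.C1 * ‖Y‖ ^ 2 ≤ ‖Y‖ := by
    calc κ'.C1 * ‖Y‖ ^ 2 = (κ'.C1 * ‖Y‖) * ‖Y‖ := by ring
      _ ≤ 1 * ‖Y‖ := mul_le_mul_of_nonneg_right hs (norm_nonneg _)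
      _ = ‖Y‖ := one_mul _
  calc ‖nf.N g j Y‖ = ‖(nf.N g j Y - (Y.1, Y.2.1, F.Cc j Y.2.2)) + (Y.1, Y.2.1, F.Cc j Y.2.2)‖ := by rw [sub_add_cancel]
    _ ≤ ‖nf.N g j Y - (Y.1, Y.2.1, F.Cc j Y.2.2)‖ + ‖((Y.1, Y.2.1, F.Cc j Y.2.2) : ℂ × ℂ × F.A (j + 1))‖ := norm_add_le _ _
    _ ≤ _ := by linarith

theorem fc_W (hb : 0 < bs) (hH : 0 < Hq) (ha1 : a1 = 1 + 1 / bs + 1 / Real.sqrt (bs * Hq)) (hρ : a1 * ρ ≤ ρt)
    {Y : ℂ × ℂ × F.A j} (hY : Y ∈ ball (0 : ℂ × ℂ × F.A j) ρ) : ‖dn bs Hq Y‖ < ρt := by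
  rw [mem_ball_zero_iff] at hY
  have h := fc_dn_le hb hH Y
  rw [← ha1] at h
  have hs := fc_sqrt_pos hb hH
  have h1 : 0 < a1 := by rw [ha1]; positivity
  have : a1 * ‖Y‖ < a1 * ρ := by gcongr
  linarith

/-- the inner chart `Y ↦ shI (dn Y)` -/
theorem fc_P (hb : 0 < bs) (hH : 0 < Hq) (ha1 : a1 = 1 + 1 / bs + 1 / Real.sqrt (bs * Hq)) (hρ : a1 * ρ ≤ ρt)
    (hS : ShOK A bs Hq F g nf β γ) (hj : F.j0 ≤ j) (hA : 1 ≤ A) (hρt : A * ρt ≤ 1 / 16) (hρr : 2 * ρt ≤ κ'.r) :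
    DifferentiableOn ℂ (fun Y : ℂ × ℂ × F.A j => shI (β j) (γ j) (dn bs Hq Y)) (ball 0 ρ) ∧
      Set.MapsTo (fun Y : ℂ × ℂ × F.A j => shI (β j) (γ j) (dn bs Hq Y)) (ball 0 ρ) (ball 0 κ'.r) := by
  constructor
  · have h1 : DifferentiableOn ℂ (shI (E := F.A j) (β j) (γ j)) (ball 0 ρt) := by
      refine fc_shI_an (fun W hW => ?_)
      rw [mem_ball_zero_iff] at hW
      exact (fc_shI_bd hA (hS.β_bd j hj) (hS.γ_bd j hj) (fc_pre hA hρt (hS.β_bd j hj) (hS.γ_bd j hj) hW).1).2.2.2.2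
    exact h1.comp (fc_dn_an (E := F.A j)).differentiableOn
      (fun Y hY => by rw [mem_ball_zero_iff]; exact fc_W hb hH ha1 hρ hY)
  · intro Y hY
    have := (fc_pre hA hρt (hS.β_bd j hj) (hS.γ_bd j hj) (fc_W hb hH ha1 hρ hY)).2.1
    rw [mem_ball_zero_iff]; linarith

end asm


/-- the choice of constants -/
structure FcC (κ' : NFC) (d0 bs Hq A ρt a1 a2 : ℝ) (c : FChartC) : Prop where
  hb : 0 < bs
  hH : 0 < Hq
  ha1 : a1 = 1 + 1 / bs + 1 / Real.sqrt (bs * Hq)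
  ha2 : a2 = 1 + bs + Real.sqrt (bs * Hq)
  hA : 1 ≤ A
  hC1 : κ'.C1 ≤ A
  hbs : bs ≤ A
  hρt : A * ρt ≤ 1 / 16
  hρr : 2 * ρt ≤ κ'.r
  hρ : a1 * c.ρ ≤ ρt
  hρd : c.ρ ≤ bs * d0
  hr' : c.r' ≤ κ'.r'
  hr'A : A * (κ'.C1 * c.r') ≤ 1 / 2
  hθ : c.θ = κ'.θ1
  hC : 16000 * a2 * A ^ 3 * a1 ^ 3 ≤ c.C

section fields

variable {κ : RawC} {κ' : NFC} {F : Raw} {g : Curve F} {nf : NF F} {j : ℕ} {d0 A bs Hq ρt a1 a2 : ℝ} {c : FChartC}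
  {β γ : ℕ → ℂ}

theorem FcC.a1_ge (k : FcC κ' d0 bs Hq A ρt a1 a2 c) : 1 ≤ a1 := by
  have hs := fc_sqrt_pos k.hb k.hH
  have hb := k.hb
  have p1 : 0 ≤ 1 / bs := by positivity
  have p2 : 0 ≤ 1 / Real.sqrt (bs * Hq) := by positivity
  rw [k.ha1]; linarith

theorem FcC.a2_ge (k : FcC κ' d0 bs Hq A ρt a1 a2 c) : 1 ≤ a2 ∧ bs ≤ a2 ∧ Real.sqrt (bs * Hq) ≤ a2 := by
  have hs := fc_sqrt_pos k.hb k.hH
  have hb := k.hb
  rw [k.ha2]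
  exact ⟨by linarith, by linarith, by linarith⟩

/-- every constant which occurs is below `c.C` -/
theorem FcC.K (k : FcC κ' d0 bs Hq A ρt a1 a2 c) {m x y z : ℝ} (_hm0 : 0 ≤ m) (hm : m ≤ 16000) (hx0 : 0 ≤ x) (hx : x ≤ a2)
    (hy0 : 0 ≤ y) (hy : y ≤ A ^ 3) (hz0 : 0 ≤ z) (hz : z ≤ a1 ^ 3) : m * x * y * z ≤ c.C := by
  refine le_trans ?_ k.hC
  have := k.a2_ge.1
  have := k.hA
  have := k.a1_ge
  gcongr

theorem fc_pow_le {a : ℝ} (h : 1 ≤ a) : 1 ≤ a ^ 3 ∧ a ≤ a ^ 3 ∧ a ^ 2 ≤ a ^ 3 := by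
  refine ⟨one_le_pow₀ h, ?_, ?_⟩
  · calc a = a ^ 1 := (pow_one a).symm
      _ ≤ a ^ 3 := pow_le_pow_right₀ h (by norm_num)
  · exact pow_le_pow_right₀ h (by norm_num)

theorem fc_eord_ge (Y : ℂ × ℂ × F.A j) :
    Flow.wn Y ^ 3 + (Flow.wn Y + ‖Y.2.2‖) * ‖Y.2.2‖ ≤ Flow.eord j Y := by
  unfold Flow.eord
  have : 0 ≤ Flow.wn Y ^ 2 / (j : ℝ) ^ 2 := by positivity
  linarith

theorem fc_sq (hb : 0 < bs) (hH : 0 < Hq) : ((Real.sqrt (bs * Hq) : ℝ) : ℂ) ^ 2 = (bs : ℂ) * (Hq : ℂ) := by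
  rw [← Complex.ofReal_pow, Real.sq_sqrt (mul_pos hb hH).le]; push_cast; ring

theorem fc_E_dn (k : FcC κ' d0 bs Hq A ρt a1 a2 c) (Y : ℂ × ℂ × F.A j) :
    Flow.wn (dn bs Hq Y) ^ 3 + (Flow.wn (dn bs Hq Y) + ‖Y.2.2‖) * ‖Y.2.2‖ ≤ a1 ^ 3 * Flow.eord j Y := by
  have h1 := fc_dn_wn k.hb k.hH Y
  rw [← k.ha1] at h1
  have h2 := fc_E_mono (fc_wn_nonneg Y) (norm_nonneg Y.2.2) k.a1_ge h1 (fc_wn_nonneg _)
  refine h2.trans ?_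
  have := k.a1_ge
  have := fc_eord_ge Y
  gcongr

theorem fc_Nx (k : FcC κ' d0 bs Hq A ρt a1 a2 c) (h : NFOK κ κ' F g nf) (hS : ShOK A bs Hq F g nf β γ) (hj : F.j0 ≤ j)
    {Y : ℂ × ℂ × F.A j} (hY : Y ∈ ball (0 : ℂ × ℂ × F.A j) c.ρ) :
    ‖((fcX nf g bs Hq β γ).N j Y).1 - (Y.1 - Y.2.1 ^ 2)‖ ≤ c.C * Flow.eord j Y := by
  have hW := fc_W k.hb k.hH k.ha1 k.hρ hY
  obtain ⟨m1, -, -⟩ := fc_mid h hS hj k.hA k.hC1 (by rw [abs_of_pos k.hb]; exact k.hbs) k.hρt k.hρr hW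
  have hb0 : (bs : ℂ) ≠ 0 := by exact_mod_cast k.hb.ne'
  have hs0 : ((Real.sqrt (bs * Hq) : ℝ) : ℂ) ≠ 0 := by exact_mod_cast (fc_sqrt_pos k.hb k.hH).ne'
  have hsq := fc_sq k.hb k.hH
  have e0 : (bs : ℂ) * ((Hq : ℂ) * (Y.2.1 / ((Real.sqrt (bs * Hq) : ℝ) : ℂ)) ^ 2) = Y.2.1 ^ 2 := by
    rw [div_pow, ← mul_assoc, ← hsq]; field_simp
  have e : ((fcX nf g bs Hq β γ).N j Y).1 - (Y.1 - Y.2.1 ^ 2)
      = bs * ((shF (β (j + 1)) (γ (j + 1)) (nf.N g j (shI (β j) (γ j) (dn bs Hq Y)))).1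
          - ((dn bs Hq Y).1 - Hq * (dn bs Hq Y).2.1 ^ 2)) := by
    have e1 : (dn bs Hq Y).1 = Y.1 / bs := rfl
    have e2 : (dn bs Hq Y).2.1 = Y.2.1 / ((Real.sqrt (bs * Hq) : ℝ) : ℂ) := rfl
    have e3 : ((fcX nf g bs Hq β γ).N j Y).1
      = bs * (shF (β (j + 1)) (γ (j + 1)) (nf.N g j (shI (β j) (γ j) (dn bs Hq Y)))).1 := rfl
    rw [e1, e2, e3, mul_sub, mul_sub, e0, mul_div_cancel₀ _ hb0]
  rw [e, norm_mul, Complex.norm_real, Real.norm_eq_abs, abs_of_pos k.hb]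
  have hE := fc_E_dn k Y
  have hB : (dn bs Hq Y).2.2 = Y.2.2 := rfl
  rw [hB] at m1
  have hA0 : 0 ≤ A := by linarith [k.hA]
  have hbp := k.hb
  have he0 : 0 ≤ Flow.eord j Y := le_trans (by have := fc_wn_nonneg Y; positivity) (fc_eord_ge Y)
  calc bs * _ ≤ bs * (16000 * A ^ 3 * (a1 ^ 3 * Flow.eord j Y)) := by
        refine mul_le_mul_of_nonneg_left (m1.trans ?_) hbp.le
        gcongr
    _ = (16000 * bs * A ^ 3 * a1 ^ 3) * Flow.eord j Y := by ring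
    _ ≤ _ := by
      refine mul_le_mul_of_nonneg_right ?_ he0
      exact k.K (by norm_num) le_rfl hbp.le k.a2_ge.2.1 (by positivity) le_rfl (by have := k.a1_ge; positivity) le_rfl

theorem fc_Ny (k : FcC κ' d0 bs Hq A ρt a1 a2 c) (h : NFOK κ κ' F g nf) (hS : ShOK A bs Hq F g nf β γ) (hj : F.j0 ≤ j)
    {Y : ℂ × ℂ × F.A j} (hY : Y ∈ ball (0 : ℂ × ℂ × F.A j) c.ρ) :
    ‖((fcX nf g bs Hq β γ).N j Y).2.1 - (Y.2.1 - Y.1 * Y.2.1)‖ ≤ c.C * Flow.eord j Y := by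
  have hW := fc_W k.hb k.hH k.ha1 k.hρ hY
  obtain ⟨-, m1, -⟩ := fc_mid h hS hj k.hA k.hC1 (by rw [abs_of_pos k.hb]; exact k.hbs) k.hρt k.hρr hW
  have hb0 : (bs : ℂ) ≠ 0 := by exact_mod_cast k.hb.ne'
  have hsp := fc_sqrt_pos k.hb k.hH
  have hs0 : ((Real.sqrt (bs * Hq) : ℝ) : ℂ) ≠ 0 := by exact_mod_cast hsp.ne'
  have e : ((fcX nf g bs Hq β γ).N j Y).2.1 - (Y.2.1 - Y.1 * Y.2.1)
      = ((Real.sqrt (bs * Hq) : ℝ) : ℂ) * ((shF (β (j + 1)) (γ (j + 1)) (nf.N g j (shI (β j) (γ j) (dn bs Hq Y)))).2.1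
          - ((dn bs Hq Y).2.1 - bs * (dn bs Hq Y).1 * (dn bs Hq Y).2.1)) := by
    have e1 : (dn bs Hq Y).1 = Y.1 / bs := rfl
    have e2 : (dn bs Hq Y).2.1 = Y.2.1 / ((Real.sqrt (bs * Hq) : ℝ) : ℂ) := rfl
    have e3 : ((fcX nf g bs Hq β γ).N j Y).2.1
      = ((Real.sqrt (bs * Hq) : ℝ) : ℂ) * (shF (β (j + 1)) (γ (j + 1)) (nf.N g j (shI (β j) (γ j) (dn bs Hq Y)))).2.1 := rfl
    rw [e1, e2, e3]
    field_simp
  rw [e, norm_mul, Complex.norm_real, Real.norm_eq_abs, abs_of_pos hsp]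
  have hE := fc_E_dn k Y
  have hB : (dn bs Hq Y).2.2 = Y.2.2 := rfl
  rw [hB] at m1
  have hA0 : 0 ≤ A := by linarith [k.hA]
  have he0 : 0 ≤ Flow.eord j Y := le_trans (by have := fc_wn_nonneg Y; positivity) (fc_eord_ge Y)
  calc Real.sqrt (bs * Hq) * _ ≤ Real.sqrt (bs * Hq) * (160 * A ^ 2 * (a1 ^ 3 * Flow.eord j Y)) := by
        refine mul_le_mul_of_nonneg_left (m1.trans ?_) hsp.le
        gcongr
    _ = (160 * Real.sqrt (bs * Hq) * A ^ 2 * a1 ^ 3) * Flow.eord j Y := by ring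
    _ ≤ _ := by
      refine mul_le_mul_of_nonneg_right ?_ he0
      exact k.K (by norm_num) (by norm_num) hsp.le k.a2_ge.2.2 (by positivity) (fc_pow_le k.hA).2.2
        (by have := k.a1_ge; positivity) le_rfl

theorem fc_Nq (k : FcC κ' d0 bs Hq A ρt a1 a2 c) (h : NFOK κ κ' F g nf) (hS : ShOK A bs Hq F g nf β γ) (hj : F.j0 ≤ j)
    {Y : ℂ × ℂ × F.A j} (hY : Y ∈ ball (0 : ℂ × ℂ × F.A j) c.ρ) :
    ‖((fcX nf g bs Hq β γ).N j Y).2.2‖ ≤ c.θ * ‖Y.2.2‖ + c.C * Flow.wn Y ^ 2 := by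
  have hW := fc_W k.hb k.hH k.ha1 k.hρ hY
  obtain ⟨-, -, m1⟩ := fc_mid h hS hj k.hA k.hC1 (by rw [abs_of_pos k.hb]; exact k.hbs) k.hρt k.hρr hW
  have hB : (dn bs Hq Y).2.2 = Y.2.2 := rfl
  rw [hB] at m1
  rw [k.hθ]
  refine m1.trans (add_le_add_right ?_ _)
  have h1 := fc_dn_wn k.hb k.hH Y
  rw [← k.ha1] at h1
  have hA0 : 0 ≤ A := by linarith [k.hA]
  have ha := k.a1_ge
  have hw := fc_wn_nonneg Y
  calc 4 * A * Flow.wn (dn bs Hq Y) ^ 2 ≤ 4 * A * (a1 * Flow.wn Y) ^ 2 := by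
        have := fc_wn_nonneg (dn bs Hq Y)
        gcongr
    _ = (4 * 1 * A * a1 ^ 2) * Flow.wn Y ^ 2 := by ring
    _ ≤ _ := by
      refine mul_le_mul_of_nonneg_right ?_ (by positivity)
      exact k.K (by norm_num) (by norm_num) zero_le_one k.a2_ge.1 hA0 (fc_pow_le k.hA).2.1 (by positivity) (fc_pow_le ha).2.2


/-- facts about the inner point `Y' = shI (dn Y)` -/
theorem fc_inner (k : FcC κ' d0 bs Hq A ρt a1 a2 c) (hS : ShOK A bs Hq F g nf β γ) (hj : F.j0 ≤ j)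
    {Y : ℂ × ℂ × F.A j} (hY : Y ∈ ball (0 : ℂ × ℂ × F.A j) c.ρ) :
    shI (β j) (γ j) (dn bs Hq Y) ∈ ball (0 : ℂ × ℂ × F.A j) κ'.r ∧ ‖shI (β j) (γ j) (dn bs Hq Y)‖ ≤ 2 * a1 * ‖Y‖ ∧
      ‖shI (β j) (γ j) (dn bs Hq Y)‖ < 2 * ρt ∧
      ‖(shI (β j) (γ j) (dn bs Hq Y)).1‖ ≤ 2 * a1 * Flow.wn Y ∧ ‖(shI (β j) (γ j) (dn bs Hq Y)).2.1‖ ≤ 2 * a1 * ‖Y.2.1‖ ∧
      ‖(shI (β j) (γ j) (dn bs Hq Y)).1 - Y.1 / bs‖ ≤ A * a1 ^ 2 * Flow.wn Y ^ 2 ∧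
      ‖(shI (β j) (γ j) (dn bs Hq Y)).2.1 - Y.2.1 / Real.sqrt (bs * Hq)‖ ≤ 4 * A * a1 ^ 2 * Flow.wn Y ^ 2 := by
  have hW := fc_W k.hb k.hH k.ha1 k.hρ hY
  obtain ⟨p0, p1, p2, p3, -⟩ := fc_pre k.hA k.hρt (hS.β_bd j hj) (hS.γ_bd j hj) hW
  obtain ⟨q1, q2, q3, q4, -⟩ := fc_shI_bd k.hA (hS.β_bd j hj) (hS.γ_bd j hj) p0
  have h1 := fc_dn_wn k.hb k.hH Y
  have h2 := fc_dn_le k.hb k.hH Y
  rw [← k.ha1] at h1 h2
  have ha := k.a1_ge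
  have hA0 : 0 ≤ A := by linarith [k.hA]
  have hw := fc_wn_nonneg Y
  have hw' := fc_wn_nonneg (dn bs Hq Y)
  have hsq : Flow.wn (dn bs Hq Y) ^ 2 ≤ a1 ^ 2 * Flow.wn Y ^ 2 := by
    rw [← mul_pow]; exact pow_le_pow_left₀ hw' h1 2
  have hs := fc_sqrt_pos k.hb k.hH
  have hz : ‖(dn bs Hq Y).2.1‖ ≤ a1 * ‖Y.2.1‖ := by
    rw [fc_dn_snd k.hb k.hH, div_eq_mul_one_div, mul_comm]
    refine mul_le_mul_of_nonneg_right ?_ (norm_nonneg _)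
    have hb := k.hb
    have : 0 ≤ 1 / bs := by positivity
    rw [k.ha1]; linarith
  refine ⟨by rw [mem_ball_zero_iff]; linarith [k.hρr], by linarith, p1, by linarith, by linarith, ?_, ?_⟩
  · refine q3.trans ?_
    calc A * Flow.wn (dn bs Hq Y) ^ 2 ≤ A * (a1 ^ 2 * Flow.wn Y ^ 2) := by gcongr
      _ = _ := by ring
  · refine q4.trans ?_
    calc 4 * A * Flow.wn (dn bs Hq Y) ^ 2 ≤ 4 * A * (a1 ^ 2 * Flow.wn Y ^ 2) := by gcongr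
      _ = _ := by ring

theorem fc_rb (κ' : NFC) {E : Type} [NormedAddCommGroup E] {Y : ℂ × ℂ × E} (h : Y ∈ ball (0 : ℂ × ℂ × E) κ'.r) :
    Y ∈ ball (0 : ℂ × ℂ × E) κ'.rb := ball_subset_ball (κ'.hrr.trans κ'.hrb) h

theorem fc_sc_t (k : FcC κ' d0 bs Hq A ρt a1 a2 c) (h : NFOK κ κ' F g nf) (hS : ShOK A bs Hq F g nf β γ) (hj : F.j0 ≤ j)
    {Y : ℂ × ℂ × F.A j} (hY : Y ∈ ball (0 : ℂ × ℂ × F.A j) c.ρ) :
    ‖((fcX nf g bs Hq β γ).sc j Y).1 - Y.1 / bs‖ ≤ c.C * (Flow.wn Y ^ 2 + ‖Y.2.2‖) := by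
  obtain ⟨i1, -, -, i3, -, i5, -⟩ := fc_inner k hS hj hY
  have h1 := h.sc_t j hj _ (fc_rb κ' i1)
  have hB : (shI (β j) (γ j) (dn bs Hq Y)).2.2 = Y.2.2 := rfl
  rw [hB] at h1
  have ha := k.a1_ge
  have hA0 : 0 ≤ A := by linarith [k.hA]
  have hC0 : 0 ≤ κ'.C1 := by linarith [κ'.hC]
  have hw := fc_wn_nonneg Y
  have e : ((fcX nf g bs Hq β γ).sc j Y).1 - Y.1 / bs
      = ((nf.ch g j (shI (β j) (γ j) (dn bs Hq Y))).1 - (shI (β j) (γ j) (dn bs Hq Y)).1)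
        + ((shI (β j) (γ j) (dn bs Hq Y)).1 - Y.1 / bs) := by
    have : ((fcX nf g bs Hq β γ).sc j Y).1 = (nf.ch g j (shI (β j) (γ j) (dn bs Hq Y))).1 := rfl
    rw [this]; ring
  rw [e]
  refine (norm_add_le _ _).trans ?_
  have h2 : κ'.C1 * (‖(shI (β j) (γ j) (dn bs Hq Y)).1‖ ^ 2 + ‖Y.2.2‖) ≤ A * ((2 * a1 * Flow.wn Y) ^ 2 + ‖Y.2.2‖) := by
    have := k.hC1
    gcongr
  have K1 : 5 * 1 * A * a1 ^ 2 ≤ c.C :=
    k.K (by norm_num) (by norm_num) zero_le_one k.a2_ge.1 hA0 (fc_pow_le k.hA).2.1 (by positivity) (fc_pow_le ha).2.2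
  have K2 : 1 * 1 * A * 1 ≤ c.C :=
    k.K (by norm_num) (by norm_num) zero_le_one k.a2_ge.1 hA0 (fc_pow_le k.hA).2.1 zero_le_one (fc_pow_le ha).1
  have h3 : (5 * 1 * A * a1 ^ 2) * Flow.wn Y ^ 2 ≤ c.C * Flow.wn Y ^ 2 := mul_le_mul_of_nonneg_right K1 (by positivity)
  have h4 : (1 * 1 * A * 1) * ‖Y.2.2‖ ≤ c.C * ‖Y.2.2‖ := mul_le_mul_of_nonneg_right K2 (norm_nonneg _)
  nlinarith

theorem fc_sc_z (k : FcC κ' d0 bs Hq A ρt a1 a2 c) (h : NFOK κ κ' F g nf) (hS : ShOK A bs Hq F g nf β γ) (hj : F.j0 ≤ j)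
    {Y : ℂ × ℂ × F.A j} (hY : Y ∈ ball (0 : ℂ × ℂ × F.A j) c.ρ) :
    ‖((fcX nf g bs Hq β γ).sc j Y).2 - Y.2.1 / Real.sqrt (bs * Hq)‖
      ≤ c.C * (Real.exp (-κ.c * j) * ‖Y.2.1‖ + Flow.wn Y ^ 2 + ‖Y.2.2‖) := by
  obtain ⟨i1, -, -, -, i4, -, i6⟩ := fc_inner k hS hj hY
  have h1 := h.sc_z j hj _ (fc_rb κ' i1)
  have hB : (shI (β j) (γ j) (dn bs Hq Y)).2.2 = Y.2.2 := rfl
  rw [hB] at h1
  have ha := k.a1_ge
  have hA0 : 0 ≤ A := by linarith [k.hA]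
  have hC0 : 0 ≤ κ'.C1 := by linarith [κ'.hC]
  have hw := fc_wn_nonneg Y
  have e : ((fcX nf g bs Hq β γ).sc j Y).2 - Y.2.1 / Real.sqrt (bs * Hq)
      = ((nf.ch g j (shI (β j) (γ j) (dn bs Hq Y))).2.1 - (shI (β j) (γ j) (dn bs Hq Y)).2.1)
        + ((shI (β j) (γ j) (dn bs Hq Y)).2.1 - Y.2.1 / Real.sqrt (bs * Hq)) := by
    have : ((fcX nf g bs Hq β γ).sc j Y).2 = (nf.ch g j (shI (β j) (γ j) (dn bs Hq Y))).2.1 := rfl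
    rw [this]; ring
  rw [e]
  refine (norm_add_le _ _).trans ?_
  have hex := Real.exp_pos (-κ.c * j)
  have h2 : κ'.C1 * (Real.exp (-κ.c * j) * ‖(shI (β j) (γ j) (dn bs Hq Y)).2.1‖ + ‖Y.2.2‖)
      ≤ A * (Real.exp (-κ.c * j) * (2 * a1 * ‖Y.2.1‖) + ‖Y.2.2‖) := by
    have := k.hC1
    gcongr
  have K1 : 4 * 1 * A * a1 ^ 2 ≤ c.C :=
    k.K (by norm_num) (by norm_num) zero_le_one k.a2_ge.1 hA0 (fc_pow_le k.hA).2.1 (by positivity) (fc_pow_le ha).2.2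
  have K2 : 1 * 1 * A * 1 ≤ c.C :=
    k.K (by norm_num) (by norm_num) zero_le_one k.a2_ge.1 hA0 (fc_pow_le k.hA).2.1 zero_le_one (fc_pow_le ha).1
  have K3 : 2 * 1 * A * a1 ≤ c.C :=
    k.K (by norm_num) (by norm_num) zero_le_one k.a2_ge.1 hA0 (fc_pow_le k.hA).2.1 (by positivity) (fc_pow_le ha).2.1
  have h3 : (4 * 1 * A * a1 ^ 2) * Flow.wn Y ^ 2 ≤ c.C * Flow.wn Y ^ 2 := mul_le_mul_of_nonneg_right K1 (by positivity)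
  have h4 : (1 * 1 * A * 1) * ‖Y.2.2‖ ≤ c.C * ‖Y.2.2‖ := mul_le_mul_of_nonneg_right K2 (norm_nonneg _)
  have h5 : (2 * 1 * A * a1) * (Real.exp (-κ.c * j) * ‖Y.2.1‖) ≤ c.C * (Real.exp (-κ.c * j) * ‖Y.2.1‖) :=
    mul_le_mul_of_nonneg_right K3 (by positivity)
  nlinarith

theorem fc_plane (k : FcC κ' d0 bs Hq A ρt a1 a2 c) (hF : RawOK κ F) (h : NFOK κ κ' F g nf) (hS : ShOK A bs Hq F g nf β γ) :
    PlaneOK c.ρ c.θ c.C κ.c bs Hq F.j0 (fcX nf g bs Hq β γ).N (fcX nf g bs Hq β γ).sc F.σ where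
  N_an := fun j hj => by
    obtain ⟨p1, p2⟩ := fc_P (κ' := κ') k.hb k.hH k.ha1 k.hρ hS hj k.hA k.hρt k.hρr
    exact (fc_up_an (E := F.A (j + 1))).comp_differentiableOn
      ((fc_shF_an (E := F.A (j + 1)) _ _).comp_differentiableOn ((h.N_an j hj).comp p1 p2))
  N_x := fun j hj Y hY => fc_Nx k h hS hj hY
  N_y := fun j hj Y hY => fc_Ny k h hS hj hY
  N_q := fun j hj Y hY => fc_Nq k h hS hj hY
  N_g := fun j hj u hu => by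
    have hY : ((u, 0, 0) : ℂ × ℂ × F.A j) ∈ ball (0 : ℂ × ℂ × F.A j) c.ρ := by
      rw [mem_ball_zero_iff]; exact nf_norm_lt hu (by simpa using c.hρ) (by simpa using c.hρ)
    obtain ⟨i1, -⟩ := fc_inner k hS hj hY
    have e1 : dn bs Hq ((u, 0, 0) : ℂ × ℂ × F.A j) = (u / bs, 0, 0) := by unfold dn; simp
    rw [e1, fc_shI_line, mem_ball_zero_iff] at i1
    have i2 : ‖u / (bs : ℂ)‖ < κ'.r := (nf_fst_le ((u / bs, 0, 0) : ℂ × ℂ × F.A j)).trans_lt i1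
    have hb0 : (bs : ℂ) ≠ 0 := by exact_mod_cast k.hb.ne'
    change up bs Hq (shF _ _ (nf.N g j (shI _ _ (dn bs Hq (u, 0, 0))))) = _
    rw [e1, fc_shI_line, h.N_g j hj _ i2, fc_shF_line]
    unfold up
    simp only [mul_zero, mul_div_cancel₀ _ hb0]
  sc_an := fun j hj => by
    obtain ⟨p1, p2⟩ := fc_P (κ' := κ') k.hb k.hH k.ha1 k.hρ hS hj k.hA k.hρt k.hρr
    have h1 : DifferentiableOn ℂ (fun Y => nf.ch g j (shI (β j) (γ j) (dn bs Hq Y))) (ball 0 c.ρ) :=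
      (h.ch_an j hj).comp p1 (fun Y hY => fc_rb κ' (p2 hY))
    exact h1.fst.prodMk h1.snd.fst
  sc_t := fun j hj Y hY => fc_sc_t k h hS hj hY
  sc_z := fun j hj Y hY => fc_sc_z k h hS hj hY
  σQ_inv := hF.σ_inv
  σQ_iso := fun j q => le_antisymm (hF.σ_bd j q) (by have := hF.σ_bd j (F.σ j q); rwa [hF.σ_inv] at this)
  N_par := fun j hj Y hY => by
    obtain ⟨i1, -⟩ := fc_inner k hS hj hY
    change up bs Hq (shF _ _ (nf.N g j (shI _ _ (dn bs Hq (F.S j Y))))) = F.S (j + 1) (up bs Hq (shF _ _ (nf.N g j (shI _ _ (dn bs Hq Y)))))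
    rw [fc_dn_S, fc_shI_S, h.N_par j hj _ i1, fc_shF_S, fc_up_S]
  sc_par := fun j hj Y hY => by
    obtain ⟨i1, -⟩ := fc_inner k hS hj hY
    have e : nf.ch g j (shI (β j) (γ j) (dn bs Hq (F.S j Y))) = F.S j (nf.ch g j (shI (β j) (γ j) (dn bs Hq Y))) := by
      rw [fc_dn_S, fc_shI_S, h.ch_par j hj _ (fc_rb κ' i1)]
    change ((nf.ch g j (shI (β j) (γ j) (dn bs Hq (F.S j Y)))).1, (nf.ch g j (shI (β j) (γ j) (dn bs Hq (F.S j Y)))).2.1) = _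
    rw [e]
    rfl


theorem fc_ok (k : FcC κ' d0 bs Hq A ρt a1 a2 c) (hF : RawOK κ F) (h : NFOK κ κ' F g nf) (hS : ShOK A bs Hq F g nf β γ) :
    FChartOK κ d0 bs Hq c F g (fcX nf g bs Hq β γ) := by
  have ha := k.a1_ge
  have hA := k.hA
  have hA0 : 0 ≤ A := by linarith
  have hC0 : 0 ≤ κ'.C1 := by linarith [κ'.hC]
  have hci : ∀ j, F.j0 ≤ j → ∀ Z ∈ ball (0 : ℂ × ℂ × F.A j) c.r', Z ∈ ball (0 : ℂ × ℂ × F.A j) κ'.r' ∧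
      A * ‖nf.ci j Z‖ ≤ 1 / 2 := by
    intro j hj Z hZ
    have hZ' : Z ∈ ball (0 : ℂ × ℂ × F.A j) κ'.r' := ball_subset_ball k.hr' hZ
    refine ⟨hZ', ?_⟩
    rw [mem_ball_zero_iff] at hZ
    have h1 := (h.ci_bd j hj Z hZ').1
    have h2 : ‖nf.ci j Z‖ ≤ κ'.C1 * c.r' := h1.trans (mul_le_mul_of_nonneg_left hZ.le hC0)
    calc A * ‖nf.ci j Z‖ ≤ A * (κ'.C1 * c.r') := by gcongr
      _ ≤ 1 / 2 := k.hr'A
  refine
    { plane := fc_plane k hF h hS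
      ch_bd := fun j hj Y hY => ?_
      ch_R := fun j hj Y hY => ?_
      ch_g := fun j hj x hx => ?_
      conj := fun j hj Y hY => ?_
      ci_an := fun j hj => ?_
      ci_bd := fun j hj Z hZ => ?_
      ch_ci := fun j hj Z hZ => ?_
      ci_re := fun j hj Z hZ => ?_
      N_re := fun j hj Y hY => ?_ }
  · obtain ⟨i1, i2, -⟩ := fc_inner k hS hj hY
    obtain ⟨b1, b2⟩ := h.ch_bd j hj _ (fc_rb κ' i1)
    refine ⟨?_, b2⟩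
    change ‖nf.ch g j (shI (β j) (γ j) (dn bs Hq Y))‖ ≤ _
    have K1 : 2 * 1 * A * a1 ≤ c.C :=
      k.K (by norm_num) (by norm_num) zero_le_one k.a2_ge.1 hA0 (fc_pow_le k.hA).2.1 (by positivity) (fc_pow_le ha).2.1
    calc _ ≤ κ'.C1 * ‖shI (β j) (γ j) (dn bs Hq Y)‖ := b1
      _ ≤ A * (2 * a1 * ‖Y‖) := by have := k.hC1; gcongr
      _ = (2 * 1 * A * a1) * ‖Y‖ := by ring
      _ ≤ _ := mul_le_mul_of_nonneg_right K1 (norm_nonneg _)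
  · obtain ⟨i1, -, -, i3, -⟩ := fc_inner k hS hj hY
    have b1 := (nf_trd_le _).trans (h.ch_q j hj _ (fc_rb κ' i1))
    have e : (nf.ch g j (shI (β j) (γ j) (dn bs Hq Y)) - nf.Lch j (shI (β j) (γ j) (dn bs Hq Y))).2.2
        = ((fcX nf g bs Hq β γ).ch j Y).2.2 - Y.2.2 := rfl
    rw [e] at b1
    have K1 : 4 * 1 * A * a1 ^ 2 ≤ c.C :=
      k.K (by norm_num) (by norm_num) zero_le_one k.a2_ge.1 hA0 (fc_pow_le k.hA).2.1 (by positivity) (fc_pow_le ha).2.2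
    have hw := fc_wn_nonneg Y
    calc _ ≤ κ'.C1 * ‖(shI (β j) (γ j) (dn bs Hq Y)).1‖ ^ 2 := b1
      _ ≤ A * (2 * a1 * Flow.wn Y) ^ 2 := by have := k.hC1; gcongr
      _ = (4 * 1 * A * a1 ^ 2) * Flow.wn Y ^ 2 := by ring
      _ ≤ _ := mul_le_mul_of_nonneg_right K1 (by positivity)
  · constructor
    · rw [norm_div, Complex.norm_real, Real.norm_eq_abs, abs_of_pos k.hb, div_lt_iff₀ k.hb]
      linarith [k.hρd]
    · have e1 : dn bs Hq ((x, 0, 0) : ℂ × ℂ × F.A j) = (x / bs, 0, 0) := by unfold dn; simp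
      change nf.ch g j (shI _ _ (dn bs Hq (x, 0, 0))) = _
      rw [e1, fc_shI_line, nf_ch_line]
  · obtain ⟨i1, -, i3, -⟩ := fc_inner k hS hj hY
    have hs : κ'.C1 * ‖shI (β j) (γ j) (dn bs Hq Y)‖ ≤ 1 := by
      calc κ'.C1 * ‖shI (β j) (γ j) (dn bs Hq Y)‖ ≤ A * (2 * ρt) := by have := k.hC1; gcongr
        _ = 2 * (A * ρt) := by ring
        _ ≤ 1 := by linarith [k.hρt]
    have hN := fc_N_le hF h hj i1 hs
    have hne : 1 + γ (j + 1) * (nf.N g j (shI (β j) (γ j) (dn bs Hq Y))).1 ≠ 0 := by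
      refine fc_ne (hS.γ_bd (j + 1) (by omega)) ?_
      calc A * ‖(nf.N g j (shI (β j) (γ j) (dn bs Hq Y))).1‖ ≤ A * (2 * (2 * ρt)) := by
            have := (nf_fst_le (nf.N g j (shI (β j) (γ j) (dn bs Hq Y)))).trans hN
            gcongr
            linarith
        _ = 4 * (A * ρt) := by ring
        _ < 1 := by linarith [k.hρt]
    change nf.ch g (j + 1) (shI _ _ (dn bs Hq (up bs Hq (shF _ _ (nf.N g j (shI _ _ (dn bs Hq Y))))))) = F.Φ j (nf.ch g j _)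
    rw [fc_dn_up k.hb k.hH, fc_shI_shF hne, h.conj j hj _ i1]
  · exact (fc_up_an (E := F.A j)).comp_differentiableOn
      ((fc_shF_an (E := F.A j) _ _).comp_differentiableOn ((h.ci_an j hj).mono (ball_subset_ball k.hr')))
  · obtain ⟨z1, z2⟩ := hci j hj Z hZ
    have h1 := (h.ci_bd j hj Z z1).1
    have h2 : A * Flow.wn (nf.ci j Z) ≤ 1 := by
      have : A * Flow.wn (nf.ci j Z) ≤ A * ‖nf.ci j Z‖ := by have := fc_wn_le (nf.ci j Z); gcongr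
      linarith
    have h3 := fc_shF_le hA (hS.β_bd j hj) (hS.γ_bd j hj) h2
    have h4 := fc_up_le k.hb k.hH (shF (β j) (γ j) (nf.ci j Z))
    rw [← k.ha2] at h4
    have ha2 := k.a2_ge.1
    have K1 : 5 * a2 * A * 1 ≤ c.C :=
      k.K (by norm_num) (by norm_num) (by linarith) le_rfl hA0 (fc_pow_le k.hA).2.1 zero_le_one (fc_pow_le ha).1
    change ‖up bs Hq (shF (β j) (γ j) (nf.ci j Z))‖ ≤ _
    calc _ ≤ a2 * ‖shF (β j) (γ j) (nf.ci j Z)‖ := h4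
      _ ≤ a2 * (5 * (A * ‖Z‖)) := by
        have : ‖nf.ci j Z‖ ≤ A * ‖Z‖ := h1.trans (mul_le_mul_of_nonneg_right k.hC1 (norm_nonneg _))
        gcongr
        linarith
      _ = (5 * a2 * A * 1) * ‖Z‖ := by ring
      _ ≤ _ := mul_le_mul_of_nonneg_right K1 (norm_nonneg _)
  · obtain ⟨z1, z2⟩ := hci j hj Z hZ
    have hne : 1 + γ j * (nf.ci j Z).1 ≠ 0 := by
      refine fc_ne (hS.γ_bd j hj) ?_
      have : A * ‖(nf.ci j Z).1‖ ≤ A * ‖nf.ci j Z‖ := by have := nf_fst_le (nf.ci j Z); gcongr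
      linarith
    change nf.ch g j (shI _ _ (dn bs Hq (up bs Hq (shF _ _ (nf.ci j Z))))) = Z
    rw [fc_dn_up k.hb k.hH, fc_shI_shF hne, h.ch_ci j hj Z z1]
  · obtain ⟨z1, -⟩ := hci j hj Z hZ
    change up bs Hq (shF _ _ (nf.ci j (F.K j Z))) = F.K j (up bs Hq (shF _ _ (nf.ci j Z)))
    rw [h.ci_re j hj Z z1, fc_shF_K (hS.β_re j) (hS.γ_re j), fc_up_K]
  · obtain ⟨i1, -⟩ := fc_inner k hS hj hY
    change up bs Hq (shF _ _ (nf.N g j (shI _ _ (dn bs Hq (F.K j Y))))) = F.K (j + 1) (up bs Hq (shF _ _ (nf.N g j (shI _ _ (dn bs Hq Y)))))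
    rw [fc_dn_K, fc_shI_K (hS.β_re j) (hS.γ_re j), h.N_re j hj _ i1, fc_shF_K (hS.β_re (j + 1)) (hS.γ_re (j + 1)), fc_up_K]

end fields


/-- **THE CHART CONTRACT** (D5).  Constants depend only on the raw constants, `d0`, `b_*`, `H` and the bound of the block sums.
Route: `normal_form` gives `nf`, `κ'`; `coef_eq`: `Hc = -bzz`, `bc = -btz`; `β_j = ∑_{j0 ≤ i < j} (Hc i - H)`, `γ_j = ∑ (bc i - b_*)` are bounded by `Cb κ'.C1` and real;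
`Z~ = Z (1 + γ_j u)`, `u~ = u + β_j Z~²`; then rescale `x = b_* u~`, `y = √(b_* H) Z~`. -/
theorem fchart_exists (κ : RawC) (d0 bs Hq : ℝ) (Cb : ℝ → ℝ) (hd : 0 < d0) (hb : 0 < bs) (hH : 0 < Hq) :
    ∃ c : FChartC, ∀ (F : Raw) (g : Curve F), RawOK κ F → CurveOK κ.ρ d0 F g →
      (∀ (C1 : ℝ) (nf : NF F), BalOK κ C1 F nf → ∀ j j', F.j0 ≤ j → j ≤ j' →
        ‖∑ i ∈ Finset.Ico j j', (nf.bzz i + Hq)‖ ≤ Cb C1 ∧ ‖∑ i ∈ Finset.Ico j j', (nf.btz i + bs)‖ ≤ Cb C1) →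
      ∃ X : FChart F, FChartOK κ d0 bs Hq c F g X := by
  obtain ⟨κ', hnf⟩ := normal_form κ d0 hd
  have hs := fc_sqrt_pos hb hH
  have hC1 := κ'.hC
  obtain ⟨A, hAd⟩ : ∃ A : ℝ, A = 1 + κ'.C1 + |Cb κ'.C1| + bs := ⟨_, rfl⟩
  have hM0 := abs_nonneg (Cb κ'.C1)
  have hA : 1 ≤ A := by rw [hAd]; linarith
  obtain ⟨a1, ha1⟩ : ∃ a1 : ℝ, a1 = 1 + 1 / bs + 1 / Real.sqrt (bs * Hq) := ⟨_, rfl⟩
  obtain ⟨a2, ha2⟩ : ∃ a2 : ℝ, a2 = 1 + bs + Real.sqrt (bs * Hq) := ⟨_, rfl⟩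
  have ha1p : 1 ≤ a1 := by
    have p1 : 0 ≤ 1 / bs := by positivity
    have p2 : 0 ≤ 1 / Real.sqrt (bs * Hq) := by positivity
    rw [ha1]; linarith
  have ha2p : 1 ≤ a2 := by rw [ha2]; linarith
  obtain ⟨ρt, hρtd⟩ : ∃ ρt : ℝ, ρt = min (1 / (16 * A)) (κ'.r / 2) := ⟨_, rfl⟩
  have hρt0 : 0 < ρt := by rw [hρtd]; exact lt_min (by positivity) (by linarith [κ'.hr])
  have hρt1 : A * ρt ≤ 1 / 16 := by
    have : ρt ≤ 1 / (16 * A) := by rw [hρtd]; exact min_le_left _ _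
    rw [le_div_iff₀ (by positivity)] at this
    linarith
  have hρt2 : 2 * ρt ≤ κ'.r := by
    have : ρt ≤ κ'.r / 2 := by rw [hρtd]; exact min_le_right _ _
    linarith
  have hr'p : 0 < κ'.r' := κ'.hr.trans_le κ'.hrr
  let c : FChartC :=
    { ρ := min (ρt / a1) (bs * d0)
      r' := min κ'.r' (1 / (2 * A * κ'.C1))
      θ := κ'.θ1
      C := 16000 * a2 * A ^ 3 * a1 ^ 3
      hρ := lt_min (by positivity) (by positivity)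
      hr' := lt_min hr'p (by positivity)
      hθ0 := κ'.hθ0
      hθ := κ'.hθ
      hC := by
        have h1 : 1 ≤ A ^ 3 := one_le_pow₀ hA
        have h2 : 1 ≤ a1 ^ 3 := one_le_pow₀ ha1p
        calc (1 : ℝ) = 1 * 1 * 1 * 1 := by norm_num
          _ ≤ 16000 * a2 * A ^ 3 * a1 ^ 3 := by gcongr; norm_num }
  have k : FcC κ' d0 bs Hq A ρt a1 a2 c :=
    { hb := hb
      hH := hH
      ha1 := ha1
      ha2 := ha2
      hA := hA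
      hC1 := by rw [hAd]; linarith
      hbs := by rw [hAd]; linarith
      hρt := hρt1
      hρr := hρt2
      hρ := by
        have : c.ρ ≤ ρt / a1 := min_le_left _ _
        rw [le_div_iff₀ (by linarith)] at this
        linarith
      hρd := min_le_right _ _
      hr' := min_le_left _ _
      hr'A := by
        have : c.r' ≤ 1 / (2 * A * κ'.C1) := min_le_right _ _
        rw [le_div_iff₀ (by positivity)] at this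
        linarith
      hθ := rfl
      hC := le_rfl }
  refine ⟨c, fun F g hF hg hblk => ?_⟩
  obtain ⟨nf, h⟩ := hnf F g hF hg
  have hco := fun i (hi : F.j0 ≤ i) => coef_eq κ κ' d0 hd F g nf hF hg h i hi
  refine ⟨fcX nf g bs Hq (fun j => ∑ i ∈ Finset.Ico F.j0 j, (nf.Hc g i - Hq)) (fun j => ∑ i ∈ Finset.Ico F.j0 j, (nf.bc g i - bs)),
    fc_ok k hF h ?_⟩
  refine
    { β_rec := fun j hj => by simp only [Finset.sum_Ico_succ_top hj]; ring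
      γ_rec := fun j hj => by simp only [Finset.sum_Ico_succ_top hj]; ring
      β_bd := fun j hj => ?_
      γ_bd := fun j hj => ?_
      β_re := fun j => ?_
      γ_re := fun j => ?_ }
  · have e : ∑ i ∈ Finset.Ico F.j0 j, (nf.Hc g i - Hq) = -∑ i ∈ Finset.Ico F.j0 j, (nf.bzz i + Hq) := by
      rw [← Finset.sum_neg_distrib]
      refine Finset.sum_congr rfl (fun i hi => ?_)
      rw [(hco i (Finset.mem_Ico.mp hi).1).1]; ring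
    rw [e, norm_neg]
    have := (hblk κ'.C1 nf h.bal F.j0 j le_rfl hj).1
    have := le_abs_self (Cb κ'.C1)
    rw [hAd]; linarith
  · have e : ∑ i ∈ Finset.Ico F.j0 j, (nf.bc g i - bs) = -∑ i ∈ Finset.Ico F.j0 j, (nf.btz i + bs) := by
      rw [← Finset.sum_neg_distrib]
      refine Finset.sum_congr rfl (fun i hi => ?_)
      rw [(hco i (Finset.mem_Ico.mp hi).1).2]; ring
    rw [e, norm_neg]
    have := (hblk κ'.C1 nf h.bal F.j0 j le_rfl hj).2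
    have := le_abs_self (Cb κ'.C1)
    rw [hAd]; linarith
  · simp only [map_sum]
    refine Finset.sum_congr rfl (fun i hi => ?_)
    rw [map_sub, Complex.conj_ofReal, Complex.conj_eq_iff_im.mpr (fc_Hc_re hF h (Finset.mem_Ico.mp hi).1)]
  · simp only [map_sum]
    refine Finset.sum_congr rfl (fun i hi => ?_)
    rw [map_sub, Complex.conj_ofReal, Complex.conj_eq_iff_im.mpr (fc_bc_re hF h (Finset.mem_Ico.mp hi).1)]

end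

end Claimed.Agent.R285.B10
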