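import Claimed.Agent.R285.Flow.Cauchy

/-!
# ROW 285, package BP-CUT-CAUCHY (#12543, helper90), file 3: rows of the derivatives, histories as holomorphic functions of `b`, one-step recursions, the tube.  ALL PROVED.

1. rows: `MapOK.fderiv_N_x/_y/_q` (`(DN v).1 = v.1 - 2 y v.2.1 + D eX v`, …), `MapOK.fderiv_sc_t/_z`, `ReadOK.fderiv_rV/_rP`.
2. histories: `H.dst b i = ∂_b (H.st b i)`, `H.dtor b h i = ∂_b (H.tor b h i)`; `cau_st_hasDerivAt`, `cau_tor_hasDerivAt` (holomorphy while the history stays in the domain);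
   chain rules `cau_dst_succ`, `cau_dtor_succ`; components `cau_deriv_x/_y/_q` (`= E4.Vx, Vy, dQ` at `b = xyCritical`).
3. one step: `cau_resp_step` ([E] (4.3), (4.4) plane part, free Cauchy radii), `cau_sec_step` (secants of two states in one region), `MapOK.dbd_sc`, `cau_resp_step_tor`.
4. the tube: `TubeOK κ ε ρt` (errors have derivative `≤ ε`, remainder rows contract with `θ + ε`, `sc` and the read-out rows are bounded), `cau_tube : ∃ ρt1 > 0, ∀ ρt ≤ ρt1, TubeOK κ ε ρt`.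
-/

set_option autoImplicit false
set_option linter.unusedSectionVars false

namespace Claimed.Agent.R285.Flow

open Metric Set Filter Topology

noncomputable section

variable {κ : MapC} {H : Hist}

/-! ## 1. The rows of the derivatives -/

theorem MapOK.N_hasFDerivAt (hM : MapOK κ H) {j : ℕ} (hj : H.j0 ≤ j) {Y : ℂ × ℂ × H.Q j} (hY : ‖Y‖ < κ.ρ) :
    HasFDerivAt (H.N j) (fderiv ℂ (H.N j) Y) Y :=
  ((hM.N_an j hj).differentiableAt (isOpen_ball.mem_nhds (mem_ball_zero_iff.2 hY))).hasFDerivAt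

theorem MapOK.sc_hasFDerivAt (hM : MapOK κ H) {j : ℕ} (hj : H.j0 ≤ j) {Y : ℂ × ℂ × H.Q j} (hY : ‖Y‖ < κ.ρ) :
    HasFDerivAt (H.sc j) (fderiv ℂ (H.sc j) Y) Y :=
  ((hM.sc_an j hj).differentiableAt (isOpen_ball.mem_nhds (mem_ball_zero_iff.2 hY))).hasFDerivAt

theorem MapOK.Psi_hasFDerivAt (hM : MapOK κ H) {j h : ℕ} (hj : H.j0 ≤ j) (hjh : j < h) {X : (ℂ × ℂ) × H.T j h}
    (hX : ‖X‖ < κ.ρ) : HasFDerivAt (H.Ψ j h) (fderiv ℂ (H.Ψ j h) X) X :=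
  ((hM.Ψ_an j h hj hjh).differentiableAt (isOpen_ball.mem_nhds (mem_ball_zero_iff.2 hX))).hasFDerivAt

/-- `x`-row of `DN`. -/
theorem MapOK.fderiv_N_x (hM : MapOK κ H) {j : ℕ} (hj : H.j0 ≤ j) {Y : ℂ × ℂ × H.Q j} (hY : ‖Y‖ < κ.ρ)
    (v : ℂ × ℂ × H.Q j) :
    (fderiv ℂ (H.N j) Y v).1 = v.1 - 2 * Y.2.1 * v.2.1 + fderiv ℂ (H.eX j) Y v := by
  have hN := hM.N_hasFDerivAt hj hY
  have h1 := hN.fst
  have hx : HasFDerivAt (fun Y : ℂ × ℂ × H.Q j => Y.1) (ContinuousLinearMap.fst ℂ ℂ (ℂ × H.Q j)) Y := hasFDerivAt_fst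
  have hy : HasFDerivAt (fun Y : ℂ × ℂ × H.Q j => Y.2.1)
      ((ContinuousLinearMap.fst ℂ ℂ (H.Q j)).comp (ContinuousLinearMap.snd ℂ ℂ (ℂ × H.Q j))) Y :=
    (hasFDerivAt_snd (𝕜 := ℂ) (p := Y)).fst
  have h2 := h1.sub (hx.sub (hy.mul hy))
  have e : H.eX j = fun Y => (H.N j Y).1 - (Y.1 - Y.2.1 * Y.2.1) := by
    funext Z
    simp only [Hist.eX, sq]
  have h3 : HasFDerivAt (fun Y : ℂ × ℂ × H.Q j => (H.N j Y).1 - (Y.1 - Y.2.1 * Y.2.1)) _ Y := h2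
  rw [e, h3.fderiv]
  simp
  ring

/-- `y`-row of `DN`. -/
theorem MapOK.fderiv_N_y (hM : MapOK κ H) {j : ℕ} (hj : H.j0 ≤ j) {Y : ℂ × ℂ × H.Q j} (hY : ‖Y‖ < κ.ρ)
    (v : ℂ × ℂ × H.Q j) :
    (fderiv ℂ (H.N j) Y v).2.1 = v.2.1 - (v.1 * Y.2.1 + Y.1 * v.2.1) + fderiv ℂ (H.eY j) Y v := by
  have hN := hM.N_hasFDerivAt hj hY
  have h1 := hN.snd.fst
  have hx : HasFDerivAt (fun Y : ℂ × ℂ × H.Q j => Y.1) (ContinuousLinearMap.fst ℂ ℂ (ℂ × H.Q j)) Y := hasFDerivAt_fst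
  have hy : HasFDerivAt (fun Y : ℂ × ℂ × H.Q j => Y.2.1)
      ((ContinuousLinearMap.fst ℂ ℂ (H.Q j)).comp (ContinuousLinearMap.snd ℂ ℂ (ℂ × H.Q j))) Y :=
    (hasFDerivAt_snd (𝕜 := ℂ) (p := Y)).fst
  have h2 := h1.sub (hy.sub (hx.mul hy))
  have h3 : HasFDerivAt (H.eY j) _ Y := h2
  rw [h3.fderiv]
  simp
  ring

/-- `Q`-row of `DN`. -/
theorem MapOK.fderiv_N_q (hM : MapOK κ H) {j : ℕ} (hj : H.j0 ≤ j) {Y : ℂ × ℂ × H.Q j} (hY : ‖Y‖ < κ.ρ)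
    (v : ℂ × ℂ × H.Q j) : (fderiv ℂ (H.N j) Y v).2.2 = fderiv ℂ (H.Qp j) Y v := by
  have hN := hM.N_hasFDerivAt hj hY
  have h3 : HasFDerivAt (H.Qp j) _ Y := hN.snd.snd
  rw [h3.fderiv]
  rfl

/-- `t`-row of `D sc`. -/
theorem MapOK.fderiv_sc_t (hM : MapOK κ H) {j : ℕ} (hj : H.j0 ≤ j) {Y : ℂ × ℂ × H.Q j} (hY : ‖Y‖ < κ.ρ)
    (v : ℂ × ℂ × H.Q j) : (fderiv ℂ (H.sc j) Y v).1 = v.1 / κ.bs + fderiv ℂ (H.eT κ j) Y v := by
  have hS := hM.sc_hasFDerivAt hj hY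
  have hx : HasFDerivAt (fun Y : ℂ × ℂ × H.Q j => Y.1) (ContinuousLinearMap.fst ℂ ℂ (ℂ × H.Q j)) Y := hasFDerivAt_fst
  have h2 := hS.fst.sub (hx.mul_const ((κ.bs : ℂ)⁻¹))
  have e : H.eT κ j = fun Y => (H.sc j Y).1 - Y.1 * (κ.bs : ℂ)⁻¹ := by
    funext Z
    simp only [Hist.eT, div_eq_mul_inv]
  have h3 : HasFDerivAt (fun Y : ℂ × ℂ × H.Q j => (H.sc j Y).1 - Y.1 * (κ.bs : ℂ)⁻¹) _ Y := h2
  rw [e, h3.fderiv]
  simp
  ring

/-- `z`-row of `D sc`. -/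
theorem MapOK.fderiv_sc_z (hM : MapOK κ H) {j : ℕ} (hj : H.j0 ≤ j) {Y : ℂ × ℂ × H.Q j} (hY : ‖Y‖ < κ.ρ)
    (v : ℂ × ℂ × H.Q j) :
    (fderiv ℂ (H.sc j) Y v).2 = v.2.1 / Real.sqrt (κ.bs * κ.Hq) + fderiv ℂ (H.eZ κ j) Y v := by
  have hS := hM.sc_hasFDerivAt hj hY
  have hy : HasFDerivAt (fun Y : ℂ × ℂ × H.Q j => Y.2.1)
      ((ContinuousLinearMap.fst ℂ ℂ (H.Q j)).comp (ContinuousLinearMap.snd ℂ ℂ (ℂ × H.Q j))) Y :=
    (hasFDerivAt_snd (𝕜 := ℂ) (p := Y)).fst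
  have h2 := hS.snd.sub (hy.mul_const (((Real.sqrt (κ.bs * κ.Hq) : ℝ) : ℂ)⁻¹))
  have e : H.eZ κ j = fun Y => (H.sc j Y).2 - Y.2.1 * ((Real.sqrt (κ.bs * κ.Hq) : ℝ) : ℂ)⁻¹ := by
    funext Z
    simp only [Hist.eZ, div_eq_mul_inv]
  have h3 : HasFDerivAt (fun Y : ℂ × ℂ × H.Q j => (H.sc j Y).2 - Y.2.1 * ((Real.sqrt (κ.bs * κ.Hq) : ℝ) : ℂ)⁻¹) _ Y := h2
  rw [e, h3.fderiv]
  simp
  ring

theorem ReadOK.fderiv_rV {κe : EntC} {s : ℕ} (hR : ReadOK κ κe s H) {h : ℕ} (hh : H.j0 ≤ h) {X : (ℂ × ℂ) × H.T h h}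
    (hX : ‖X‖ < κ.ρ) (v : (ℂ × ℂ) × H.T h h) :
    fderiv ℂ (H.rV h) X v = H.kV h * v.1.1 + fderiv ℂ (H.eV h) X v := by
  have hr : HasFDerivAt (H.rV h) (fderiv ℂ (H.rV h) X) X :=
    ((hR.rV_an h hh).differentiableAt (isOpen_ball.mem_nhds (mem_ball_zero_iff.2 hX))).hasFDerivAt
  have ht : HasFDerivAt (fun X : (ℂ × ℂ) × H.T h h => X.1.1)
      ((ContinuousLinearMap.fst ℂ ℂ ℂ).comp (ContinuousLinearMap.fst ℂ (ℂ × ℂ) (H.T h h))) X :=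
    (hasFDerivAt_fst (𝕜 := ℂ) (p := X)).fst
  have h2 := hr.sub (ht.const_mul ((H.kV h : ℝ) : ℂ))
  have h3 : HasFDerivAt (H.eV h) _ X := h2
  rw [h3.fderiv]
  simp

theorem ReadOK.fderiv_rP {κe : EntC} {s : ℕ} (hR : ReadOK κ κe s H) {h : ℕ} (hh : H.j0 ≤ h) {X : (ℂ × ℂ) × H.T h h}
    (hX : ‖X‖ < κ.ρ) (v : (ℂ × ℂ) × H.T h h) :
    fderiv ℂ (H.rP h) X v = H.kP h * v.1.2 + fderiv ℂ (H.eP h) X v := by
  have hr : HasFDerivAt (H.rP h) (fderiv ℂ (H.rP h) X) X :=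
    ((hR.rP_an h hh).differentiableAt (isOpen_ball.mem_nhds (mem_ball_zero_iff.2 hX))).hasFDerivAt
  have ht : HasFDerivAt (fun X : (ℂ × ℂ) × H.T h h => X.1.2)
      ((ContinuousLinearMap.snd ℂ ℂ ℂ).comp (ContinuousLinearMap.fst ℂ (ℂ × ℂ) (H.T h h))) X :=
    (hasFDerivAt_fst (𝕜 := ℂ) (p := X)).snd
  have h2 := hr.sub (ht.const_mul ((H.kP h : ℝ) : ℂ))
  have h3 : HasFDerivAt (H.eP h) _ X := h2
  rw [h3.fderiv]
  simp

theorem ReadOK.fderiv_rM {κe : EntC} {s : ℕ} (hR : ReadOK κ κe s H) {h : ℕ} (hh : H.j0 ≤ h) {X : (ℂ × ℂ) × H.T h h}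
    (hX : ‖X‖ < κ.ρ) (v : (ℂ × ℂ) × H.T h h) :
    fderiv ℂ (H.rM h) X v = H.kM h * v.1.2 + fderiv ℂ (H.eM h) X v := by
  have hr : HasFDerivAt (H.rM h) (fderiv ℂ (H.rM h) X) X :=
    ((hR.rM_an h hh).differentiableAt (isOpen_ball.mem_nhds (mem_ball_zero_iff.2 hX))).hasFDerivAt
  have ht : HasFDerivAt (fun X : (ℂ × ℂ) × H.T h h => X.1.2)
      ((ContinuousLinearMap.snd ℂ ℂ ℂ).comp (ContinuousLinearMap.fst ℂ (ℂ × ℂ) (H.T h h))) X :=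
    (hasFDerivAt_fst (𝕜 := ℂ) (p := X)).snd
  have h2 := hr.sub (ht.const_mul ((H.kM h : ℝ) : ℂ))
  have h3 : HasFDerivAt (H.eM h) _ X := h2
  rw [h3.fderiv]
  simp

/-! ## 2. Histories as functions of the parameter -/

namespace Hist

/-- the temperature derivative of the plane state at stage `i`. -/
def dst (H : Hist) (b : ℂ) (i : ℕ) : ℂ × ℂ × H.Q (H.j0 + i) := deriv (fun b => H.st b i) b

/-- the temperature derivative of the torus remainder at stage `i` behind the stop `h`. -/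
def dtor (H : Hist) (b : ℂ) (h i : ℕ) : H.T (H.j0 + i) h := deriv (fun b => H.tor b h i) b

end Hist

/-- the plane history is holomorphic in the parameter as long as it stays in the domain. -/
theorem cau_st_hasDerivAt (hM : MapOK κ H) {b : ℂ} (hY0 : DifferentiableAt ℂ H.Y0 b) (i : ℕ)
    (hin : ∀ i' < i, ‖H.st b i'‖ < κ.ρ) : HasDerivAt (fun b => H.st b i) (H.dst b i) b := by
  induction i with
  | zero => exact hY0.hasDerivAt
  | succ i ih =>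
    have h1 := ih (fun i' hi' => hin i' (Nat.lt_succ_of_lt hi'))
    have h2 := (hM.N_hasFDerivAt (Nat.le_add_right _ i) (hin i (Nat.lt_succ_self i))).comp_hasDerivAt b h1
    have h3 : HasDerivAt (fun b => H.st b (i + 1)) _ b := h2
    unfold Hist.dst
    rw [h3.deriv]
    exact h3

/-- **chain rule** for the plane history. -/
theorem cau_dst_succ (hM : MapOK κ H) {b : ℂ} (hY0 : DifferentiableAt ℂ H.Y0 b) (i : ℕ)
    (hin : ∀ i' ≤ i, ‖H.st b i'‖ < κ.ρ) :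
    H.dst b (i + 1) = fderiv ℂ (H.N (H.j0 + i)) (H.st b i) (H.dst b i) := by
  have h1 := cau_st_hasDerivAt hM hY0 i (fun i' hi' => hin i' hi'.le)
  have h2 := (hM.N_hasFDerivAt (Nat.le_add_right _ i) (hin i le_rfl)).comp_hasDerivAt b h1
  have h3 : HasDerivAt (fun b => H.st b (i + 1)) _ b := h2
  exact h3.deriv

theorem cau_deriv_x {b : ℂ} {i : ℕ} (h : DifferentiableAt ℂ (fun b => H.st b i) b) :
    deriv (fun b => H.x b i) b = (H.dst b i).1 := by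
  have h1 : HasDerivAt (fun b => H.x b i) _ b := hasFDerivAt_fst.comp_hasDerivAt b h.hasDerivAt
  exact h1.deriv

theorem cau_deriv_y {b : ℂ} {i : ℕ} (h : DifferentiableAt ℂ (fun b => H.st b i) b) :
    deriv (fun b => H.y b i) b = (H.dst b i).2.1 := by
  have h0 := ((hasFDerivAt_snd (𝕜 := ℂ) (p := H.st b i)).fst).comp_hasDerivAt b h.hasDerivAt
  have h1 : HasDerivAt (fun b => H.y b i) _ b := h0
  exact h1.deriv

theorem cau_deriv_q {b : ℂ} {i : ℕ} (h : DifferentiableAt ℂ (fun b => H.st b i) b) :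
    deriv (fun b => (H.st b i).2.2) b = (H.dst b i).2.2 := by
  have h0 := ((hasFDerivAt_snd (𝕜 := ℂ) (p := H.st b i)).snd).comp_hasDerivAt b h.hasDerivAt
  have h1 : HasDerivAt (fun b => (H.st b i).2.2) _ b := h0
  exact h1.deriv

/-- the torus remainder is holomorphic in the parameter as long as plane and torus states stay in the domain. -/
theorem cau_tor_hasDerivAt (hM : MapOK κ H) {b : ℂ} {h : ℕ} (hY0 : DifferentiableAt ℂ H.Y0 b)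
    (hT0 : DifferentiableAt ℂ (H.T0 h) b) (i : ℕ) (hi : H.j0 + i ≤ h)
    (hin : ∀ i' < i, ‖H.st b i'‖ < κ.ρ ∧ ‖H.ts b h i'‖ < κ.ρ) :
    HasDerivAt (fun b => H.tor b h i) (H.dtor b h i) b := by
  induction i with
  | zero => exact hT0.hasDerivAt
  | succ i ih =>
    have h1 := ih (by omega) (fun i' hi' => hin i' (Nat.lt_succ_of_lt hi'))
    have hs := cau_st_hasDerivAt hM hY0 i (fun i' hi' => (hin i' (Nat.lt_succ_of_lt hi')).1)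
    have hsc := (hM.sc_hasFDerivAt (Nat.le_add_right _ i) (hin i (Nat.lt_succ_self i)).1).comp_hasDerivAt b hs
    have hpair := hsc.prodMk h1
    have h2 := (hM.Psi_hasFDerivAt (h := h) (Nat.le_add_right _ i) (by omega)
      (X := H.ts b h i) (hin i (Nat.lt_succ_self i)).2).comp_hasDerivAt b hpair
    have h3 : HasDerivAt (fun b => H.tor b h (i + 1)) _ b := h2
    unfold Hist.dtor
    rw [h3.deriv]
    exact h3

/-- **chain rule** for the torus remainder. -/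
theorem cau_dtor_succ (hM : MapOK κ H) {b : ℂ} {h : ℕ} (hY0 : DifferentiableAt ℂ H.Y0 b)
    (hT0 : DifferentiableAt ℂ (H.T0 h) b) (i : ℕ) (hi : H.j0 + i < h)
    (hin : ∀ i' ≤ i, ‖H.st b i'‖ < κ.ρ ∧ ‖H.ts b h i'‖ < κ.ρ) :
    H.dtor b h (i + 1) = fderiv ℂ (H.Ψ (H.j0 + i) h) (H.ts b h i)
      (fderiv ℂ (H.sc (H.j0 + i)) (H.st b i) (H.dst b i), H.dtor b h i) := by
  have h1 := cau_tor_hasDerivAt hM hY0 hT0 i hi.le (fun i' hi' => hin i' hi'.le)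
  have hs := cau_st_hasDerivAt hM hY0 i (fun i' hi' => (hin i' hi'.le).1)
  have hsc := (hM.sc_hasFDerivAt (Nat.le_add_right _ i) (hin i le_rfl).1).comp_hasDerivAt b hs
  have hpair := hsc.prodMk h1
  have h2 := (hM.Psi_hasFDerivAt (h := h) (Nat.le_add_right _ i) hi
    (X := H.ts b h i) (hin i le_rfl).2).comp_hasDerivAt b hpair
  have h3 : HasDerivAt (fun b => H.tor b h (i + 1)) _ b := h2
  exact h3.deriv

/-! ## 3. One step of the differentiated recursion and of the secant recursion -/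

/-- **[E] (4.3), (4.4), plane part**: one step of the differentiated recursion, all Cauchy radii free.
On the critical trajectory (`w ≍ 1/j`, `q = O(j⁻²)`, `rW = rQ = w`) the four coefficients are `O(j⁻²)`, `O(j⁻¹)`, `O(j⁻¹)`, `θ + O(j⁻¹)`. -/
theorem cau_resp_step (hM : MapOK κ H) {b : ℂ} (hY0 : DifferentiableAt ℂ H.Y0 b) (i : ℕ)
    (hin : ∀ i' ≤ i, ‖H.st b i'‖ < κ.ρ) {w q rW rQ : ℝ} (hrW : 0 < rW) (hrQ : 0 < rQ) (hW : w + rW < κ.ρ)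
    (hQ : q + rQ < κ.ρ) (hreg : H.st b i ∈ Reg (H.Q (H.j0 + i)) w q) :
    ‖(H.dst b (i + 1)).1 - ((H.dst b i).1 - 2 * H.y b i * (H.dst b i).2.1)‖
        ≤ κ.C * eordB (H.j0 + i) (w + rW) q / rW * wn (H.dst b i)
          + κ.C * eordB (H.j0 + i) w (q + rQ) / rQ * ‖(H.dst b i).2.2‖ ∧
    ‖(H.dst b (i + 1)).2.1 - ((H.dst b i).2.1 - ((H.dst b i).1 * H.y b i + H.x b i * (H.dst b i).2.1))‖
        ≤ κ.C * eordB (H.j0 + i) (w + rW) q / rW * wn (H.dst b i)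
          + κ.C * eordB (H.j0 + i) w (q + rQ) / rQ * ‖(H.dst b i).2.2‖ ∧
    ‖(H.dst b (i + 1)).2.2‖
        ≤ (κ.θ * q + κ.C * (w + rW) ^ 2) / rW * wn (H.dst b i)
          + (κ.θ * (q + rQ) + κ.C * w ^ 2) / rQ * ‖(H.dst b i).2.2‖ := by
  have hj : H.j0 ≤ H.j0 + i := Nat.le_add_right _ i
  have e := cau_dst_succ hM hY0 i hin
  refine ⟨?_, ?_, ?_⟩
  · have h1 := hM.fderiv_N_x hj (hin i le_rfl) (H.dst b i)
    have h2 := (hM.maj_eX hj).dbd hrW hrQ hW hQ hreg (H.dst b i)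
    have e2 : (H.dst b (i + 1)).1 - ((H.dst b i).1 - 2 * H.y b i * (H.dst b i).2.1)
        = fderiv ℂ (H.eX (H.j0 + i)) (H.st b i) (H.dst b i) := by
      rw [e, h1]
      simp only [Hist.y]
      ring
    rw [e2]
    exact h2
  · have h1 := hM.fderiv_N_y hj (hin i le_rfl) (H.dst b i)
    have h2 := (hM.maj_eY hj).dbd hrW hrQ hW hQ hreg (H.dst b i)
    have e2 : (H.dst b (i + 1)).2.1 - ((H.dst b i).2.1 - ((H.dst b i).1 * H.y b i + H.x b i * (H.dst b i).2.1))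
        = fderiv ℂ (H.eY (H.j0 + i)) (H.st b i) (H.dst b i) := by
      rw [e, h1]
      simp only [Hist.y, Hist.x]
      ring
    rw [e2]
    exact h2
  · have h1 := hM.fderiv_N_q hj (hin i le_rfl) (H.dst b i)
    have h2 := (hM.maj_Qp hj).dbd hrW hrQ hW hQ hreg (H.dst b i)
    rw [e, h1]
    exact h2

/-- **secant form** of the same step ([E] L4.3, (4.21)): two states in the same anisotropic region. -/
theorem cau_sec_step (hM : MapOK κ H) {j : ℕ} (hj : H.j0 ≤ j) {w q rW rQ : ℝ} (hrW : 0 < rW) (hrQ : 0 < rQ)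
    (hW : w + rW < κ.ρ) (hQ : q + rQ < κ.ρ) {Y Y' : ℂ × ℂ × H.Q j} (hY : Y ∈ Reg (H.Q j) w q)
    (hY' : Y' ∈ Reg (H.Q j) w q) :
    ‖((H.N j Y').1 - (H.N j Y).1) - ((Y'.1 - Y.1) - (Y'.2.1 ^ 2 - Y.2.1 ^ 2))‖
        ≤ κ.C * eordB j (w + rW) q / rW * wn (Y' - Y) + κ.C * eordB j w (q + rQ) / rQ * ‖Y'.2.2 - Y.2.2‖ ∧
    ‖((H.N j Y').2.1 - (H.N j Y).2.1) - ((Y'.2.1 - Y.2.1) - (Y'.1 * Y'.2.1 - Y.1 * Y.2.1))‖
        ≤ κ.C * eordB j (w + rW) q / rW * wn (Y' - Y) + κ.C * eordB j w (q + rQ) / rQ * ‖Y'.2.2 - Y.2.2‖ ∧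
    ‖(H.N j Y').2.2 - (H.N j Y).2.2‖
        ≤ (κ.θ * q + κ.C * (w + rW) ^ 2) / rW * wn (Y' - Y) + (κ.θ * (q + rQ) + κ.C * w ^ 2) / rQ * ‖Y'.2.2 - Y.2.2‖ := by
  refine ⟨?_, ?_, ?_⟩
  · have h2 := (hM.maj_eX hj).lip hrW hrQ hW hQ hY hY'
    have e2 : ((H.N j Y').1 - (H.N j Y).1) - ((Y'.1 - Y.1) - (Y'.2.1 ^ 2 - Y.2.1 ^ 2)) = H.eX j Y' - H.eX j Y := by
      simp only [Hist.eX]
      ring
    rw [e2]
    exact h2
  · have h2 := (hM.maj_eY hj).lip hrW hrQ hW hQ hY hY'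
    have e2 : ((H.N j Y').2.1 - (H.N j Y).2.1) - ((Y'.2.1 - Y.2.1) - (Y'.1 * Y'.2.1 - Y.1 * Y.2.1))
        = H.eY j Y' - H.eY j Y := by
      simp only [Hist.eY]
      ring
    rw [e2]
    exact h2
  · exact (hM.maj_Qp hj).lip hrW hrQ hW hQ hY hY'

/-- the linear size of the coordinate change `(x, y) ↦ (t, z)`. -/
def MapC.ks (κ : MapC) : ℝ := max (1 / κ.bs) (1 / Real.sqrt (κ.bs * κ.Hq))

theorem MapC.bs_pos (κ : MapC) : 0 < κ.bs := by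
  unfold MapC.bs
  have : (1 : ℝ) < κ.L := by exact_mod_cast (lt_of_lt_of_le one_lt_two κ.hL)
  have := Real.log_pos this
  positivity

/-- derivative of the coordinate change. -/
theorem MapOK.dbd_sc (hM : MapOK κ H) {j : ℕ} (hj : H.j0 ≤ j) {w q rW rQ : ℝ} (hrW : 0 < rW) (hrQ : 0 < rQ)
    (hW : w + rW < κ.ρ) (hQ : q + rQ < κ.ρ) {Y : ℂ × ℂ × H.Q j} (hY : Y ∈ Reg (H.Q j) w q) :
    DBd (H.sc j) Y (κ.ks + κ.C * (Real.exp (-κ.c * j) * (w + rW) + (w + rW) ^ 2 + q) / rW)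
      (κ.C * (Real.exp (-κ.c * j) * w + w ^ 2 + (q + rQ)) / rQ) := by
  intro v
  have hYρ : ‖Y‖ < κ.ρ := cau_norm_lt.2 ⟨by linarith [hY.1], by linarith [hY.2]⟩
  have hw0 : 0 ≤ w := (cau_wn_nonneg Y).trans hY.1
  have hC := zero_le_one.trans κ.hC
  have hv0 := cau_wn_nonneg v
  have hbs := κ.bs_pos
  have hsq : 0 ≤ Real.sqrt (κ.bs * κ.Hq) := Real.sqrt_nonneg _
  rw [Prod.norm_def]
  refine max_le ?_ ?_
  · rw [hM.fderiv_sc_t hj hYρ v]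
    have h2 := (hM.maj_eT hj).dbd hrW hrQ hW hQ hY v
    have h3 : ‖v.1 / (κ.bs : ℂ)‖ ≤ κ.ks * wn v := by
      rw [norm_div, Complex.norm_real, Real.norm_eq_abs, abs_of_pos hbs, div_eq_mul_inv, mul_comm, ← one_div]
      exact mul_le_mul (le_max_left _ _) (le_max_left _ _) (norm_nonneg _) (le_max_of_le_left (by positivity))
    have h4 : κ.C * ((w + rW) ^ 2 + q) / rW ≤ κ.C * (Real.exp (-κ.c * j) * (w + rW) + (w + rW) ^ 2 + q) / rW := by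
      have : 0 ≤ Real.exp (-κ.c * j) * (w + rW) := by positivity
      gcongr
      linarith
    have h5 : κ.C * (w ^ 2 + (q + rQ)) / rQ ≤ κ.C * (Real.exp (-κ.c * j) * w + w ^ 2 + (q + rQ)) / rQ := by
      have : 0 ≤ Real.exp (-κ.c * j) * w := by positivity
      gcongr
      linarith
    calc _ ≤ ‖v.1 / (κ.bs : ℂ)‖ + ‖fderiv ℂ (H.eT κ j) Y v‖ := norm_add_le _ _
      _ ≤ κ.ks * wn v + (κ.C * ((w + rW) ^ 2 + q) / rW * wn v + κ.C * (w ^ 2 + (q + rQ)) / rQ * ‖v.2.2‖) :=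
        add_le_add h3 h2
      _ ≤ κ.ks * wn v + (κ.C * (Real.exp (-κ.c * j) * (w + rW) + (w + rW) ^ 2 + q) / rW * wn v
            + κ.C * (Real.exp (-κ.c * j) * w + w ^ 2 + (q + rQ)) / rQ * ‖v.2.2‖) := by
        gcongr
      _ = _ := by ring
  · rw [hM.fderiv_sc_z hj hYρ v]
    have h2 := (hM.maj_eZ hj).dbd hrW hrQ hW hQ hY v
    have h3 : ‖v.2.1 / ((Real.sqrt (κ.bs * κ.Hq) : ℝ) : ℂ)‖ ≤ κ.ks * wn v := by
      rw [norm_div, Complex.norm_real, Real.norm_eq_abs, abs_of_nonneg hsq, div_eq_mul_inv, mul_comm, ← one_div]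
      exact mul_le_mul (le_max_right _ _) (le_max_right _ _) (norm_nonneg _) (le_max_of_le_left (by positivity))
    calc _ ≤ ‖v.2.1 / ((Real.sqrt (κ.bs * κ.Hq) : ℝ) : ℂ)‖ + ‖fderiv ℂ (H.eZ κ j) Y v‖ := norm_add_le _ _
      _ ≤ κ.ks * wn v + (κ.C * (Real.exp (-κ.c * j) * (w + rW) + (w + rW) ^ 2 + q) / rW * wn v
            + κ.C * (Real.exp (-κ.c * j) * w + w ^ 2 + (q + rQ)) / rQ * ‖v.2.2‖) := add_le_add h3 h2
      _ = _ := by ring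

/-- **[E] (4.4), torus part**: one step of the differentiated torus recursion. -/
theorem cau_resp_step_tor (hM : MapOK κ H) {b : ℂ} {h : ℕ} (hY0 : DifferentiableAt ℂ H.Y0 b)
    (hT0 : DifferentiableAt ℂ (H.T0 h) b) (i : ℕ) (hi : H.j0 + i < h)
    (hin : ∀ i' ≤ i, ‖H.st b i'‖ < κ.ρ ∧ ‖H.ts b h i'‖ < κ.ρ) {a t r1 r2 : ℝ} (hr1 : 0 < r1) (hr2 : 0 < r2)
    (h1 : a + r1 < κ.ρ) (h2 : t + r2 < κ.ρ) (hreg : H.ts b h i ∈ Reg2 (ℂ × ℂ) (H.T (H.j0 + i) h) a t) :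
    ‖H.dtor b h (i + 1)‖
      ≤ (κ.θ * t + κ.C * (max (a + r1) t) ^ 2) / r1 * ‖fderiv ℂ (H.sc (H.j0 + i)) (H.st b i) (H.dst b i)‖
        + (κ.θ * (t + r2) + κ.C * (max a (t + r2)) ^ 2) / r2 * ‖H.dtor b h i‖ := by
  rw [cau_dtor_succ hM hY0 hT0 i hi hin]
  exact (hM.maj_Psi (Nat.le_add_right _ i) hi).dbd hr1 hr2 h1 h2 hreg _

/-! ## 4. The small tube -/

theorem cau_div_sq_le (j : ℕ) {a : ℝ} (ha : 0 ≤ a) : a / (j : ℝ) ^ 2 ≤ a := by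
  rcases Nat.eq_zero_or_pos j with rfl | hj
  · simpa using ha
  · have h1 : (1 : ℝ) ≤ (j : ℝ) := by exact_mod_cast hj
    exact div_le_self ha (one_le_pow₀ h1)

theorem cau_eordB_le (j : ℕ) (w q : ℝ) : eordB j w q ≤ w ^ 2 + w ^ 3 + (w + q) * q := by
  unfold eordB
  have := cau_div_sq_le j (sq_nonneg w)
  linarith

theorem cau_arith1 {x r : ℝ} (hx : 0 ≤ x) (hxr : x ≤ r) (hr1 : r ≤ 1) :
    (x + r) ^ 2 + (x + r) ^ 3 + ((x + r) + x) * x ≤ 15 * r ^ 2 := by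
  have hr0 : 0 ≤ r := hx.trans hxr
  have h1 : x + r ≤ 2 * r := by linarith
  have h0 : 0 ≤ x + r := by linarith
  have a1 : (x + r) ^ 2 ≤ (2 * r) ^ 2 := pow_le_pow_left₀ h0 h1 2
  have a2 : (x + r) ^ 3 ≤ (2 * r) ^ 3 := pow_le_pow_left₀ h0 h1 3
  have a3 : ((x + r) + x) * x ≤ (3 * r) * r := mul_le_mul (by linarith) hxr hx (by linarith)
  have a4 : r ^ 3 ≤ r ^ 2 := by
    have : r ^ 3 = r ^ 2 * r := by ring
    rw [this]
    exact mul_le_of_le_one_right (sq_nonneg r) hr1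
  nlinarith

theorem cau_arith2 {x r : ℝ} (hx : 0 ≤ x) (hxr : x ≤ r) (hr1 : r ≤ 1) :
    x ^ 2 + x ^ 3 + (x + (x + r)) * (x + r) ≤ 8 * r ^ 2 := by
  have hr0 : 0 ≤ r := hx.trans hxr
  have a1 : x ^ 2 ≤ r ^ 2 := pow_le_pow_left₀ hx hxr 2
  have a2 : x ^ 3 ≤ r ^ 3 := pow_le_pow_left₀ hx hxr 3
  have a3 : (x + (x + r)) * (x + r) ≤ (3 * r) * (2 * r) := mul_le_mul (by linarith) (by linarith) (by linarith) (by linarith)
  have a4 : r ^ 3 ≤ r ^ 2 := by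
    have : r ^ 3 = r ^ 2 * r := by ring
    rw [this]
    exact mul_le_of_le_one_right (sq_nonneg r) hr1
  nlinarith

/-- the numerical situation of the tube lemma. -/
structure TubeAr (C θ ε x r δ : ℝ) : Prop where
  hC1 : 1 ≤ C
  hθ0 : 0 < θ
  hθ1 : θ < 1
  hx0 : 0 < x
  hr0 : 0 < r
  hxle : x ≤ r * δ
  hδ0 : 0 < δ
  hδ1 : δ ≤ 1
  hrδ : r ≤ δ
  hCδ : C * δ ≤ ε / 32

namespace TubeAr

variable {C θ ε x r δ : ℝ} (h : TubeAr C θ ε x r δ)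
include h

theorem hC0 : 0 < C := lt_of_lt_of_le one_pos h.hC1
theorem hr1 : r ≤ 1 := h.hrδ.trans h.hδ1
theorem hxr : x ≤ r := h.hxle.trans (mul_le_of_le_one_right h.hr0.le h.hδ1)
theorem hCr : C * r ≤ ε / 32 := (mul_le_mul_of_nonneg_left h.hrδ h.hC0.le).trans h.hCδ
theorem hδε : δ ≤ ε / 32 := by
  calc δ = 1 * δ := (one_mul _).symm
    _ ≤ C * δ := mul_le_mul_of_nonneg_right h.hC1 h.hδ0.le
    _ ≤ _ := h.hCδ
theorem hε0 : 0 < ε := by have := h.hδε; have := h.hδ0; linarith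
theorem hCrr : C * r * r ≤ ε / 32 * r := mul_le_mul_of_nonneg_right h.hCr h.hr0.le
theorem hδr : δ * r ≤ ε / 32 * r := mul_le_mul_of_nonneg_right h.hδε h.hr0.le
theorem hεr : 0 < ε * r := mul_pos h.hε0 h.hr0
theorem hθx : θ * x ≤ δ * r := by
  calc θ * x ≤ 1 * x := mul_le_mul_of_nonneg_right h.hθ1.le h.hx0.le
    _ ≤ δ * r := by rw [one_mul, mul_comm]; exact h.hxle
theorem hsq : (x + r) ^ 2 ≤ 4 * (r * r) := by
  have h1 : (x + r) ^ 2 ≤ (2 * r) ^ 2 := pow_le_pow_left₀ (by linarith [h.hx0, h.hr0]) (by linarith [h.hxr]) 2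
  calc _ ≤ (2 * r) ^ 2 := h1
    _ = _ := by ring
theorem hrr : r * r ≤ r := mul_le_of_le_one_right h.hr0.le h.hr1
theorem hxx : x ^ 2 ≤ r * r := by
  rw [sq]
  exact mul_le_mul h.hxr h.hxr h.hx0.le h.hr0.le
theorem hCsq : C * (x + r) ^ 2 ≤ 4 * (C * r * r) := by
  calc C * (x + r) ^ 2 ≤ C * (4 * (r * r)) := mul_le_mul_of_nonneg_left h.hsq h.hC0.le
    _ = _ := by ring

theorem kE1 (j : ℕ) : C * eordB j (x + r) x / r ≤ ε := by
  rw [div_le_iff₀ h.hr0]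
  have h1 := (cau_eordB_le j (x + r) x).trans (cau_arith1 h.hx0.le h.hxr h.hr1)
  have h2 := h.hCrr
  have h3 := h.hεr
  calc C * eordB j (x + r) x ≤ C * (15 * r ^ 2) := mul_le_mul_of_nonneg_left h1 h.hC0.le
    _ = 15 * (C * r * r) := by ring
    _ ≤ ε * r := by linarith

theorem kE2 (j : ℕ) : C * eordB j x (x + r) / r ≤ ε := by
  rw [div_le_iff₀ h.hr0]
  have h1 := (cau_eordB_le j x (x + r)).trans (cau_arith2 h.hx0.le h.hxr h.hr1)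
  have h2 := h.hCrr
  have h3 := h.hεr
  calc C * eordB j x (x + r) ≤ C * (8 * r ^ 2) := mul_le_mul_of_nonneg_left h1 h.hC0.le
    _ = 8 * (C * r * r) := by ring
    _ ≤ ε * r := by linarith

theorem kQ1 : (θ * x + C * (x + r) ^ 2) / r ≤ ε := by
  rw [div_le_iff₀ h.hr0]
  have := h.hθx; have := h.hCsq; have := h.hCrr; have := h.hδr; have := h.hεr
  linarith

theorem kQ2 : (θ * (x + r) + C * x ^ 2) / r ≤ θ + ε := by
  rw [div_le_iff₀ h.hr0]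
  have a2 : C * x ^ 2 ≤ C * r * r := by
    calc C * x ^ 2 ≤ C * (r * r) := mul_le_mul_of_nonneg_left h.hxx h.hC0.le
      _ = _ := by ring
  have := h.hθx; have := h.hCrr; have := h.hδr; have := h.hεr
  calc θ * (x + r) + C * x ^ 2 = θ * x + θ * r + C * x ^ 2 := by ring
    _ ≤ θ * r + ε * r := by linarith
    _ = _ := by ring

theorem kP2 : (θ * (x + r) + C * (x + r) ^ 2) / r ≤ θ + ε := by
  rw [div_le_iff₀ h.hr0]
  have := h.hθx; have := h.hCsq; have := h.hCrr; have := h.hδr; have := h.hεr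
  calc θ * (x + r) + C * (x + r) ^ 2 = θ * x + θ * r + C * (x + r) ^ 2 := by ring
    _ ≤ θ * r + ε * r := by linarith
    _ = _ := by ring

theorem kV1 : C * (x + (x + r) ^ 2) / r ≤ ε := by
  rw [div_le_iff₀ h.hr0]
  have a1 : C * x ≤ ε / 32 * r := by
    calc C * x ≤ C * (r * δ) := mul_le_mul_of_nonneg_left h.hxle h.hC0.le
      _ = (C * δ) * r := by ring
      _ ≤ _ := mul_le_mul_of_nonneg_right h.hCδ h.hr0.le
  have := h.hCsq; have := h.hCrr; have := h.hεr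
  calc C * (x + (x + r) ^ 2) = C * x + C * (x + r) ^ 2 := by ring
    _ ≤ ε * r := by linarith

theorem kV2 : C * ((x + r) + (x + r) ^ 2) / r ≤ 6 * C := by
  rw [div_le_iff₀ h.hr0]
  have a3 : (x + r) + (x + r) ^ 2 ≤ 6 * r := by
    have := h.hsq; have := h.hrr; have := h.hxr
    linarith
  calc C * ((x + r) + (x + r) ^ 2) ≤ C * (6 * r) := mul_le_mul_of_nonneg_left a3 h.hC0.le
    _ = _ := by ring

theorem kS1 {e : ℝ} (he : e ≤ 1) : C * (e * (x + r) + (x + r) ^ 2 + x) / r ≤ 7 * C := by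
  rw [div_le_iff₀ h.hr0]
  have a3 : e * (x + r) + (x + r) ^ 2 + x ≤ 7 * r := by
    have h1 : e * (x + r) ≤ 1 * (x + r) := mul_le_mul_of_nonneg_right he (by linarith [h.hx0, h.hr0])
    have := h.hsq; have := h.hrr; have := h.hxr
    linarith
  calc _ ≤ C * (7 * r) := mul_le_mul_of_nonneg_left a3 h.hC0.le
    _ = _ := by ring

theorem kS2 {e : ℝ} (he : e ≤ 1) : C * (e * x + x ^ 2 + (x + r)) / r ≤ 4 * C := by
  rw [div_le_iff₀ h.hr0]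
  have a3 : e * x + x ^ 2 + (x + r) ≤ 4 * r := by
    have h1 : e * x ≤ 1 * x := mul_le_mul_of_nonneg_right he h.hx0.le
    have := h.hxx; have := h.hrr; have := h.hxr
    linarith
  calc _ ≤ C * (4 * r) := mul_le_mul_of_nonneg_left a3 h.hC0.le
    _ = _ := by ring

end TubeAr

/-- all first order bounds in a tube of radius `ρt`: the errors have derivative `≤ ε`, the remainder rows contract with `θ + ε`. -/
structure TubeOK (κ : MapC) (ε ρt : ℝ) : Prop where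
  pos : 0 < ρt
  lt : ρt < κ.ρ
  eX : ∀ H : Hist, MapOK κ H → ∀ j, H.j0 ≤ j → ∀ Y : ℂ × ℂ × H.Q j, ‖Y‖ ≤ ρt → DBd (H.eX j) Y ε ε
  eY : ∀ H : Hist, MapOK κ H → ∀ j, H.j0 ≤ j → ∀ Y : ℂ × ℂ × H.Q j, ‖Y‖ ≤ ρt → DBd (H.eY j) Y ε ε
  Qp : ∀ H : Hist, MapOK κ H → ∀ j, H.j0 ≤ j → ∀ Y : ℂ × ℂ × H.Q j, ‖Y‖ ≤ ρt → DBd (H.Qp j) Y ε (κ.θ + ε)
  sc : ∀ H : Hist, MapOK κ H → ∀ j, H.j0 ≤ j → ∀ Y : ℂ × ℂ × H.Q j, ‖Y‖ ≤ ρt →
    DBd (H.sc j) Y (κ.ks + 7 * κ.C) (4 * κ.C)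
  Psi : ∀ H : Hist, MapOK κ H → ∀ j h, H.j0 ≤ j → j < h → ∀ X : (ℂ × ℂ) × H.T j h, ‖X‖ ≤ ρt →
    DBd2 (H.Ψ j h) X ε (κ.θ + ε)
  eV : ∀ (H : Hist) (κe : EntC) (s : ℕ), ReadOK κ κe s H → ∀ h, H.j0 ≤ h → ∀ X : (ℂ × ℂ) × H.T h h, ‖X‖ ≤ ρt →
    DBd2 (H.eV h) X ε (6 * κ.C)
  eP : ∀ (H : Hist) (κe : EntC) (s : ℕ), ReadOK κ κe s H → ∀ h, H.j0 ≤ h → ∀ X : (ℂ × ℂ) × H.T h h, ‖X‖ ≤ ρt →
    DBd2 (H.eP h) X ε (6 * κ.C)
  eM : ∀ (H : Hist) (κe : EntC) (s : ℕ), ReadOK κ κe s H → ∀ h, H.j0 ≤ h → ∀ X : (ℂ × ℂ) × H.T h h, ‖X‖ ≤ ρt →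
    DBd2 (H.eM h) X ε (6 * κ.C)

/-- **the tube exists** ([E] beginning of Section 4). -/
theorem cau_tube (κ : MapC) {ε : ℝ} (hε : 0 < ε) : ∃ ρt1 : ℝ, 0 < ρt1 ∧ ∀ ρt : ℝ, 0 < ρt → ρt ≤ ρt1 → TubeOK κ ε ρt := by
  have hC0 : 0 < κ.C := lt_of_lt_of_le one_pos κ.hC
  set δ : ℝ := min 1 (ε / (32 * κ.C)) with hδ
  have hδ0 : 0 < δ := lt_min one_pos (by positivity)
  have hCδ : κ.C * δ ≤ ε / 32 := by
    have : δ ≤ ε / (32 * κ.C) := min_le_right _ _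
    calc κ.C * δ ≤ κ.C * (ε / (32 * κ.C)) := mul_le_mul_of_nonneg_left this hC0.le
      _ = ε / 32 := by field_simp
  set r : ℝ := min (κ.ρ / 3) δ with hr
  have hr0 : 0 < r := lt_min (by have := κ.hρ; positivity) hδ0
  have hrρ : r ≤ κ.ρ / 3 := min_le_left _ _
  refine ⟨r * δ, by positivity, ?_⟩
  intro x hx0 hxle
  have A : TubeAr κ.C κ.θ ε x r δ :=
    ⟨κ.hC, κ.hθ0, κ.hθ, hx0, hr0, hxle, hδ0, min_le_left _ _, min_le_right _ _, hCδ⟩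
  have hxr := A.hxr
  have hρ := κ.hρ
  have hsum : x + r < κ.ρ := by linarith
  have hreg : ∀ {Qs : Type} [NormedAddCommGroup Qs] [NormedSpace ℂ Qs] (Y : ℂ × ℂ × Qs), ‖Y‖ ≤ x → Y ∈ Reg Qs x x := by
    intro Qs _ _ Y hY
    exact cau_norm_le.1 hY
  have hreg2 : ∀ {A B : Type} [NormedAddCommGroup A] [NormedAddCommGroup B] (X : A × B), ‖X‖ ≤ x → X ∈ Reg2 A B x x := by
    intro A B _ _ X hX
    rw [Prod.norm_def, max_le_iff] at hX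
    exact hX
  have hmax1 : max (x + r) x = x + r := max_eq_left (by linarith)
  have hmax2 : max x (x + r) = x + r := max_eq_right (by linarith)
  have he : ∀ j : ℕ, Real.exp (-κ.c * j) ≤ 1 := by
    intro j
    rw [Real.exp_le_one_iff]
    have h1 := κ.hc
    have h2 : (0 : ℝ) ≤ j := Nat.cast_nonneg j
    have := mul_nonneg h1.le h2
    linarith
  refine ⟨hx0, by linarith, ?_, ?_, ?_, ?_, ?_, ?_, ?_, ?_⟩
  · intro H hM j hj Y hY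
    exact ((hM.maj_eX hj).dbd hr0 hr0 hsum hsum (hreg Y hY)).mono (A.kE1 j) (A.kE2 j)
  · intro H hM j hj Y hY
    exact ((hM.maj_eY hj).dbd hr0 hr0 hsum hsum (hreg Y hY)).mono (A.kE1 j) (A.kE2 j)
  · intro H hM j hj Y hY
    exact ((hM.maj_Qp hj).dbd hr0 hr0 hsum hsum (hreg Y hY)).mono A.kQ1 A.kQ2
  · intro H hM j hj Y hY
    exact (hM.dbd_sc hj hr0 hr0 hsum hsum (hreg Y hY)).mono (by linarith [A.kS1 (he j)]) (A.kS2 (he j))
  · intro H hM j h hj hjh X hX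
    have h1 := (hM.maj_Psi hj hjh).dbd hr0 hr0 hsum hsum (hreg2 X hX)
    simp only [hmax1, hmax2] at h1
    exact h1.mono A.kQ1 A.kP2
  · intro H κe s hR h hh X hX
    have h1 := (hR.maj_eV hh).dbd hr0 hr0 hsum hsum (hreg2 X hX)
    simp only [hmax1, hmax2] at h1
    exact h1.mono A.kV1 A.kV2
  · intro H κe s hR h hh X hX
    have h1 := (hR.maj_eP hh).dbd hr0 hr0 hsum hsum (hreg2 X hX)
    simp only [hmax1, hmax2] at h1
    exact h1.mono A.kV1 A.kV2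
  · intro H κe s hR h hh X hX
    have h1 := (hR.maj_eM hh).dbd hr0 hr0 hsum hsum (hreg2 X hX)
    simp only [hmax1, hmax2] at h1
    exact h1.mono A.kV1 A.kV2

/-- Stores the on-demand equation lemmas of the definitions above in THIS module (rule 6 hygiene). -/
theorem cau_hist_forced : True := by
  have := @Hist.dst.eq_1
  have := @Hist.dtor.eq_1
  have := @MapC.ks.eq_1
  trivial

end

end Claimed.Agent.R285.Flow
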