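import Mathlib

/-!
# ROW 285, package BP-CUT-CAUCHY (#12543, helper90), file 1: GENERIC Cauchy estimates (Mathlib only).  ALL PROVED.

`E`, `F` complex normed spaces, `f : E → F` holomorphic (`DifferentiableOn ℂ`) on an open set `U`.
* `cau_deriv_dir`   : `‖f‖ ≤ M` on the circle `{Y + ζ v : |ζ| = r}`  ⇒  `‖Df(Y) v‖ ≤ M / r`            (Cauchy along a complex line)
* `cau_lip_seg`     : `‖Df(Y + t v) v‖ ≤ K` on `[0,1]`  ⇒  `‖f(Y + v) - f(Y)‖ ≤ K`                        (mean value inequality)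
* `cau_lip_dir`     : `‖f‖ ≤ M` on the complex `r`-neighbourhood of the segment  ⇒  `‖f(Y + v) - f(Y)‖ ≤ M / r`
* `cau_taylor2_dir` : `‖f‖ ≤ M` on `{Y + ζ v : |ζ| < r}`, `r > 1`  ⇒  `‖f(Y + v) - f(Y) - Df(Y) v‖ ≤ 3 M / r²`
One complex parameter, `g : ℂ → F` holomorphic and `‖g‖ ≤ M` on the OPEN disk `ball c R`:
* `cau_par_deriv` `‖g'(c)‖ ≤ M / R`;  `cau_par_deriv_at` `‖g'(b)‖ ≤ M / (R - |b - c|)`;  `cau_par_lip` `‖g b - g c‖ ≤ (2 M / R) |b - c|`;
* `cau_par_taylor2` `‖g b - g c - (b - c) g'(c)‖ ≤ 3 M (|b - c| / R)²`   (secant versus derivative, [E] (4.17)).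
-/

set_option autoImplicit false

namespace Claimed.Agent.R285.Flow

open Metric Set Filter Topology

section gen

variable {E F : Type*} [NormedAddCommGroup E] [NormedSpace ℂ E] [NormedAddCommGroup F] [NormedSpace ℂ F]

/-- the complex line through `Y` in the direction `v`. -/
theorem cau_line_hasDerivAt (Y v : E) (ζ : ℂ) : HasDerivAt (fun ζ : ℂ => Y + ζ • v) v ζ := by
  have h := ((hasDerivAt_id ζ).smul_const v).const_add Y
  simpa using h

/-- **Cauchy estimate along a complex line.** -/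
theorem cau_deriv_dir {f : E → F} {U : Set E} (hU : IsOpen U) (hf : DifferentiableOn ℂ f U) {Y v : E} {r M : ℝ}
    (hr : 0 < r) (hin : ∀ ζ : ℂ, ‖ζ‖ ≤ r → Y + ζ • v ∈ U) (hM : ∀ ζ : ℂ, ‖ζ‖ = r → ‖f (Y + ζ • v)‖ ≤ M) :
    ‖fderiv ℂ f Y v‖ ≤ M / r := by
  set g : ℂ → F := fun ζ => f (Y + ζ • v) with hg
  have hY : Y ∈ U := by simpa using hin 0 (by simpa using hr.le)
  have hline : Differentiable ℂ (fun ζ : ℂ => Y + ζ • v) := fun ζ => (cau_line_hasDerivAt Y v ζ).differentiableAt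
  have hgd : DifferentiableOn ℂ g ((fun ζ : ℂ => Y + ζ • v) ⁻¹' U) :=
    hf.comp hline.differentiableOn (fun ζ hζ => hζ)
  have hcl : closedBall (0 : ℂ) r ⊆ (fun ζ : ℂ => Y + ζ • v) ⁻¹' U := by
    intro ζ hζ
    exact hin ζ (by simpa using hζ)
  have h1 := Complex.norm_deriv_le_of_forall_mem_sphere_norm_le hr (hgd.diffContOnCl_ball hcl)
    (C := M) (fun z hz => hM z (by simpa using hz))
  have h2 : HasDerivAt g (fderiv ℂ f Y v) 0 := by
    have hfd : HasFDerivAt f (fderiv ℂ f Y) (Y + (0 : ℂ) • v) := by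
      rw [zero_smul, add_zero]
      exact (hf.differentiableAt (hU.mem_nhds hY)).hasFDerivAt
    exact hfd.comp_hasDerivAt 0 (cau_line_hasDerivAt Y v 0)
  rw [h2.deriv] at h1
  exact h1

/-- mean value inequality along a segment, in terms of the directional derivative. -/
theorem cau_lip_seg {f : E → F} {U : Set E} (hU : IsOpen U) (hf : DifferentiableOn ℂ f U) {Y v : E} {K : ℝ}
    (hin : ∀ t ∈ Icc (0 : ℝ) 1, Y + t • v ∈ U) (hK : ∀ t ∈ Icc (0 : ℝ) 1, ‖fderiv ℂ f (Y + t • v) v‖ ≤ K) :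
    ‖f (Y + v) - f Y‖ ≤ K := by
  set g : ℝ → F := fun t => f (Y + t • v) with hg
  have hd : ∀ t ∈ Icc (0 : ℝ) 1, HasDerivWithinAt g (fderiv ℂ f (Y + t • v) v) (Icc (0 : ℝ) 1) t := by
    intro t ht
    have hfd : HasFDerivAt f ((fderiv ℂ f (Y + t • v)).restrictScalars ℝ) (Y + t • v) :=
      ((hf.differentiableAt (hU.mem_nhds (hin t ht))).hasFDerivAt).restrictScalars ℝ
    have hl : HasDerivAt (fun t : ℝ => Y + t • v) v t := by
      have h := ((hasDerivAt_id t).smul_const v).const_add Y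
      simpa using h
    exact (hfd.comp_hasDerivAt t hl).hasDerivWithinAt
  have h := norm_image_sub_le_of_norm_deriv_le_segment_01' hd (fun t ht => hK t ⟨ht.1, ht.2.le⟩)
  simpa [hg] using h

/-- **Lipschitz bound along a direction**: `‖f‖ ≤ M` on the complex `R`-neighbourhood (in the direction `v`) of the segment `[Y, Y + v]`. -/
theorem cau_lip_dir {f : E → F} {U : Set E} (hU : IsOpen U) (hf : DifferentiableOn ℂ f U) {Y v : E} {r M : ℝ}
    (hr : 0 < r)
    (hin : ∀ t ∈ Icc (0 : ℝ) 1, ∀ ζ : ℂ, ‖ζ‖ ≤ r → (Y + t • v) + ζ • v ∈ U ∧ ‖f ((Y + t • v) + ζ • v)‖ ≤ M) :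
    ‖f (Y + v) - f Y‖ ≤ M / r := by
  refine cau_lip_seg hU hf (fun t ht => ?_) (fun t ht => ?_)
  · simpa using (hin t ht 0 (by simpa using hr.le)).1
  · exact cau_deriv_dir hU hf hr (fun ζ hζ => (hin t ht ζ hζ).1) (fun ζ hζ => (hin t ht ζ hζ.le).2)

/-! ### one complex parameter -/

/-- Cauchy estimate for the first derivative, bound on the OPEN disk. -/
theorem cau_par_deriv {g : ℂ → F} {c : ℂ} {R M : ℝ} (hR : 0 < R) (hg : DifferentiableOn ℂ g (ball c R))
    (hM : ∀ b ∈ ball c R, ‖g b‖ ≤ M) : ‖deriv g c‖ ≤ M / R := by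
  rw [le_div_iff₀ hR]
  have hM0 : 0 ≤ M := (norm_nonneg _).trans (hM c (mem_ball_self hR))
  have key : ∀ r : ℝ, 0 < r → r < R → ‖deriv g c‖ * r ≤ M := by
    intro r hr hrR
    have h1 := Complex.norm_deriv_le_of_forall_mem_sphere_norm_le hr
      (hg.diffContOnCl_ball (closedBall_subset_ball hrR)) (C := M)
      (fun z hz => hM z (sphere_subset_closedBall.trans (closedBall_subset_ball hrR) hz))
    rwa [le_div_iff₀ hr] at h1
  by_contra hcon
  push Not at hcon
  have hA : 0 < ‖deriv g c‖ := by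
    by_contra h0
    have : ‖deriv g c‖ = 0 := le_antisymm (not_lt.1 h0) (norm_nonneg _)
    rw [this, zero_mul] at hcon
    exact absurd hcon (not_lt.2 hM0)
  have h2 : M / ‖deriv g c‖ < R := by rwa [div_lt_iff₀ hA, mul_comm]
  obtain ⟨r, hr1, hr2⟩ := exists_between (max_lt h2 hR)
  have hr0 : 0 < r := lt_of_le_of_lt (le_max_right _ _) hr1
  have hr3 : M / ‖deriv g c‖ < r := lt_of_le_of_lt (le_max_left _ _) hr1
  rw [div_lt_iff₀ hA] at hr3
  have := key r hr0 hr2
  linarith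

/-- Cauchy estimate at an arbitrary point of the disk. -/
theorem cau_par_deriv_at {g : ℂ → F} {c b : ℂ} {R M : ℝ} (hg : DifferentiableOn ℂ g (ball c R))
    (hM : ∀ b ∈ ball c R, ‖g b‖ ≤ M) (hb : ‖b - c‖ < R) : ‖deriv g b‖ ≤ M / (R - ‖b - c‖) := by
  have hsub : ball b (R - ‖b - c‖) ⊆ ball c R := by
    intro z hz
    rw [mem_ball, dist_eq_norm] at hz ⊢
    calc ‖z - c‖ = ‖(z - b) + (b - c)‖ := by rw [sub_add_sub_cancel]
      _ ≤ ‖z - b‖ + ‖b - c‖ := norm_add_le _ _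
      _ < R := by linarith
  exact cau_par_deriv (sub_pos.2 hb) (hg.mono hsub) (fun z hz => hM z (hsub hz))

/-- Schwarz: Lipschitz bound from the centre. -/
theorem cau_par_lip {g : ℂ → F} {c b : ℂ} {R M : ℝ} (hg : DifferentiableOn ℂ g (ball c R))
    (hM : ∀ b ∈ ball c R, ‖g b‖ ≤ M) (hb : ‖b - c‖ < R) : ‖g b - g c‖ ≤ 2 * M / R * ‖b - c‖ := by
  have hR : 0 < R := lt_of_le_of_lt (norm_nonneg _) hb
  have hmaps : MapsTo g (ball c R) (closedBall (g c) (2 * M)) := by
    intro z hz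
    rw [mem_closedBall, dist_eq_norm]
    calc ‖g z - g c‖ ≤ ‖g z‖ + ‖g c‖ := norm_sub_le _ _
      _ ≤ M + M := add_le_add (hM z hz) (hM c (mem_ball_self hR))
      _ = 2 * M := by ring
  have h := Complex.dist_le_div_mul_dist_of_mapsTo_ball hg hmaps (z := b) (by rwa [mem_ball, dist_eq_norm])
  rwa [dist_eq_norm, dist_eq_norm] at h

/-- second order Taylor remainder in the parameter. -/
theorem cau_par_taylor2 {g : ℂ → F} {c b : ℂ} {R M : ℝ} (hg : DifferentiableOn ℂ g (ball c R))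
    (hM : ∀ b ∈ ball c R, ‖g b‖ ≤ M) (hb : ‖b - c‖ < R) :
    ‖g b - g c - (b - c) • deriv g c‖ ≤ 3 * M * (‖b - c‖ / R) ^ 2 := by
  have hR : 0 < R := lt_of_le_of_lt (norm_nonneg _) hb
  set h : ℂ → F := fun w => g w - (w - c) • deriv g c with hh
  have hc : h c = g c := by simp [hh]
  have hd : DifferentiableOn ℂ h (ball c R) := by
    refine hg.sub ?_
    exact ((differentiable_id.sub_const c).smul_const _).differentiableOn
  have hder := cau_par_deriv hR hg hM
  have hmaps : MapsTo h (ball c R) (closedBall (h c) (3 * M)) := by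
    intro z hz
    rw [mem_closedBall, dist_eq_norm, hc]
    have hz' : ‖z - c‖ < R := by rwa [mem_ball, dist_eq_norm] at hz
    have h3 : ‖(z - c) • deriv g c‖ ≤ M := by
      rw [norm_smul]
      calc ‖z - c‖ * ‖deriv g c‖ ≤ R * (M / R) := mul_le_mul hz'.le hder (norm_nonneg _) hR.le
        _ = M := by field_simp
    calc ‖h z - g c‖ = ‖(g z - g c) - (z - c) • deriv g c‖ := by rw [hh]; congr 1; exact sub_right_comm _ _ _
      _ ≤ ‖g z - g c‖ + ‖(z - c) • deriv g c‖ := norm_sub_le _ _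
      _ ≤ (‖g z‖ + ‖g c‖) + ‖(z - c) • deriv g c‖ := by gcongr; exact norm_sub_le _ _
      _ ≤ (M + M) + M := by gcongr; exacts [hM z hz, hM c (mem_ball_self hR)]
      _ = 3 * M := by ring
  have hlo : (h · - h c) =o[𝓝 c] (fun w => ‖w - c‖ ^ 1) := by
    have hda : HasDerivAt g (deriv g c) c := (hg.differentiableAt (ball_mem_nhds c hR)).hasDerivAt
    have h1 := hda.isLittleO
    simp only [pow_one]
    refine (h1.congr_left ?_).norm_right
    intro w
    rw [hc, hh]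
    exact sub_right_comm _ _ _
  have hfin := Complex.dist_le_mul_div_pow_of_mapsTo_ball_of_isLittleO hd hmaps hlo (z := b)
    (by rwa [mem_ball, dist_eq_norm])
  rw [dist_eq_norm, dist_eq_norm, hc] at hfin
  have e : h b - g c = g b - g c - (b - c) • deriv g c := by rw [hh]; exact sub_right_comm _ _ _
  rw [e] at hfin
  exact hfin

/-- second order Taylor remainder along a complex line: `‖f‖ ≤ M` on `{Y + ζ v : |ζ| < r}`, `r > 1`. -/
theorem cau_taylor2_dir {f : E → F} {U : Set E} (hU : IsOpen U) (hf : DifferentiableOn ℂ f U) {Y v : E} {r M : ℝ}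
    (hr : 1 < r) (hin : ∀ ζ : ℂ, ‖ζ‖ < r → Y + ζ • v ∈ U ∧ ‖f (Y + ζ • v)‖ ≤ M) :
    ‖f (Y + v) - f Y - fderiv ℂ f Y v‖ ≤ 3 * M / r ^ 2 := by
  set g : ℂ → F := fun ζ => f (Y + ζ • v) with hg
  have hr0 : 0 < r := lt_trans one_pos hr
  have hY : Y ∈ U := by simpa using (hin 0 (by simpa using hr0)).1
  have hline : Differentiable ℂ (fun ζ : ℂ => Y + ζ • v) := fun ζ => (cau_line_hasDerivAt Y v ζ).differentiableAt
  have hgd : DifferentiableOn ℂ g (ball 0 r) :=
    hf.comp hline.differentiableOn (fun ζ hζ => (hin ζ (by simpa using hζ)).1)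
  have h2 : HasDerivAt g (fderiv ℂ f Y v) 0 := by
    have hfd : HasFDerivAt f (fderiv ℂ f Y) (Y + (0 : ℂ) • v) := by
      rw [zero_smul, add_zero]
      exact (hf.differentiableAt (hU.mem_nhds hY)).hasFDerivAt
    exact hfd.comp_hasDerivAt 0 (cau_line_hasDerivAt Y v 0)
  have h := cau_par_taylor2 (b := 1) hgd (fun ζ hζ => (hin ζ (by simpa using hζ)).2) (by simpa using hr)
  rw [h2.deriv] at h
  simp only [hg, one_smul, zero_smul, add_zero, sub_zero, norm_one] at h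
  calc _ ≤ 3 * M * (1 / r) ^ 2 := h
    _ = 3 * M / r ^ 2 := by field_simp

end gen

end Claimed.Agent.R285.Flow
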