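import Claimed.Agent.R285.Base.Flow
import Claimed.Agent.R285.Flow.CauchyGen

/-!
# ROW 285, package BP-CUT-CAUCHY (#12543, helper90), file 2: ANISOTROPIC derivative and secant bounds for the maps of `Base/Flow.lean`.  ALL PROVED.

Design decision F2 of `Base/Flow.lean`: the interface has NO differentiated bounds; they all follow from here.

## API
* `DBd g Y a b`  : `∀ v, ‖Dg(Y) v‖ ≤ a * wn v + b * ‖v.2.2‖`            (domain `ℂ × ℂ × Q`: scalar directions `W = (x, y)` / remainder direction `Q`)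
* `DBd2 g X a b` : `∀ v, ‖Dg(X) v‖ ≤ a * ‖v.1‖ + b * ‖v.2‖`             (domain `A × B`, e.g. torus states `(ℂ × ℂ) × T`)
* `Reg Qs w q = {|W| ≤ w, ‖Q‖ ≤ q}`, `Reg2 A B a t` : convex anisotropic regions.
* `Maj g ρ Φ` / `Maj2 g ρ Φ` : `g` holomorphic on `ball 0 ρ`, `‖g‖ ≤ Φ w q` on `Reg w q`.
* **`Maj.dbd`** : on `Reg w q`, for ALL Cauchy radii `rW, rQ > 0` with `w + rW < ρ`, `q + rQ < ρ`:  `DBd g Y (Φ (w + rW) q / rW) (Φ w (q + rQ) / rQ)`.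
* **`Maj.lip`** : the same constants for secants: `‖g Y' - g Y‖ ≤ … * wn (Y' - Y) + … * ‖Y'.2.2 - Y.2.2‖` for `Y, Y' ∈ Reg w q`.   (`Maj2.dbd`, `Maj2.lip` likewise.)
* error maps `H.eX, H.eY` (`x₊ = x - y² + eX`, `y₊ = y - x y + eY`), `H.Qp` (`Q₊`), `H.eT κ, H.eZ κ` (`t = x / b_* + eT`, `z = y / √(b_* H) + eZ`), `H.eV, H.eP` (read-outs) and their majorants
  `MapOK.maj_eX/eY : κ.C * eordB j w q`, `maj_Qp : κ.θ * q + κ.C * w²`, `maj_eT : κ.C * (w² + q)`, `maj_eZ : κ.C * (e^{-c j} w + w² + q)`,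
  `maj_Psi : κ.θ * t + κ.C * (max a t)²`, `ReadOK.maj_eV/eP : κ.C * (t + (max a t)²)`.
## How the orders of `Read/E4.lean` come out (critical trajectory: `w ≍ 1/j`, `q = O(j⁻²)`), radii `rW = rQ = w`:
  `D_W eX = O(C (4 w / j² + 8 w² + 3 q)) = O(j⁻²)`, `D_Q eX = O(7 C w) = O(j⁻¹)`, `D_W Q₊ = θ q / w + 4 C w = O(j⁻¹)`, `D_Q Q₊ ≤ θ + (θ q + C w²) / w = θ + O(j⁻¹)`.
-/

set_option autoImplicit false
set_option linter.unusedSectionVars false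

namespace Claimed.Agent.R285.Flow

open Metric Set Filter Topology

noncomputable section

/-! ## 1. Anisotropic derivative bounds, domain `ℂ × ℂ × Q` -/

section shapeA

variable {Qs F : Type} [NormedAddCommGroup Qs] [NormedSpace ℂ Qs] [NormedAddCommGroup F] [NormedSpace ℂ F]

/-- directional derivative bounds at `Y`: `‖Dg(Y) v‖ ≤ a |v_W| + b ‖v_Q‖`. -/
def DBd (g : ℂ × ℂ × Qs → F) (Y : ℂ × ℂ × Qs) (a b : ℝ) : Prop :=
  ∀ v : ℂ × ℂ × Qs, ‖fderiv ℂ g Y v‖ ≤ a * wn v + b * ‖v.2.2‖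

theorem cau_wn_nonneg (Y : ℂ × ℂ × Qs) : 0 ≤ wn Y := le_max_of_le_left (norm_nonneg _)

theorem cau_norm_eq (Y : ℂ × ℂ × Qs) : ‖Y‖ = max (wn Y) ‖Y.2.2‖ := by
  rw [Prod.norm_def, Prod.norm_def, wn, max_assoc]

theorem cau_norm_lt {Y : ℂ × ℂ × Qs} {ρ : ℝ} : ‖Y‖ < ρ ↔ wn Y < ρ ∧ ‖Y.2.2‖ < ρ := by
  rw [cau_norm_eq, max_lt_iff]

theorem cau_norm_le {Y : ℂ × ℂ × Qs} {ρ : ℝ} : ‖Y‖ ≤ ρ ↔ wn Y ≤ ρ ∧ ‖Y.2.2‖ ≤ ρ := by
  rw [cau_norm_eq, max_le_iff]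

theorem cau_wn_le_norm (Y : ℂ × ℂ × Qs) : wn Y ≤ ‖Y‖ := by
  rw [cau_norm_eq]; exact le_max_left _ _

theorem cau_q_le_norm (Y : ℂ × ℂ × Qs) : ‖Y.2.2‖ ≤ ‖Y‖ := by
  rw [cau_norm_eq]; exact le_max_right _ _

theorem cau_wn_add (Y Y' : ℂ × ℂ × Qs) : wn (Y + Y') ≤ wn Y + wn Y' := by
  unfold wn
  refine max_le ?_ ?_
  · exact (norm_add_le _ _).trans (add_le_add (le_max_left _ _) (le_max_left _ _))
  · exact (norm_add_le _ _).trans (add_le_add (le_max_right _ _) (le_max_right _ _))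

theorem cau_wn_smul (t : ℝ) (ht : 0 ≤ t) (Y : ℂ × ℂ × Qs) : wn (t • Y) = t * wn Y := by
  unfold wn
  simp only [Prod.smul_fst, Prod.smul_snd, norm_smul, Real.norm_eq_abs, abs_of_nonneg ht]
  rw [mul_max_of_nonneg _ _ ht]

/-- **from sup bounds on two polydiscs to derivative bounds** (radii `rW` in the scalar directions, `rQ` in the remainder direction). -/
theorem cau_dbd {g : ℂ × ℂ × Qs → F} {ρ : ℝ} (hg : DifferentiableOn ℂ g (ball 0 ρ)) {Y : ℂ × ℂ × Qs}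
    {rW rQ MW MQ : ℝ} (hrW : 0 < rW) (hrQ : 0 < rQ) (hW : wn Y + rW < ρ) (hQ : ‖Y.2.2‖ + rQ < ρ)
    (hMW : ∀ Y' : ℂ × ℂ × Qs, ‖Y'.1 - Y.1‖ ≤ rW → ‖Y'.2.1 - Y.2.1‖ ≤ rW → Y'.2.2 = Y.2.2 → ‖g Y'‖ ≤ MW)
    (hMQ : ∀ Y' : ℂ × ℂ × Qs, Y'.1 = Y.1 → Y'.2.1 = Y.2.1 → ‖Y'.2.2 - Y.2.2‖ ≤ rQ → ‖g Y'‖ ≤ MQ) :
    DBd g Y (MW / rW) (MQ / rQ) := by
  intro v
  have hsplit : v = (v.1, v.2.1, (0 : Qs)) + ((0 : ℂ), (0 : ℂ), v.2.2) := by
    ext <;> simp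
  have h1 : ‖fderiv ℂ g Y (v.1, v.2.1, (0 : Qs))‖ ≤ MW / rW * wn v := by
    by_cases hv : wn v = 0
    · have e1 : v.1 = 0 := by
        have : ‖v.1‖ ≤ 0 := hv ▸ le_max_left _ _
        exact norm_le_zero_iff.1 this
      have e2 : v.2.1 = 0 := by
        have : ‖v.2.1‖ ≤ 0 := hv ▸ le_max_right ‖v.1‖ _
        exact norm_le_zero_iff.1 this
      rw [e1, e2, hv]
      have : ((0 : ℂ), (0 : ℂ), (0 : Qs)) = 0 := rfl
      rw [this, map_zero]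
      simp
    · have hpos : 0 < wn v := lt_of_le_of_ne (cau_wn_nonneg v) (Ne.symm hv)
      have hr : 0 < rW / wn v := div_pos hrW hpos
      have hb : ∀ ζ : ℂ, ‖ζ‖ ≤ rW / wn v → ‖ζ * v.1‖ ≤ rW ∧ ‖ζ * v.2.1‖ ≤ rW := by
        intro ζ hζ
        rw [le_div_iff₀ hpos] at hζ
        constructor
        · rw [norm_mul]
          exact (mul_le_mul_of_nonneg_left (le_max_left _ _) (norm_nonneg _)).trans hζ
        · rw [norm_mul]
          exact (mul_le_mul_of_nonneg_left (le_max_right _ _) (norm_nonneg _)).trans hζ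
      have h := cau_deriv_dir (f := g) (U := ball 0 ρ) (Y := Y) (v := (v.1, v.2.1, (0 : Qs))) (M := MW)
        isOpen_ball hg hr ?_ ?_
      · calc _ ≤ MW / (rW / wn v) := h
          _ = MW / rW * wn v := by field_simp
      · intro ζ hζ
        obtain ⟨b1, b2⟩ := hb ζ hζ
        rw [mem_ball_zero_iff, cau_norm_lt]
        constructor
        · refine lt_of_le_of_lt ?_ hW
          unfold wn
          simp only [Prod.fst_add, Prod.snd_add, Prod.smul_fst, Prod.smul_snd, smul_eq_mul]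
          refine max_le ?_ ?_
          · exact (norm_add_le _ _).trans (add_le_add (le_max_left _ _) b1)
          · exact (norm_add_le _ _).trans (add_le_add (le_max_right _ _) b2)
        · simp only [Prod.snd_add, Prod.smul_snd, smul_zero, add_zero]
          linarith
      · intro ζ hζ
        obtain ⟨b1, b2⟩ := hb ζ hζ.le
        refine hMW _ ?_ ?_ ?_
        · simpa using b1
        · simpa using b2
        · simp
  have h2 : ‖fderiv ℂ g Y ((0 : ℂ), (0 : ℂ), v.2.2)‖ ≤ MQ / rQ * ‖v.2.2‖ := by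
    by_cases hv : v.2.2 = 0
    · rw [hv]
      have : ((0 : ℂ), (0 : ℂ), (0 : Qs)) = 0 := rfl
      rw [this, map_zero]
      simp
    · have hpos : 0 < ‖v.2.2‖ := norm_pos_iff.2 hv
      have hr : 0 < rQ / ‖v.2.2‖ := div_pos hrQ hpos
      have hb : ∀ ζ : ℂ, ‖ζ‖ ≤ rQ / ‖v.2.2‖ → ‖ζ • v.2.2‖ ≤ rQ := by
        intro ζ hζ
        rw [le_div_iff₀ hpos] at hζ
        rwa [norm_smul]
      have h := cau_deriv_dir (f := g) (U := ball 0 ρ) (Y := Y) (v := ((0 : ℂ), (0 : ℂ), v.2.2)) (M := MQ)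
        isOpen_ball hg hr ?_ ?_
      · calc _ ≤ MQ / (rQ / ‖v.2.2‖) := h
          _ = MQ / rQ * ‖v.2.2‖ := by field_simp
      · intro ζ hζ
        have b1 := hb ζ hζ
        rw [mem_ball_zero_iff, cau_norm_lt]
        constructor
        · have : wn (Y + ζ • ((0 : ℂ), (0 : ℂ), v.2.2)) = wn Y := by
            unfold wn
            simp
          rw [this]
          linarith
        · simp only [Prod.snd_add, Prod.smul_snd]
          exact lt_of_le_of_lt ((norm_add_le _ _).trans (add_le_add le_rfl b1)) hQ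
      · intro ζ hζ
        have b1 := hb ζ hζ.le
        refine hMQ _ ?_ ?_ ?_
        · simp
        · simp
        · simpa using b1
  calc ‖fderiv ℂ g Y v‖ = ‖fderiv ℂ g Y (v.1, v.2.1, (0 : Qs)) + fderiv ℂ g Y ((0 : ℂ), (0 : ℂ), v.2.2)‖ := by
        rw [← map_add, ← hsplit]
    _ ≤ _ := (norm_add_le _ _).trans (add_le_add h1 h2)

theorem DBd.mono {g : ℂ × ℂ × Qs → F} {Y : ℂ × ℂ × Qs} {a b a' b' : ℝ} (h : DBd g Y a b) (ha : a ≤ a') (hb : b ≤ b') :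
    DBd g Y a' b' := by
  intro v
  refine (h v).trans (add_le_add ?_ ?_)
  · exact mul_le_mul_of_nonneg_right ha (cau_wn_nonneg v)
  · exact mul_le_mul_of_nonneg_right hb (norm_nonneg _)

/-- **secants**: derivative bounds on a convex subset of the domain give the anisotropic Lipschitz bound. -/
theorem cau_dbd_lip {g : ℂ × ℂ × Qs → F} {ρ : ℝ} (hg : DifferentiableOn ℂ g (ball 0 ρ)) {S : Set (ℂ × ℂ × Qs)}
    (hS : Convex ℝ S) (hSρ : S ⊆ ball 0 ρ) {a b : ℝ} (hd : ∀ Y ∈ S, DBd g Y a b) {Y Y' : ℂ × ℂ × Qs} (hY : Y ∈ S)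
    (hY' : Y' ∈ S) : ‖g Y' - g Y‖ ≤ a * wn (Y' - Y) + b * ‖Y'.2.2 - Y.2.2‖ := by
  have hseg : ∀ t ∈ Icc (0 : ℝ) 1, Y + t • (Y' - Y) ∈ S := by
    intro t ht
    exact hS.add_smul_sub_mem hY hY' ht
  have h := cau_lip_seg (f := g) (U := ball 0 ρ) (Y := Y) (v := Y' - Y) isOpen_ball hg
    (K := a * wn (Y' - Y) + b * ‖Y'.2.2 - Y.2.2‖) (fun t ht => hSρ (hseg t ht)) (fun t ht => hd _ (hseg t ht) _)
  rwa [add_sub_cancel] at h

/-- the anisotropic region `{|W| ≤ w, ‖Q‖ ≤ q}`. -/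
def Reg (Qs : Type) [NormedAddCommGroup Qs] (w q : ℝ) : Set (ℂ × ℂ × Qs) := {Y | wn Y ≤ w ∧ ‖Y.2.2‖ ≤ q}

theorem cau_reg_convex (w q : ℝ) : Convex ℝ (Reg Qs w q) := by
  intro Y hY Y' hY' s t hs ht hst
  constructor
  · calc wn (s • Y + t • Y') ≤ wn (s • Y) + wn (t • Y') := cau_wn_add _ _
      _ = s * wn Y + t * wn Y' := by rw [cau_wn_smul s hs, cau_wn_smul t ht]
      _ ≤ s * w + t * w := add_le_add (mul_le_mul_of_nonneg_left hY.1 hs) (mul_le_mul_of_nonneg_left hY'.1 ht)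
      _ = w := by rw [← add_mul, hst, one_mul]
  · calc ‖(s • Y + t • Y').2.2‖ ≤ ‖s • Y.2.2‖ + ‖t • Y'.2.2‖ := norm_add_le _ _
      _ = s * ‖Y.2.2‖ + t * ‖Y'.2.2‖ := by
        rw [norm_smul, norm_smul, Real.norm_eq_abs, Real.norm_eq_abs, abs_of_nonneg hs, abs_of_nonneg ht]
      _ ≤ s * q + t * q := add_le_add (mul_le_mul_of_nonneg_left hY.2 hs) (mul_le_mul_of_nonneg_left hY'.2 ht)
      _ = q := by rw [← add_mul, hst, one_mul]

theorem cau_reg_subset {w q ρ : ℝ} (hw : w < ρ) (hq : q < ρ) : Reg Qs w q ⊆ ball 0 ρ := by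
  intro Y hY
  rw [mem_ball_zero_iff, cau_norm_lt]
  exact ⟨lt_of_le_of_lt hY.1 hw, lt_of_le_of_lt hY.2 hq⟩

/-- `g` is holomorphic on the ball of radius `ρ` and has the anisotropic majorant `Φ (|W|, ‖Q‖)`. -/
structure Maj (g : ℂ × ℂ × Qs → F) (ρ : ℝ) (Φ : ℝ → ℝ → ℝ) : Prop where
  an : DifferentiableOn ℂ g (ball 0 ρ)
  bd : ∀ w q : ℝ, ∀ Y ∈ Reg Qs w q, ‖Y‖ < ρ → ‖g Y‖ ≤ Φ w q

/-- **derivative bounds on an anisotropic region**, Cauchy radii `rW`, `rQ`. -/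
theorem Maj.dbd {g : ℂ × ℂ × Qs → F} {ρ : ℝ} {Φ : ℝ → ℝ → ℝ} (h : Maj g ρ Φ) {w q rW rQ : ℝ} (hrW : 0 < rW)
    (hrQ : 0 < rQ) (hW : w + rW < ρ) (hQ : q + rQ < ρ) {Y : ℂ × ℂ × Qs} (hY : Y ∈ Reg Qs w q) :
    DBd g Y (Φ (w + rW) q / rW) (Φ w (q + rQ) / rQ) := by
  refine cau_dbd h.an hrW hrQ (by linarith [hY.1]) (by linarith [hY.2]) ?_ ?_
  · intro Y' h1 h2 h3
    have hw' : wn Y' ≤ w + rW := by
      unfold wn
      refine max_le ?_ ?_
      · calc ‖Y'.1‖ = ‖Y.1 + (Y'.1 - Y.1)‖ := by rw [add_sub_cancel]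
          _ ≤ ‖Y.1‖ + ‖Y'.1 - Y.1‖ := norm_add_le _ _
          _ ≤ w + rW := add_le_add ((le_max_left _ _).trans hY.1) h1
      · calc ‖Y'.2.1‖ = ‖Y.2.1 + (Y'.2.1 - Y.2.1)‖ := by rw [add_sub_cancel]
          _ ≤ ‖Y.2.1‖ + ‖Y'.2.1 - Y.2.1‖ := norm_add_le _ _
          _ ≤ w + rW := add_le_add ((le_max_right _ _).trans hY.1) h2
    have hq' : ‖Y'.2.2‖ ≤ q := by rw [h3]; exact hY.2
    exact h.bd _ _ Y' ⟨hw', hq'⟩ (cau_norm_lt.2 ⟨lt_of_le_of_lt hw' hW, by linarith⟩)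
  · intro Y' h1 h2 h3
    have hw' : wn Y' ≤ w := by
      unfold wn
      rw [h1, h2]
      exact hY.1
    have hq' : ‖Y'.2.2‖ ≤ q + rQ := by
      calc ‖Y'.2.2‖ = ‖Y.2.2 + (Y'.2.2 - Y.2.2)‖ := by rw [add_sub_cancel]
        _ ≤ ‖Y.2.2‖ + ‖Y'.2.2 - Y.2.2‖ := norm_add_le _ _
        _ ≤ q + rQ := add_le_add hY.2 h3
    exact h.bd _ _ Y' ⟨hw', hq'⟩ (cau_norm_lt.2 ⟨by linarith, lt_of_le_of_lt hq' hQ⟩)

/-- **secant bounds on an anisotropic region.** -/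
theorem Maj.lip {g : ℂ × ℂ × Qs → F} {ρ : ℝ} {Φ : ℝ → ℝ → ℝ} (h : Maj g ρ Φ) {w q rW rQ : ℝ} (hrW : 0 < rW)
    (hrQ : 0 < rQ) (hW : w + rW < ρ) (hQ : q + rQ < ρ) {Y Y' : ℂ × ℂ × Qs} (hY : Y ∈ Reg Qs w q)
    (hY' : Y' ∈ Reg Qs w q) :
    ‖g Y' - g Y‖ ≤ Φ (w + rW) q / rW * wn (Y' - Y) + Φ w (q + rQ) / rQ * ‖Y'.2.2 - Y.2.2‖ :=
  cau_dbd_lip h.an (cau_reg_convex w q) (cau_reg_subset (by linarith) (by linarith))
    (fun _ hZ => h.dbd hrW hrQ hW hQ hZ) hY hY'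

end shapeA

/-! ## 2. Anisotropic derivative bounds, domain `A × B` (torus states `(ℂ × ℂ) × T`) -/

section shapeB

variable {A B F : Type} [NormedAddCommGroup A] [NormedSpace ℂ A] [NormedAddCommGroup B] [NormedSpace ℂ B]
  [NormedAddCommGroup F] [NormedSpace ℂ F]

/-- directional derivative bounds at `X`: `‖Dg(X) v‖ ≤ a ‖v.1‖ + b ‖v.2‖`. -/
def DBd2 (g : A × B → F) (X : A × B) (a b : ℝ) : Prop :=
  ∀ v : A × B, ‖fderiv ℂ g X v‖ ≤ a * ‖v.1‖ + b * ‖v.2‖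

theorem cau_dbd2 {g : A × B → F} {ρ : ℝ} (hg : DifferentiableOn ℂ g (ball 0 ρ)) {X : A × B}
    {r1 r2 M1 M2 : ℝ} (hr1 : 0 < r1) (hr2 : 0 < r2) (h1 : ‖X.1‖ + r1 < ρ) (h2 : ‖X.2‖ + r2 < ρ)
    (hM1 : ∀ a : A, ‖a - X.1‖ ≤ r1 → ‖g (a, X.2)‖ ≤ M1) (hM2 : ∀ b : B, ‖b - X.2‖ ≤ r2 → ‖g (X.1, b)‖ ≤ M2) :
    DBd2 g X (M1 / r1) (M2 / r2) := by
  intro v
  have hsplit : v = (v.1, (0 : B)) + ((0 : A), v.2) := by
    ext <;> simp
  have k1 : ‖fderiv ℂ g X (v.1, (0 : B))‖ ≤ M1 / r1 * ‖v.1‖ := by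
    by_cases hv : v.1 = 0
    · rw [hv]
      have : ((0 : A), (0 : B)) = 0 := rfl
      rw [this, map_zero]
      simp
    · have hpos : 0 < ‖v.1‖ := norm_pos_iff.2 hv
      have hr : 0 < r1 / ‖v.1‖ := div_pos hr1 hpos
      have hb : ∀ ζ : ℂ, ‖ζ‖ ≤ r1 / ‖v.1‖ → ‖ζ • v.1‖ ≤ r1 := by
        intro ζ hζ
        rw [le_div_iff₀ hpos] at hζ
        rwa [norm_smul]
      have h := cau_deriv_dir (f := g) (U := ball 0 ρ) (Y := X) (v := (v.1, (0 : B))) (M := M1)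
        isOpen_ball hg hr ?_ ?_
      · calc _ ≤ M1 / (r1 / ‖v.1‖) := h
          _ = M1 / r1 * ‖v.1‖ := by field_simp
      · intro ζ hζ
        have b1 := hb ζ hζ
        rw [mem_ball_zero_iff, Prod.norm_def, max_lt_iff]
        constructor
        · simp only [Prod.fst_add, Prod.smul_fst]
          exact lt_of_le_of_lt ((norm_add_le _ _).trans (add_le_add le_rfl b1)) h1
        · simp only [Prod.snd_add, Prod.smul_snd, smul_zero, add_zero]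
          linarith
      · intro ζ hζ
        have b1 := hb ζ hζ.le
        have e : X + ζ • (v.1, (0 : B)) = (X.1 + ζ • v.1, X.2) := by
          ext <;> simp
        rw [e]
        exact hM1 _ (by simpa using b1)
  have k2 : ‖fderiv ℂ g X ((0 : A), v.2)‖ ≤ M2 / r2 * ‖v.2‖ := by
    by_cases hv : v.2 = 0
    · rw [hv]
      have : ((0 : A), (0 : B)) = 0 := rfl
      rw [this, map_zero]
      simp
    · have hpos : 0 < ‖v.2‖ := norm_pos_iff.2 hv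
      have hr : 0 < r2 / ‖v.2‖ := div_pos hr2 hpos
      have hb : ∀ ζ : ℂ, ‖ζ‖ ≤ r2 / ‖v.2‖ → ‖ζ • v.2‖ ≤ r2 := by
        intro ζ hζ
        rw [le_div_iff₀ hpos] at hζ
        rwa [norm_smul]
      have h := cau_deriv_dir (f := g) (U := ball 0 ρ) (Y := X) (v := ((0 : A), v.2)) (M := M2)
        isOpen_ball hg hr ?_ ?_
      · calc _ ≤ M2 / (r2 / ‖v.2‖) := h
          _ = M2 / r2 * ‖v.2‖ := by field_simp
      · intro ζ hζ
        have b1 := hb ζ hζ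
        rw [mem_ball_zero_iff, Prod.norm_def, max_lt_iff]
        constructor
        · simp only [Prod.fst_add, Prod.smul_fst, smul_zero, add_zero]
          linarith
        · simp only [Prod.snd_add, Prod.smul_snd]
          exact lt_of_le_of_lt ((norm_add_le _ _).trans (add_le_add le_rfl b1)) h2
      · intro ζ hζ
        have b1 := hb ζ hζ.le
        have e : X + ζ • ((0 : A), v.2) = (X.1, X.2 + ζ • v.2) := by
          ext <;> simp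
        rw [e]
        exact hM2 _ (by simpa using b1)
  calc ‖fderiv ℂ g X v‖ = ‖fderiv ℂ g X (v.1, (0 : B)) + fderiv ℂ g X ((0 : A), v.2)‖ := by
        rw [← map_add, ← hsplit]
    _ ≤ _ := (norm_add_le _ _).trans (add_le_add k1 k2)

theorem DBd2.mono {g : A × B → F} {X : A × B} {a b a' b' : ℝ} (h : DBd2 g X a b) (ha : a ≤ a') (hb : b ≤ b') :
    DBd2 g X a' b' := by
  intro v
  refine (h v).trans (add_le_add ?_ ?_)
  · exact mul_le_mul_of_nonneg_right ha (norm_nonneg _)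
  · exact mul_le_mul_of_nonneg_right hb (norm_nonneg _)

theorem cau_dbd2_lip {g : A × B → F} {ρ : ℝ} (hg : DifferentiableOn ℂ g (ball 0 ρ)) {S : Set (A × B)}
    (hS : Convex ℝ S) (hSρ : S ⊆ ball 0 ρ) {a b : ℝ} (hd : ∀ X ∈ S, DBd2 g X a b) {X X' : A × B} (hX : X ∈ S)
    (hX' : X' ∈ S) : ‖g X' - g X‖ ≤ a * ‖X'.1 - X.1‖ + b * ‖X'.2 - X.2‖ := by
  have hseg : ∀ t ∈ Icc (0 : ℝ) 1, X + t • (X' - X) ∈ S := by
    intro t ht
    exact hS.add_smul_sub_mem hX hX' ht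
  have h := cau_lip_seg (f := g) (U := ball 0 ρ) (Y := X) (v := X' - X) isOpen_ball hg
    (K := a * ‖X'.1 - X.1‖ + b * ‖X'.2 - X.2‖) (fun t ht => hSρ (hseg t ht)) (fun t ht => hd _ (hseg t ht) _)
  rwa [add_sub_cancel] at h

/-- the anisotropic region `{‖X.1‖ ≤ a, ‖X.2‖ ≤ t}`. -/
def Reg2 (A B : Type) [NormedAddCommGroup A] [NormedAddCommGroup B] (a t : ℝ) : Set (A × B) :=
  {X | ‖X.1‖ ≤ a ∧ ‖X.2‖ ≤ t}

theorem cau_reg2_convex (a t : ℝ) : Convex ℝ (Reg2 A B a t) := by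
  have e : Reg2 A B a t = closedBall (0 : A) a ×ˢ closedBall (0 : B) t := by
    ext X
    simp [Reg2]
  rw [e]
  exact (convex_closedBall _ _).prod (convex_closedBall _ _)

theorem cau_reg2_subset {a t ρ : ℝ} (ha : a < ρ) (ht : t < ρ) : Reg2 A B a t ⊆ ball 0 ρ := by
  intro X hX
  rw [mem_ball_zero_iff, Prod.norm_def, max_lt_iff]
  exact ⟨lt_of_le_of_lt hX.1 ha, lt_of_le_of_lt hX.2 ht⟩

/-- `g` is holomorphic on the ball of radius `ρ` and has the anisotropic majorant `Φ (‖X.1‖, ‖X.2‖)`. -/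
structure Maj2 (g : A × B → F) (ρ : ℝ) (Φ : ℝ → ℝ → ℝ) : Prop where
  an : DifferentiableOn ℂ g (ball 0 ρ)
  bd : ∀ a t : ℝ, ∀ X ∈ Reg2 A B a t, ‖X‖ < ρ → ‖g X‖ ≤ Φ a t

theorem Maj2.dbd {g : A × B → F} {ρ : ℝ} {Φ : ℝ → ℝ → ℝ} (h : Maj2 g ρ Φ) {a t r1 r2 : ℝ} (hr1 : 0 < r1)
    (hr2 : 0 < r2) (h1 : a + r1 < ρ) (h2 : t + r2 < ρ) {X : A × B} (hX : X ∈ Reg2 A B a t) :
    DBd2 g X (Φ (a + r1) t / r1) (Φ a (t + r2) / r2) := by
  refine cau_dbd2 h.an hr1 hr2 (by linarith [hX.1]) (by linarith [hX.2]) ?_ ?_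
  · intro a' ha'
    have hn : ‖a'‖ ≤ a + r1 := by
      calc ‖a'‖ = ‖X.1 + (a' - X.1)‖ := by rw [add_sub_cancel]
        _ ≤ ‖X.1‖ + ‖a' - X.1‖ := norm_add_le _ _
        _ ≤ a + r1 := add_le_add hX.1 ha'
    refine h.bd _ _ (a', X.2) ⟨hn, hX.2⟩ ?_
    rw [Prod.norm_def, max_lt_iff]
    exact ⟨lt_of_le_of_lt hn h1, by linarith [hX.2]⟩
  · intro b' hb'
    have hn : ‖b'‖ ≤ t + r2 := by
      calc ‖b'‖ = ‖X.2 + (b' - X.2)‖ := by rw [add_sub_cancel]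
        _ ≤ ‖X.2‖ + ‖b' - X.2‖ := norm_add_le _ _
        _ ≤ t + r2 := add_le_add hX.2 hb'
    refine h.bd _ _ (X.1, b') ⟨hX.1, hn⟩ ?_
    rw [Prod.norm_def, max_lt_iff]
    exact ⟨by linarith [hX.1], lt_of_le_of_lt hn h2⟩

theorem Maj2.lip {g : A × B → F} {ρ : ℝ} {Φ : ℝ → ℝ → ℝ} (h : Maj2 g ρ Φ) {a t r1 r2 : ℝ} (hr1 : 0 < r1)
    (hr2 : 0 < r2) (h1 : a + r1 < ρ) (h2 : t + r2 < ρ) {X X' : A × B} (hX : X ∈ Reg2 A B a t)
    (hX' : X' ∈ Reg2 A B a t) :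
    ‖g X' - g X‖ ≤ Φ (a + r1) t / r1 * ‖X'.1 - X.1‖ + Φ a (t + r2) / r2 * ‖X'.2 - X.2‖ :=
  cau_dbd2_lip h.an (cau_reg2_convex a t) (cau_reg2_subset (by linarith) (by linarith))
    (fun _ hZ => h.dbd hr1 hr2 h1 h2 hZ) hX hX'

end shapeB

/-! ## 3. The maps of `MapOK` and `ReadOK`: error maps and their majorants -/

/-- monotone majorant of `eord`. -/
def eordB (j : ℕ) (w q : ℝ) : ℝ := w ^ 2 / (j : ℝ) ^ 2 + w ^ 3 + (w + q) * q

theorem cau_eord_le {E : Type} [NormedAddCommGroup E] (j : ℕ) {Y : ℂ × ℂ × E} {w q : ℝ} (hw : wn Y ≤ w)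
    (hq : ‖Y.2.2‖ ≤ q) : eord j Y ≤ eordB j w q := by
  have h0 : 0 ≤ wn Y := le_max_of_le_left (norm_nonneg _)
  have h1 : 0 ≤ ‖Y.2.2‖ := norm_nonneg _
  have h2 : 0 ≤ w + q := by linarith
  unfold eord eordB
  gcongr

namespace Hist

variable (H : Hist)

/-- error of the `x`-row of the plane map: `x₊ = x - y² + eX`. -/
def eX (j : ℕ) (Y : ℂ × ℂ × H.Q j) : ℂ := (H.N j Y).1 - (Y.1 - Y.2.1 ^ 2)
/-- error of the `y`-row: `y₊ = y - x y + eY`. -/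
def eY (j : ℕ) (Y : ℂ × ℂ × H.Q j) : ℂ := (H.N j Y).2.1 - (Y.2.1 - Y.1 * Y.2.1)
/-- the remainder row `Q₊`. -/
def Qp (j : ℕ) (Y : ℂ × ℂ × H.Q j) : H.Q (j + 1) := (H.N j Y).2.2
/-- error of `t = x / b_* + eT`. -/
def eT (κ : MapC) (j : ℕ) (Y : ℂ × ℂ × H.Q j) : ℂ := (H.sc j Y).1 - Y.1 / κ.bs
/-- error of `z = y / √(b_* H) + eZ`. -/
def eZ (κ : MapC) (j : ℕ) (Y : ℂ × ℂ × H.Q j) : ℂ := (H.sc j Y).2 - Y.2.1 / Real.sqrt (κ.bs * κ.Hq)
/-- error of the variance read-out: `rV = kV t + eV`. -/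
def eV (h : ℕ) (X : (ℂ × ℂ) × H.T h h) : ℂ := H.rV h X - H.kV h * X.1.1
/-- error of the phase read-out: `rP = kP z + eP`. -/
def eP (h : ℕ) (X : (ℂ × ℂ) × H.T h h) : ℂ := H.rP h X - H.kP h * X.1.2
/-- error of the mixed read-out: `rM = kM z + eM`. -/
def eM (h : ℕ) (X : (ℂ × ℂ) × H.T h h) : ℂ := H.rM h X - H.kM h * X.1.2

end Hist

section maps

variable {κ : MapC} {H : Hist}

theorem MapOK.maj_eX (hM : MapOK κ H) {j : ℕ} (hj : H.j0 ≤ j) : Maj (H.eX j) κ.ρ fun w q => κ.C * eordB j w q where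
  an := by
    unfold Hist.eX
    refine (hM.N_an j hj).fst.sub ?_
    exact Differentiable.differentiableOn (by fun_prop)
  bd w q Y hY hρ :=
    (hM.N_x j hj Y (mem_ball_zero_iff.2 hρ)).trans
      (mul_le_mul_of_nonneg_left (cau_eord_le j hY.1 hY.2) (zero_le_one.trans κ.hC))

theorem MapOK.maj_eY (hM : MapOK κ H) {j : ℕ} (hj : H.j0 ≤ j) : Maj (H.eY j) κ.ρ fun w q => κ.C * eordB j w q where
  an := by
    unfold Hist.eY
    refine (hM.N_an j hj).snd.fst.sub ?_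
    exact Differentiable.differentiableOn (by fun_prop)
  bd w q Y hY hρ :=
    (hM.N_y j hj Y (mem_ball_zero_iff.2 hρ)).trans
      (mul_le_mul_of_nonneg_left (cau_eord_le j hY.1 hY.2) (zero_le_one.trans κ.hC))

theorem MapOK.maj_Qp (hM : MapOK κ H) {j : ℕ} (hj : H.j0 ≤ j) :
    Maj (H.Qp j) κ.ρ fun w q => κ.θ * q + κ.C * w ^ 2 where
  an := (hM.N_an j hj).snd.snd
  bd w q Y hY hρ := by
    refine (hM.N_q j hj Y (mem_ball_zero_iff.2 hρ)).trans ?_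
    have h0 : 0 ≤ wn Y := cau_wn_nonneg Y
    have hC := zero_le_one.trans κ.hC
    have hθ := κ.hθ0.le
    have h1 := hY.1
    have h2 := hY.2
    gcongr

theorem MapOK.maj_eT (hM : MapOK κ H) {j : ℕ} (hj : H.j0 ≤ j) :
    Maj (H.eT κ j) κ.ρ fun w q => κ.C * (w ^ 2 + q) where
  an := by
    unfold Hist.eT
    refine (hM.sc_an j hj).fst.sub ?_
    exact Differentiable.differentiableOn (by fun_prop)
  bd w q Y hY hρ := by
    refine (hM.sc_t j hj Y (mem_ball_zero_iff.2 hρ)).trans ?_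
    have hC := zero_le_one.trans κ.hC
    have h0 : 0 ≤ wn Y := cau_wn_nonneg Y
    have h1 : wn Y ≤ w := hY.1
    have h2 := hY.2
    gcongr

theorem MapOK.maj_eZ (hM : MapOK κ H) {j : ℕ} (hj : H.j0 ≤ j) :
    Maj (H.eZ κ j) κ.ρ fun w q => κ.C * (Real.exp (-κ.c * j) * w + w ^ 2 + q) where
  an := by
    unfold Hist.eZ
    refine (hM.sc_an j hj).snd.sub ?_
    exact Differentiable.differentiableOn (by fun_prop)
  bd w q Y hY hρ := by
    refine (hM.sc_z j hj Y (mem_ball_zero_iff.2 hρ)).trans ?_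
    have hC := zero_le_one.trans κ.hC
    have h0 : 0 ≤ wn Y := cau_wn_nonneg Y
    have h1 : wn Y ≤ w := hY.1
    have h3 : ‖Y.2.1‖ ≤ w := (le_max_right _ _).trans hY.1
    have h2 := hY.2
    gcongr

theorem MapOK.maj_Psi (hM : MapOK κ H) {j h : ℕ} (hj : H.j0 ≤ j) (hjh : j < h) :
    Maj2 (H.Ψ j h) κ.ρ fun a t => κ.θ * t + κ.C * (max a t) ^ 2 where
  an := hM.Ψ_an j h hj hjh
  bd a t X hX hρ := by
    refine (hM.Ψ_bd j h hj hjh X (mem_ball_zero_iff.2 hρ)).trans ?_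
    have hC := zero_le_one.trans κ.hC
    have hθ := κ.hθ0.le
    have h1 : ‖X‖ ≤ max a t := max_le_max hX.1 hX.2
    have h2 := hX.2
    gcongr

variable {κe : EntC} {s : ℕ}

theorem ReadOK.maj_eV (hR : ReadOK κ κe s H) {h : ℕ} (hh : H.j0 ≤ h) :
    Maj2 (H.eV h) κ.ρ fun a t => κ.C * (t + (max a t) ^ 2) where
  an := by
    unfold Hist.eV
    refine (hR.rV_an h hh).sub ?_
    exact Differentiable.differentiableOn (by fun_prop)
  bd a t X hX hρ := by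
    refine (hR.rV_bd h hh X (mem_ball_zero_iff.2 hρ)).trans ?_
    have hC := zero_le_one.trans κ.hC
    have h1 : ‖X‖ ≤ max a t := max_le_max hX.1 hX.2
    have h2 := hX.2
    gcongr

theorem ReadOK.maj_eP (hR : ReadOK κ κe s H) {h : ℕ} (hh : H.j0 ≤ h) :
    Maj2 (H.eP h) κ.ρ fun a t => κ.C * (t + (max a t) ^ 2) where
  an := by
    unfold Hist.eP
    refine (hR.rP_an h hh).sub ?_
    exact Differentiable.differentiableOn (by fun_prop)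
  bd a t X hX hρ := by
    refine (hR.rP_bd h hh X (mem_ball_zero_iff.2 hρ)).trans ?_
    have hC := zero_le_one.trans κ.hC
    have h1 : ‖X‖ ≤ max a t := max_le_max hX.1 hX.2
    have h2 := hX.2
    gcongr

theorem ReadOK.maj_eM (hR : ReadOK κ κe s H) {h : ℕ} (hh : H.j0 ≤ h) :
    Maj2 (H.eM h) κ.ρ fun a t => κ.C * (t + (max a t) ^ 2) where
  an := by
    unfold Hist.eM
    refine (hR.rM_an h hh).sub ?_
    exact Differentiable.differentiableOn (by fun_prop)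
  bd a t X hX hρ := by
    refine (hR.rM_bd h hh X (mem_ball_zero_iff.2 hρ)).trans ?_
    have hC := zero_le_one.trans κ.hC
    have h1 : ‖X‖ ≤ max a t := max_le_max hX.1 hX.2
    have h2 := hX.2
    gcongr

end maps

/-- Stores the on-demand equation lemmas of the definitions above in THIS module (rule 6 hygiene). -/
theorem cau_forced : True := by
  have := @DBd.eq_1
  have := @DBd2.eq_1
  have := @Reg.eq_1
  have := @Reg2.eq_1
  have := @eordB.eq_1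
  have := @Hist.eX.eq_1
  have := @Hist.eY.eq_1
  have := @Hist.Qp.eq_1
  have := @Hist.eT.eq_1
  have := @Hist.eZ.eq_1
  have := @Hist.eV.eq_1
  have := @Hist.eP.eq_1
  have := @Hist.eM.eq_1
  trivial

end

end Claimed.Agent.R285.Flow
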