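import Claimed.Agent.R285.Flow.CauchyTube

/-!
# ROW 285, package CAUCHY, part 5: block bounds at the CRITICAL ORDERS `|W| ≤ A / j`, `‖Q‖ ≤ A / j²`      (helper90)

Source: [E] (4.3), (4.4), (4.10) and their secant forms in the proof of L4.3; orders checked in the header of `Read/E4.lean`:
`D_W 𝓔 = O(j⁻²)`, `D_Q 𝓔 = O(j⁻¹)`, `D_W Q₊ = O(j⁻¹)`, `D_Q Q₊ ≤ θ + O(j⁻¹)`, the coordinate change and the read-outs differ from their linear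
parts by maps with `D_W = O(j⁻¹)`, `D_Q = O(1)`.  Cauchy radii `1 / j` in both blocks.

`CritOK κ A K j1` collects the derivative bounds on the regions; `cau_crit` proves it with `K = C (A+1)³ (4 + 1/c)`.
Secant forms: `CritOK.eX_lip`, ... (the regions are convex).
-/

set_option autoImplicit false

namespace Claimed.Agent.R285.Flow

open Metric Set Filter Topology

noncomputable section

/-- the numerical situation: `u = 1 / j`. -/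
structure CritAr (C θ c A u e : ℝ) : Prop where
  hC1 : 1 ≤ C
  hθ0 : 0 < θ
  hθ1 : θ < 1
  hc : 0 < c
  hA : 0 ≤ A
  hu0 : 0 < u
  hu1 : u ≤ 1
  he0 : 0 ≤ e
  he : e ≤ u / c

namespace CritAr

variable {C θ c A u e : ℝ} (h : CritAr C θ c A u e)
include h

theorem mono (a m k : ℕ) (ha : a ≤ 3) (hk : k ≤ m) : (A + 1) ^ a * u ^ m ≤ (A + 1) ^ 3 * u ^ k := by
  have hB1 : 1 ≤ A + 1 := by linarith [h.hA]
  have h1 : (A + 1) ^ a ≤ (A + 1) ^ 3 := pow_le_pow_right₀ hB1 ha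
  have h2 : u ^ m ≤ u ^ k := pow_le_pow_of_le_one h.hu0.le h.hu1 hk
  have hu := h.hu0
  exact mul_le_mul h1 h2 (by positivity) (by positivity)

theorem hC0 : 0 < C := lt_of_lt_of_le one_pos h.hC1

theorem hB3 : 0 < (A + 1) ^ 3 := by have := h.hA; positivity

/-- the constant. -/
theorem K_ge (m : ℝ) (hm : m ≤ 4) : m * (C * (A + 1) ^ 3) ≤ C * (A + 1) ^ 3 * (4 + 1 / c) := by
  have h1 : 0 < C * (A + 1) ^ 3 := mul_pos h.hC0 h.hB3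
  have h2 : 0 < 1 / c := by have := h.hc; positivity
  nlinarith

theorem eE1 (j : ℕ) (hj : u = 1 / (j : ℝ)) :
    C * eordB j (A * u + u) (A * u ^ 2) / u ≤ C * (A + 1) ^ 3 * (4 + 1 / c) * u ^ 2 := by
  have hu := h.hu0
  have hA := h.hA
  rw [div_le_iff₀ hu]
  have e1 : eordB j (A * u + u) (A * u ^ 2)
      = (A * u + u) ^ 2 * u ^ 2 + (A * u + u) ^ 3 + ((A * u + u) + A * u ^ 2) * (A * u ^ 2) := by
    unfold eordB
    rw [hj]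
    simp only [one_div, inv_pow]
    ring
  have hAB : A ≤ A + 1 := by linarith
  have e2 : ((A * u + u) + A * u ^ 2) * (A * u ^ 2) ≤ ((A * u + u) + (A + 1) * u ^ 2) * ((A + 1) * u ^ 2) := by
    gcongr
  have e3 : eordB j (A * u + u) (A * u ^ 2) ≤ 4 * ((A + 1) ^ 3 * u ^ 3) := by
    rw [e1]
    have m1 := h.mono 2 4 3 (by norm_num) (by norm_num)
    have m2 := h.mono 2 3 3 (by norm_num) (by norm_num)
    have : (A * u + u) ^ 2 * u ^ 2 + (A * u + u) ^ 3 + ((A * u + u) + (A + 1) * u ^ 2) * ((A + 1) * u ^ 2)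
        = (A + 1) ^ 2 * u ^ 4 + (A + 1) ^ 3 * u ^ 3 + (A + 1) ^ 2 * u ^ 3 + (A + 1) ^ 2 * u ^ 4 := by ring
    linarith
  have k := h.K_ge 4 le_rfl
  have hu3 : 0 < u ^ 3 := by positivity
  calc C * eordB j (A * u + u) (A * u ^ 2) ≤ C * (4 * ((A + 1) ^ 3 * u ^ 3)) := mul_le_mul_of_nonneg_left e3 h.hC0.le
    _ = 4 * (C * (A + 1) ^ 3) * u ^ 3 := by ring
    _ ≤ C * (A + 1) ^ 3 * (4 + 1 / c) * u ^ 3 := mul_le_mul_of_nonneg_right k hu3.le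
    _ = _ := by ring

theorem eE2 (j : ℕ) (hj : u = 1 / (j : ℝ)) :
    C * eordB j (A * u) (A * u ^ 2 + u) / u ≤ C * (A + 1) ^ 3 * (4 + 1 / c) * u := by
  have hu := h.hu0
  have hA := h.hA
  rw [div_le_iff₀ hu]
  have e1 : eordB j (A * u) (A * u ^ 2 + u)
      = (A * u) ^ 2 * u ^ 2 + (A * u) ^ 3 + ((A * u) + (A * u ^ 2 + u)) * (A * u ^ 2 + u) := by
    unfold eordB
    rw [hj]
    simp only [one_div, inv_pow]
    ring
  have hAB : A ≤ A + 1 := by linarith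
  have hq : A * u ^ 2 + u ≤ (A + 1) * u := by
    have : u ^ 2 ≤ u := by
      rw [sq]; exact mul_le_of_le_one_right hu.le h.hu1
    nlinarith
  have e2 : ((A * u) + (A * u ^ 2 + u)) * (A * u ^ 2 + u) ≤ ((A + 1) * u + (A + 1) * u) * ((A + 1) * u) := by
    gcongr
  have e4 : (A * u) ^ 2 * u ^ 2 ≤ ((A + 1) * u) ^ 2 * u ^ 2 := by gcongr
  have e5 : (A * u) ^ 3 ≤ ((A + 1) * u) ^ 3 := by gcongr
  have e3 : eordB j (A * u) (A * u ^ 2 + u) ≤ 4 * ((A + 1) ^ 3 * u ^ 2) := by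
    rw [e1]
    have m1 := h.mono 2 4 2 (by norm_num) (by norm_num)
    have m2 := h.mono 3 3 2 (by norm_num) (by norm_num)
    have m3 := h.mono 2 2 2 (by norm_num) (by norm_num)
    have : ((A + 1) * u) ^ 2 * u ^ 2 + ((A + 1) * u) ^ 3 + ((A + 1) * u + (A + 1) * u) * ((A + 1) * u)
        = (A + 1) ^ 2 * u ^ 4 + (A + 1) ^ 3 * u ^ 3 + 2 * ((A + 1) ^ 2 * u ^ 2) := by ring
    linarith
  have k := h.K_ge 4 le_rfl
  have hu2 : 0 < u ^ 2 := by positivity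
  calc C * eordB j (A * u) (A * u ^ 2 + u) ≤ C * (4 * ((A + 1) ^ 3 * u ^ 2)) := mul_le_mul_of_nonneg_left e3 h.hC0.le
    _ = 4 * (C * (A + 1) ^ 3) * u ^ 2 := by ring
    _ ≤ C * (A + 1) ^ 3 * (4 + 1 / c) * u ^ 2 := mul_le_mul_of_nonneg_right k hu2.le
    _ = _ := by ring

/-- `θ A u² + C (A+1)² u² ≤ 2 C (A+1)³ u²`. -/
theorem aux1 : θ * (A * u ^ 2) + C * ((A + 1) * u) ^ 2 ≤ 2 * (C * (A + 1) ^ 3) * u ^ 2 := by
  have hu := h.hu0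
  have hA := h.hA
  have hC := h.hC0
  have m1 := h.mono 2 2 2 (by norm_num) (by norm_num)
  have m2 := h.mono 1 2 2 (by norm_num) (by norm_num)
  have a1 : θ * (A * u ^ 2) ≤ C * ((A + 1) ^ 1 * u ^ 2) := by
    have : A * u ^ 2 ≤ (A + 1) ^ 1 * u ^ 2 := by rw [pow_one]; gcongr; linarith
    calc θ * (A * u ^ 2) ≤ 1 * (A * u ^ 2) := mul_le_mul_of_nonneg_right h.hθ1.le (by positivity)
      _ ≤ C * (A * u ^ 2) := mul_le_mul_of_nonneg_right h.hC1 (by positivity)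
      _ ≤ _ := mul_le_mul_of_nonneg_left this hC.le
  have a2 : C * ((A + 1) ^ 1 * u ^ 2) ≤ C * ((A + 1) ^ 3 * u ^ 2) := mul_le_mul_of_nonneg_left m2 hC.le
  have a3 : C * ((A + 1) * u) ^ 2 ≤ C * ((A + 1) ^ 3 * u ^ 2) := by
    rw [mul_pow]; exact mul_le_mul_of_nonneg_left m1 hC.le
  linarith

theorem eQ1 : (θ * (A * u ^ 2) + C * (A * u + u) ^ 2) / u ≤ C * (A + 1) ^ 3 * (4 + 1 / c) * u := by
  have hu := h.hu0
  rw [div_le_iff₀ hu]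
  have e : A * u + u = (A + 1) * u := by ring
  rw [e]
  have k := h.K_ge 2 (by norm_num)
  have hu2 : 0 < u ^ 2 := by positivity
  calc _ ≤ 2 * (C * (A + 1) ^ 3) * u ^ 2 := h.aux1
    _ ≤ C * (A + 1) ^ 3 * (4 + 1 / c) * u ^ 2 := mul_le_mul_of_nonneg_right k hu2.le
    _ = _ := by ring

theorem eQ2 : (θ * (A * u ^ 2 + u) + C * (A * u) ^ 2) / u ≤ θ + C * (A + 1) ^ 3 * (4 + 1 / c) * u := by
  have hu := h.hu0
  have hA := h.hA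
  rw [div_le_iff₀ hu]
  have k := h.K_ge 2 (by norm_num)
  have hu2 : 0 < u ^ 2 := by positivity
  have a1 : C * (A * u) ^ 2 ≤ C * ((A + 1) * u) ^ 2 := by
    have := h.hC0
    gcongr
    linarith
  have a2 := h.aux1
  have a3 : 2 * (C * (A + 1) ^ 3) * u ^ 2 ≤ C * (A + 1) ^ 3 * (4 + 1 / c) * u ^ 2 := mul_le_mul_of_nonneg_right k hu2.le
  calc θ * (A * u ^ 2 + u) + C * (A * u) ^ 2 = θ * u + (θ * (A * u ^ 2) + C * (A * u) ^ 2) := by ring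
    _ ≤ θ * u + C * (A + 1) ^ 3 * (4 + 1 / c) * u ^ 2 := by linarith
    _ = _ := by ring

/-- `max` forms for the torus maps. -/
theorem max1 : max (A * u + u) (A * u ^ 2) = (A + 1) * u := by
  have hu := h.hu0
  have hA := h.hA
  have : u ^ 2 ≤ u := by
    rw [sq]; exact mul_le_of_le_one_right hu.le h.hu1
  rw [max_eq_left (by nlinarith)]
  ring

theorem max2 : max (A * u) (A * u ^ 2 + u) ≤ (A + 1) * u := by
  have hu := h.hu0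
  have hA := h.hA
  have : u ^ 2 ≤ u := by
    rw [sq]; exact mul_le_of_le_one_right hu.le h.hu1
  exact max_le (by nlinarith) (by nlinarith)

theorem max2_nonneg : 0 ≤ max (A * u) (A * u ^ 2 + u) :=
  le_max_of_le_left (mul_nonneg h.hA h.hu0.le)

theorem eP1 : (θ * (A * u ^ 2) + C * (max (A * u + u) (A * u ^ 2)) ^ 2) / u ≤ C * (A + 1) ^ 3 * (4 + 1 / c) * u := by
  rw [h.max1]
  have := h.eQ1
  have e : A * u + u = (A + 1) * u := by ring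
  rwa [e] at this

theorem eP2 : (θ * (A * u ^ 2 + u) + C * (max (A * u) (A * u ^ 2 + u)) ^ 2) / u
    ≤ θ + C * (A + 1) ^ 3 * (4 + 1 / c) * u := by
  have hu := h.hu0
  have hA := h.hA
  rw [div_le_iff₀ hu]
  have k := h.K_ge 2 (by norm_num)
  have hu2 : 0 < u ^ 2 := by positivity
  have a1 : C * (max (A * u) (A * u ^ 2 + u)) ^ 2 ≤ C * ((A + 1) * u) ^ 2 :=
    mul_le_mul_of_nonneg_left (pow_le_pow_left₀ h.max2_nonneg h.max2 2) h.hC0.le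
  have a2 := h.aux1
  have a3 : 2 * (C * (A + 1) ^ 3) * u ^ 2 ≤ C * (A + 1) ^ 3 * (4 + 1 / c) * u ^ 2 := mul_le_mul_of_nonneg_right k hu2.le
  calc θ * (A * u ^ 2 + u) + C * (max (A * u) (A * u ^ 2 + u)) ^ 2
      = θ * u + (θ * (A * u ^ 2) + C * (max (A * u) (A * u ^ 2 + u)) ^ 2) := by ring
    _ ≤ θ * u + C * (A + 1) ^ 3 * (4 + 1 / c) * u ^ 2 := by linarith
    _ = _ := by ring

/-- `A u² + (A+1)² u² ≤ 2 (A+1)³ u²`. -/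
theorem aux2 : A * u ^ 2 + ((A + 1) * u) ^ 2 ≤ 2 * ((A + 1) ^ 3 * u ^ 2) := by
  have hu := h.hu0
  have hA := h.hA
  have m1 := h.mono 2 2 2 (by norm_num) (by norm_num)
  have m2 := h.mono 1 2 2 (by norm_num) (by norm_num)
  have : A * u ^ 2 ≤ (A + 1) ^ 1 * u ^ 2 := by rw [pow_one]; gcongr; linarith
  rw [mul_pow]
  linarith

theorem eT1 : C * ((A * u + u) ^ 2 + A * u ^ 2) / u ≤ C * (A + 1) ^ 3 * (4 + 1 / c) * u := by
  have hu := h.hu0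
  rw [div_le_iff₀ hu]
  have e : A * u + u = (A + 1) * u := by ring
  rw [e]
  have k := h.K_ge 2 (by norm_num)
  have hu2 : 0 < u ^ 2 := by positivity
  have a2 := h.aux2
  calc C * (((A + 1) * u) ^ 2 + A * u ^ 2) ≤ C * (2 * ((A + 1) ^ 3 * u ^ 2)) :=
        mul_le_mul_of_nonneg_left (by linarith) h.hC0.le
    _ = 2 * (C * (A + 1) ^ 3) * u ^ 2 := by ring
    _ ≤ C * (A + 1) ^ 3 * (4 + 1 / c) * u ^ 2 := mul_le_mul_of_nonneg_right k hu2.le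
    _ = _ := by ring

/-- `(A u)² + (A u² + u) ≤ 3 (A+1)³ u`. -/
theorem aux3 : ((A + 1) * u) ^ 2 + (A * u ^ 2 + u) ≤ 3 * ((A + 1) ^ 3 * u) := by
  have hu := h.hu0
  have hA := h.hA
  have m1 := h.mono 2 2 1 (by norm_num) (by norm_num)
  have m2 := h.mono 1 2 1 (by norm_num) (by norm_num)
  have m3 := h.mono 0 1 1 (by norm_num) (by norm_num)
  have : A * u ^ 2 ≤ (A + 1) ^ 1 * u ^ 2 := by rw [pow_one]; gcongr; linarith
  rw [mul_pow]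
  simp only [pow_zero, one_mul, pow_one] at m1 m2 m3 this ⊢
  linarith

theorem eT2 : C * ((A * u) ^ 2 + (A * u ^ 2 + u)) / u ≤ C * (A + 1) ^ 3 * (4 + 1 / c) := by
  have hu := h.hu0
  have hA := h.hA
  rw [div_le_iff₀ hu]
  have k := h.K_ge 3 (by norm_num)
  have a1 : (A * u) ^ 2 ≤ ((A + 1) * u) ^ 2 := by gcongr; linarith
  have a2 := h.aux3
  calc C * ((A * u) ^ 2 + (A * u ^ 2 + u)) ≤ C * (3 * ((A + 1) ^ 3 * u)) :=
        mul_le_mul_of_nonneg_left (by linarith) h.hC0.le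
    _ = 3 * (C * (A + 1) ^ 3) * u := by ring
    _ ≤ _ := mul_le_mul_of_nonneg_right k hu.le

theorem eZ1 : C * (e * (A * u + u) + (A * u + u) ^ 2 + A * u ^ 2) / u ≤ C * (A + 1) ^ 3 * (4 + 1 / c) * u := by
  have hu := h.hu0
  have hA := h.hA
  have hc := h.hc
  rw [div_le_iff₀ hu]
  have e1 : A * u + u = (A + 1) * u := by ring
  rw [e1]
  have a2 := h.aux2
  have m1 := h.mono 1 2 2 (by norm_num) (by norm_num)
  have a3 : e * ((A + 1) * u) ≤ 1 / c * ((A + 1) ^ 3 * u ^ 2) := by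
    calc e * ((A + 1) * u) ≤ u / c * ((A + 1) * u) := mul_le_mul_of_nonneg_right h.he (by positivity)
      _ = 1 / c * ((A + 1) ^ 1 * u ^ 2) := by rw [pow_one]; ring
      _ ≤ _ := mul_le_mul_of_nonneg_left m1 (by positivity)
  have hp : 0 ≤ (A + 1) ^ 3 * u ^ 2 := by positivity
  calc C * (e * ((A + 1) * u) + ((A + 1) * u) ^ 2 + A * u ^ 2)
      ≤ C * ((4 + 1 / c) * ((A + 1) ^ 3 * u ^ 2)) := mul_le_mul_of_nonneg_left (by nlinarith) h.hC0.le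
    _ = _ := by ring

theorem eZ2 : C * (e * (A * u) + (A * u) ^ 2 + (A * u ^ 2 + u)) / u ≤ C * (A + 1) ^ 3 * (4 + 1 / c) := by
  have hu := h.hu0
  have hA := h.hA
  have hc := h.hc
  rw [div_le_iff₀ hu]
  have a1 : (A * u) ^ 2 ≤ ((A + 1) * u) ^ 2 := by gcongr; linarith
  have a2 := h.aux3
  have m1 := h.mono 1 2 1 (by norm_num) (by norm_num)
  have a3 : e * (A * u) ≤ 1 / c * ((A + 1) ^ 3 * u) := by
    calc e * (A * u) ≤ u / c * ((A + 1) * u) := by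
          apply mul_le_mul h.he _ (by positivity) (by positivity)
          gcongr; linarith
      _ = 1 / c * ((A + 1) ^ 1 * u ^ 2) := by rw [pow_one]; ring
      _ ≤ 1 / c * ((A + 1) ^ 3 * u ^ 1) := mul_le_mul_of_nonneg_left m1 (by positivity)
      _ = _ := by rw [pow_one]
  have hp : 0 ≤ (A + 1) ^ 3 * u := by positivity
  calc C * (e * (A * u) + (A * u) ^ 2 + (A * u ^ 2 + u))
      ≤ C * ((4 + 1 / c) * ((A + 1) ^ 3 * u)) := mul_le_mul_of_nonneg_left (by nlinarith) h.hC0.le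
    _ = _ := by ring

theorem eV1 : C * (A * u ^ 2 + (max (A * u + u) (A * u ^ 2)) ^ 2) / u ≤ C * (A + 1) ^ 3 * (4 + 1 / c) * u := by
  rw [h.max1]
  have := h.eT1
  have e : A * u + u = (A + 1) * u := by ring
  rw [e] at this
  rwa [add_comm] at this

theorem eV2 : C * ((A * u ^ 2 + u) + (max (A * u) (A * u ^ 2 + u)) ^ 2) / u ≤ C * (A + 1) ^ 3 * (4 + 1 / c) := by
  have hu := h.hu0
  rw [div_le_iff₀ hu]
  have k := h.K_ge 3 (by norm_num)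
  have a1 : (max (A * u) (A * u ^ 2 + u)) ^ 2 ≤ ((A + 1) * u) ^ 2 := pow_le_pow_left₀ h.max2_nonneg h.max2 2
  have a2 := h.aux3
  calc C * ((A * u ^ 2 + u) + (max (A * u) (A * u ^ 2 + u)) ^ 2) ≤ C * (3 * ((A + 1) ^ 3 * u)) :=
        mul_le_mul_of_nonneg_left (by linarith) h.hC0.le
    _ = 3 * (C * (A + 1) ^ 3) * u := by ring
    _ ≤ _ := mul_le_mul_of_nonneg_right k hu.le

end CritAr

/-- all first order bounds at the critical orders: plane states in `Reg (A / j) (A / j²)`, torus states in `Reg2 (A / j) (A / j²)`. -/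
structure CritOK (κ : MapC) (A K : ℝ) (j1 : ℕ) : Prop where
  j1pos : 1 ≤ j1
  Kpos : 0 < K
  dom : ∀ j : ℕ, j1 ≤ j → (A + 1) / (j : ℝ) < κ.ρ
  eX : ∀ H : Hist, MapOK κ H → ∀ j, H.j0 ≤ j → j1 ≤ j → ∀ Y ∈ Reg (H.Q j) (A / j) (A / (j : ℝ) ^ 2),
    DBd (H.eX j) Y (K / (j : ℝ) ^ 2) (K / j)
  eY : ∀ H : Hist, MapOK κ H → ∀ j, H.j0 ≤ j → j1 ≤ j → ∀ Y ∈ Reg (H.Q j) (A / j) (A / (j : ℝ) ^ 2),
    DBd (H.eY j) Y (K / (j : ℝ) ^ 2) (K / j)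
  Qp : ∀ H : Hist, MapOK κ H → ∀ j, H.j0 ≤ j → j1 ≤ j → ∀ Y ∈ Reg (H.Q j) (A / j) (A / (j : ℝ) ^ 2),
    DBd (H.Qp j) Y (K / j) (κ.θ + K / j)
  eT : ∀ H : Hist, MapOK κ H → ∀ j, H.j0 ≤ j → j1 ≤ j → ∀ Y ∈ Reg (H.Q j) (A / j) (A / (j : ℝ) ^ 2),
    DBd (H.eT κ j) Y (K / j) K
  eZ : ∀ H : Hist, MapOK κ H → ∀ j, H.j0 ≤ j → j1 ≤ j → ∀ Y ∈ Reg (H.Q j) (A / j) (A / (j : ℝ) ^ 2),
    DBd (H.eZ κ j) Y (K / j) K
  Psi : ∀ H : Hist, MapOK κ H → ∀ j h, H.j0 ≤ j → j < h → j1 ≤ j →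
    ∀ X ∈ Reg2 (ℂ × ℂ) (H.T j h) (A / j) (A / (j : ℝ) ^ 2), DBd2 (H.Ψ j h) X (K / j) (κ.θ + K / j)
  eV : ∀ (H : Hist) (κe : EntC) (s : ℕ), ReadOK κ κe s H → ∀ h, H.j0 ≤ h → j1 ≤ h →
    ∀ X ∈ Reg2 (ℂ × ℂ) (H.T h h) (A / h) (A / (h : ℝ) ^ 2), DBd2 (H.eV h) X (K / h) K
  eP : ∀ (H : Hist) (κe : EntC) (s : ℕ), ReadOK κ κe s H → ∀ h, H.j0 ≤ h → j1 ≤ h →
    ∀ X ∈ Reg2 (ℂ × ℂ) (H.T h h) (A / h) (A / (h : ℝ) ^ 2), DBd2 (H.eP h) X (K / h) K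
  eM : ∀ (H : Hist) (κe : EntC) (s : ℕ), ReadOK κ κe s H → ∀ h, H.j0 ≤ h → j1 ≤ h →
    ∀ X ∈ Reg2 (ℂ × ℂ) (H.T h h) (A / h) (A / (h : ℝ) ^ 2), DBd2 (H.eM h) X (K / h) K

theorem cau_exp_neg_le {c x : ℝ} (hc : 0 < c) (hx : 0 < x) : Real.exp (-c * x) ≤ 1 / x / c := by
  have h1 : c * x + 1 ≤ Real.exp (c * x) := Real.add_one_le_exp _
  have h2 : 0 < c * x := mul_pos hc hx
  have e : -c * x = -(c * x) := by ring
  rw [e, Real.exp_neg, div_div, one_div, mul_comm x c]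
  exact inv_anti₀ h2 (by linarith)

/-- **the critical orders** ([E] (4.3), (4.4), (4.10)). -/
theorem cau_crit (κ : MapC) {A : ℝ} (hA : 0 ≤ A) : ∃ (K : ℝ) (j1 : ℕ), CritOK κ A K j1 := by
  obtain ⟨j1, hj1⟩ := exists_nat_gt ((A + 1) / κ.ρ)
  have hρ := κ.hρ
  have hB : 0 < A + 1 := by linarith
  have hj1pos : 0 < (j1 : ℝ) := lt_of_le_of_lt (by positivity) hj1
  have hj1' : 1 ≤ j1 := by exact_mod_cast hj1pos
  have hdom : ∀ j : ℕ, j1 ≤ j → (A + 1) / (j : ℝ) < κ.ρ := by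
    intro j hj
    have h1 : (j1 : ℝ) ≤ j := by exact_mod_cast hj
    have h2 : 0 < (j : ℝ) := lt_of_lt_of_le hj1pos h1
    rw [div_lt_iff₀ h2]
    rw [div_lt_iff₀ hρ] at hj1
    nlinarith
  have hAr : ∀ j : ℕ, j1 ≤ j → CritAr κ.C κ.θ κ.c A (1 / (j : ℝ)) (Real.exp (-κ.c * j)) := by
    intro j hj
    have h1 : (j1 : ℝ) ≤ j := by exact_mod_cast hj
    have h2 : 0 < (j : ℝ) := lt_of_lt_of_le hj1pos h1
    have h3 : (1 : ℝ) ≤ j := by exact_mod_cast hj1'.trans hj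
    exact ⟨κ.hC, κ.hθ0, κ.hθ, κ.hc, hA, by positivity, by rw [div_le_one h2]; exact h3, (Real.exp_pos _).le,
      cau_exp_neg_le κ.hc h2⟩
  -- rewriting of the regions and of the radii
  have e1 : ∀ j : ℕ, A / (j : ℝ) = A * (1 / (j : ℝ)) := fun j => by ring
  have e2 : ∀ j : ℕ, A / (j : ℝ) ^ 2 = A * (1 / (j : ℝ)) ^ 2 := fun j => by ring
  have hsum1 : ∀ j : ℕ, j1 ≤ j → A * (1 / (j : ℝ)) + 1 / (j : ℝ) < κ.ρ := by
    intro j hj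
    have := hdom j hj
    have e : A * (1 / (j : ℝ)) + 1 / (j : ℝ) = (A + 1) / j := by ring
    rwa [e]
  have hsum2 : ∀ j : ℕ, j1 ≤ j → A * (1 / (j : ℝ)) ^ 2 + 1 / (j : ℝ) < κ.ρ := by
    intro j hj
    have h1 := hsum1 j hj
    have a := hAr j hj
    have : (1 / (j : ℝ)) ^ 2 ≤ 1 / (j : ℝ) := by
      rw [sq]; exact mul_le_of_le_one_right a.hu0.le a.hu1
    nlinarith
  set K : ℝ := κ.C * (A + 1) ^ 3 * (4 + 1 / κ.c) with hK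
  have hKpos : 0 < K := by
    have := κ.hc
    have := lt_of_lt_of_le one_pos κ.hC
    positivity
  have k1 : ∀ j : ℕ, K / (j : ℝ) = K * (1 / (j : ℝ)) := fun j => by ring
  have k2 : ∀ j : ℕ, K / (j : ℝ) ^ 2 = K * (1 / (j : ℝ)) ^ 2 := fun j => by ring
  refine ⟨K, j1, hj1', hKpos, hdom, ?_, ?_, ?_, ?_, ?_, ?_, ?_, ?_, ?_⟩
  · intro H hM j hj hj1 Y hY
    have a := hAr j hj1
    rw [e1, e2] at hY
    rw [k1, k2]
    exact ((hM.maj_eX hj).dbd a.hu0 a.hu0 (hsum1 j hj1) (hsum2 j hj1) hY).mono (a.eE1 j rfl) (a.eE2 j rfl)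
  · intro H hM j hj hj1 Y hY
    have a := hAr j hj1
    rw [e1, e2] at hY
    rw [k1, k2]
    exact ((hM.maj_eY hj).dbd a.hu0 a.hu0 (hsum1 j hj1) (hsum2 j hj1) hY).mono (a.eE1 j rfl) (a.eE2 j rfl)
  · intro H hM j hj hj1 Y hY
    have a := hAr j hj1
    rw [e1, e2] at hY
    rw [k1]
    exact ((hM.maj_Qp hj).dbd a.hu0 a.hu0 (hsum1 j hj1) (hsum2 j hj1) hY).mono a.eQ1 a.eQ2
  · intro H hM j hj hj1 Y hY
    have a := hAr j hj1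
    rw [e1, e2] at hY
    rw [k1]
    exact ((hM.maj_eT hj).dbd a.hu0 a.hu0 (hsum1 j hj1) (hsum2 j hj1) hY).mono a.eT1 a.eT2
  · intro H hM j hj hj1 Y hY
    have a := hAr j hj1
    rw [e1, e2] at hY
    rw [k1]
    exact ((hM.maj_eZ hj).dbd a.hu0 a.hu0 (hsum1 j hj1) (hsum2 j hj1) hY).mono a.eZ1 a.eZ2
  · intro H hM j h hj hjh hj1 X hX
    have a := hAr j hj1
    rw [e1, e2] at hX
    rw [k1]
    exact ((hM.maj_Psi hj hjh).dbd a.hu0 a.hu0 (hsum1 j hj1) (hsum2 j hj1) hX).mono a.eP1 a.eP2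
  · intro H κe s hR h hh hj1 X hX
    have a := hAr h hj1
    rw [e1, e2] at hX
    rw [k1]
    exact ((hR.maj_eV hh).dbd a.hu0 a.hu0 (hsum1 h hj1) (hsum2 h hj1) hX).mono a.eV1 a.eV2
  · intro H κe s hR h hh hj1 X hX
    have a := hAr h hj1
    rw [e1, e2] at hX
    rw [k1]
    exact ((hR.maj_eP hh).dbd a.hu0 a.hu0 (hsum1 h hj1) (hsum2 h hj1) hX).mono a.eV1 a.eV2
  · intro H κe s hR h hh hj1 X hX
    have a := hAr h hj1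
    rw [e1, e2] at hX
    rw [k1]
    exact ((hR.maj_eM hh).dbd a.hu0 a.hu0 (hsum1 h hj1) (hsum2 h hj1) hX).mono a.eV1 a.eV2

/-! ## Secant forms -/

namespace CritOK

variable {κ : MapC} {H : Hist} {A K : ℝ} {j1 : ℕ}

theorem reg_subset (hc : CritOK κ A K j1) (hA : 0 ≤ A) {j : ℕ} (hj1 : j1 ≤ j) {Qs : Type} [NormedAddCommGroup Qs]
    [NormedSpace ℂ Qs] : Reg Qs (A / j) (A / (j : ℝ) ^ 2) ⊆ ball 0 κ.ρ := by
  have h1 := hc.dom j hj1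
  have hj : (1 : ℝ) ≤ j := by exact_mod_cast hc.j1pos.trans hj1
  have hj0 : (0 : ℝ) < j := by linarith
  have h2 : A / (j : ℝ) ≤ (A + 1) / j := by gcongr; linarith
  have h3 : A / (j : ℝ) ^ 2 ≤ A / j := by
    apply div_le_div_of_nonneg_left hA hj0
    nlinarith
  exact cau_reg_subset (by linarith) (by linarith)

theorem reg2_subset (hc : CritOK κ A K j1) (hA : 0 ≤ A) {j : ℕ} (hj1 : j1 ≤ j) {A' B' : Type} [NormedAddCommGroup A']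
    [NormedSpace ℂ A'] [NormedAddCommGroup B'] [NormedSpace ℂ B'] : Reg2 A' B' (A / j) (A / (j : ℝ) ^ 2) ⊆ ball 0 κ.ρ := by
  have h1 := hc.dom j hj1
  have hj : (1 : ℝ) ≤ j := by exact_mod_cast hc.j1pos.trans hj1
  have hj0 : (0 : ℝ) < j := by linarith
  have h2 : A / (j : ℝ) ≤ (A + 1) / j := by gcongr; linarith
  have h3 : A / (j : ℝ) ^ 2 ≤ A / j := by
    apply div_le_div_of_nonneg_left hA hj0
    nlinarith
  exact cau_reg2_subset (by linarith) (by linarith)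

theorem eX_lip (hc : CritOK κ A K j1) (hA : 0 ≤ A) (hM : MapOK κ H) {j : ℕ} (hj : H.j0 ≤ j) (hj1 : j1 ≤ j)
    {Y Y' : ℂ × ℂ × H.Q j} (hY : Y ∈ Reg (H.Q j) (A / j) (A / (j : ℝ) ^ 2))
    (hY' : Y' ∈ Reg (H.Q j) (A / j) (A / (j : ℝ) ^ 2)) :
    ‖H.eX j Y' - H.eX j Y‖ ≤ K / (j : ℝ) ^ 2 * wn (Y' - Y) + K / j * ‖Y'.2.2 - Y.2.2‖ :=
  cau_dbd_lip (hM.maj_eX hj).an (cau_reg_convex _ _) (hc.reg_subset hA hj1) (fun Z hZ => hc.eX H hM j hj hj1 Z hZ) hY hY'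

theorem eY_lip (hc : CritOK κ A K j1) (hA : 0 ≤ A) (hM : MapOK κ H) {j : ℕ} (hj : H.j0 ≤ j) (hj1 : j1 ≤ j)
    {Y Y' : ℂ × ℂ × H.Q j} (hY : Y ∈ Reg (H.Q j) (A / j) (A / (j : ℝ) ^ 2))
    (hY' : Y' ∈ Reg (H.Q j) (A / j) (A / (j : ℝ) ^ 2)) :
    ‖H.eY j Y' - H.eY j Y‖ ≤ K / (j : ℝ) ^ 2 * wn (Y' - Y) + K / j * ‖Y'.2.2 - Y.2.2‖ :=
  cau_dbd_lip (hM.maj_eY hj).an (cau_reg_convex _ _) (hc.reg_subset hA hj1) (fun Z hZ => hc.eY H hM j hj hj1 Z hZ) hY hY'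

theorem Qp_lip (hc : CritOK κ A K j1) (hA : 0 ≤ A) (hM : MapOK κ H) {j : ℕ} (hj : H.j0 ≤ j) (hj1 : j1 ≤ j)
    {Y Y' : ℂ × ℂ × H.Q j} (hY : Y ∈ Reg (H.Q j) (A / j) (A / (j : ℝ) ^ 2))
    (hY' : Y' ∈ Reg (H.Q j) (A / j) (A / (j : ℝ) ^ 2)) :
    ‖(H.N j Y').2.2 - (H.N j Y).2.2‖ ≤ K / j * wn (Y' - Y) + (κ.θ + K / j) * ‖Y'.2.2 - Y.2.2‖ :=
  cau_dbd_lip (g := H.Qp j) (hM.maj_Qp hj).an (cau_reg_convex _ _) (hc.reg_subset hA hj1)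
    (fun Z hZ => hc.Qp H hM j hj hj1 Z hZ) hY hY'

theorem eT_lip (hc : CritOK κ A K j1) (hA : 0 ≤ A) (hM : MapOK κ H) {j : ℕ} (hj : H.j0 ≤ j) (hj1 : j1 ≤ j)
    {Y Y' : ℂ × ℂ × H.Q j} (hY : Y ∈ Reg (H.Q j) (A / j) (A / (j : ℝ) ^ 2))
    (hY' : Y' ∈ Reg (H.Q j) (A / j) (A / (j : ℝ) ^ 2)) :
    ‖H.eT κ j Y' - H.eT κ j Y‖ ≤ K / j * wn (Y' - Y) + K * ‖Y'.2.2 - Y.2.2‖ :=
  cau_dbd_lip (hM.maj_eT hj).an (cau_reg_convex _ _) (hc.reg_subset hA hj1) (fun Z hZ => hc.eT H hM j hj hj1 Z hZ) hY hY'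

theorem eZ_lip (hc : CritOK κ A K j1) (hA : 0 ≤ A) (hM : MapOK κ H) {j : ℕ} (hj : H.j0 ≤ j) (hj1 : j1 ≤ j)
    {Y Y' : ℂ × ℂ × H.Q j} (hY : Y ∈ Reg (H.Q j) (A / j) (A / (j : ℝ) ^ 2))
    (hY' : Y' ∈ Reg (H.Q j) (A / j) (A / (j : ℝ) ^ 2)) :
    ‖H.eZ κ j Y' - H.eZ κ j Y‖ ≤ K / j * wn (Y' - Y) + K * ‖Y'.2.2 - Y.2.2‖ :=
  cau_dbd_lip (hM.maj_eZ hj).an (cau_reg_convex _ _) (hc.reg_subset hA hj1) (fun Z hZ => hc.eZ H hM j hj hj1 Z hZ) hY hY'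

theorem Psi_lip (hc : CritOK κ A K j1) (hA : 0 ≤ A) (hM : MapOK κ H) {j h : ℕ} (hj : H.j0 ≤ j) (hjh : j < h)
    (hj1 : j1 ≤ j) {X X' : (ℂ × ℂ) × H.T j h} (hX : X ∈ Reg2 (ℂ × ℂ) (H.T j h) (A / j) (A / (j : ℝ) ^ 2))
    (hX' : X' ∈ Reg2 (ℂ × ℂ) (H.T j h) (A / j) (A / (j : ℝ) ^ 2)) :
    ‖H.Ψ j h X' - H.Ψ j h X‖ ≤ K / j * ‖X'.1 - X.1‖ + (κ.θ + K / j) * ‖X'.2 - X.2‖ :=
  cau_dbd2_lip (hM.Ψ_an j h hj hjh) (cau_reg2_convex _ _) (hc.reg2_subset hA hj1)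
    (fun Z hZ => hc.Psi H hM j h hj hjh hj1 Z hZ) hX hX'

variable {κe : EntC} {s : ℕ}

theorem eV_lip (hc : CritOK κ A K j1) (hA : 0 ≤ A) (hR : ReadOK κ κe s H) {h : ℕ} (hh : H.j0 ≤ h) (hj1 : j1 ≤ h)
    {X X' : (ℂ × ℂ) × H.T h h} (hX : X ∈ Reg2 (ℂ × ℂ) (H.T h h) (A / h) (A / (h : ℝ) ^ 2))
    (hX' : X' ∈ Reg2 (ℂ × ℂ) (H.T h h) (A / h) (A / (h : ℝ) ^ 2)) :
    ‖H.eV h X' - H.eV h X‖ ≤ K / h * ‖X'.1 - X.1‖ + K * ‖X'.2 - X.2‖ :=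
  cau_dbd2_lip (hR.maj_eV hh).an (cau_reg2_convex _ _) (hc.reg2_subset hA hj1)
    (fun Z hZ => hc.eV H κe s hR h hh hj1 Z hZ) hX hX'

theorem eP_lip (hc : CritOK κ A K j1) (hA : 0 ≤ A) (hR : ReadOK κ κe s H) {h : ℕ} (hh : H.j0 ≤ h) (hj1 : j1 ≤ h)
    {X X' : (ℂ × ℂ) × H.T h h} (hX : X ∈ Reg2 (ℂ × ℂ) (H.T h h) (A / h) (A / (h : ℝ) ^ 2))
    (hX' : X' ∈ Reg2 (ℂ × ℂ) (H.T h h) (A / h) (A / (h : ℝ) ^ 2)) :
    ‖H.eP h X' - H.eP h X‖ ≤ K / h * ‖X'.1 - X.1‖ + K * ‖X'.2 - X.2‖ :=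
  cau_dbd2_lip (hR.maj_eP hh).an (cau_reg2_convex _ _) (hc.reg2_subset hA hj1)
    (fun Z hZ => hc.eP H κe s hR h hh hj1 Z hZ) hX hX'

end CritOK

end

end Claimed.Agent.R285.Flow
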