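import Mathlib

/-!
# ROW 285, layer FLOW, leaf SCHWARZ: structured Cauchy/Schwarz estimates                     (helper21)  ALL PROVED

Paper-free complex analysis.  Engine: `Complex.dist_le_mul_div_pow_of_mapsTo_ball_of_isLittleO` (Schwarz lemma of order `n`, Banach domain
and codomain), `Complex.norm_fderiv_le_div_of_mapsTo_ball`, `Complex.norm_iteratedDeriv_le_of_forall_mem_sphere_norm_le`,
`Complex.hasSum_taylorSeries_on_ball`, `TendstoLocallyUniformlyOn.differentiableOn`.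
NOTE Mathlib has "complex differentiable ⇒ analytic" only for the domain `ℂ`: work with one-dimensional slices.
-/

set_option autoImplicit false

namespace Claimed.Agent.R285.B10

open Filter Topology Metric

/-- a holomorphic map which is `O(‖x‖²)` is Lipschitz with constant `O(size)`.
Proof: on the segment `[p, p + v]`, `‖fderiv h x‖ ≤ 8 K0 m`, `m = ‖p‖ + ‖v‖` (Schwarz on `ball x m ⊆ ball 0 (2 m)`), then the mean value inequality. -/
theorem sw_diff {E G : Type*} [NormedAddCommGroup E] [NormedSpace ℂ E] [NormedAddCommGroup G] [NormedSpace ℂ G]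
    {h : E → G} {R K0 : ℝ} (hd : DifferentiableOn ℂ h (ball 0 R)) (hq : ∀ x ∈ ball (0 : E) R, ‖h x‖ ≤ K0 * ‖x‖ ^ 2)
    {p v : E} (hpv : 2 * (‖p‖ + ‖v‖) < R) : ‖h (p + v) - h p‖ ≤ 8 * K0 * (‖p‖ + ‖v‖) * ‖v‖ := by
  set m : ℝ := ‖p‖ + ‖v‖ with hm
  have hp0 : 0 ≤ ‖p‖ := norm_nonneg p
  have hv0 : 0 ≤ ‖v‖ := norm_nonneg v
  rcases eq_or_lt_of_le (show 0 ≤ ‖v‖ from hv0) with hv | hv
  · have : v = 0 := norm_eq_zero.mp hv.symm
    subst this
    simp
  have hmpos : 0 < m := by positivity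
  -- `K0 ≥ 0`
  have hK0 : 0 ≤ K0 := by
    have h1 := hq v (by rw [mem_ball_zero_iff]; nlinarith)
    by_contra hneg
    push Not at hneg
    have : K0 * ‖v‖ ^ 2 < 0 := mul_neg_of_neg_of_pos hneg (by positivity)
    linarith [norm_nonneg (h v)]
  have hsub : ∀ x ∈ closedBall (0 : E) m, ball x m ⊆ ball (0 : E) R := by
    intro x hx y hy
    rw [mem_closedBall_zero_iff] at hx
    rw [mem_ball_iff_norm] at hy
    rw [mem_ball_zero_iff]
    have : ‖y‖ ≤ ‖y - x‖ + ‖x‖ := by
      have := norm_add_le (y - x) x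
      simpa using this
    linarith
  have hbound : ∀ x ∈ closedBall (0 : E) m, ‖fderiv ℂ h x‖ ≤ 8 * K0 * m := by
    intro x hx
    have hmaps : Set.MapsTo h (ball x m) (closedBall (h x) (8 * K0 * m ^ 2)) := by
      intro y hy
      have hyR := hsub x hx hy
      have hxR : x ∈ ball (0 : E) R := hsub x hx (mem_ball_self hmpos)
      rw [mem_closedBall_zero_iff] at hx
      rw [mem_ball_iff_norm] at hy
      have hy2 : ‖y‖ ≤ 2 * m := by
        have := norm_add_le (y - x) x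
        have h2 : ‖y‖ ≤ ‖y - x‖ + ‖x‖ := by simpa using this
        linarith
      rw [mem_closedBall, dist_eq_norm]
      have h1 := hq y hyR
      have h2 := hq x hxR
      have h3 : ‖y‖ ^ 2 ≤ (2 * m) ^ 2 := by gcongr
      have h4 : ‖x‖ ^ 2 ≤ m ^ 2 := by gcongr
      calc ‖h y - h x‖ ≤ ‖h y‖ + ‖h x‖ := norm_sub_le _ _
        _ ≤ K0 * (2 * m) ^ 2 + K0 * m ^ 2 := by
          refine add_le_add (h1.trans ?_) (h2.trans ?_) <;> gcongr
        _ ≤ 8 * K0 * m ^ 2 := by nlinarith [mul_nonneg hK0 (sq_nonneg m)]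
    have := Complex.norm_fderiv_le_div_of_mapsTo_ball (hd.mono (hsub x hx)) hmaps hmpos
    calc ‖fderiv ℂ h x‖ ≤ 8 * K0 * m ^ 2 / m := this
      _ = 8 * K0 * m := by field_simp
  have hdiff : ∀ x ∈ closedBall (0 : E) m, DifferentiableAt ℂ h x := by
    intro x hx
    exact hd.differentiableAt (isOpen_ball.mem_nhds (hsub x hx (mem_ball_self hmpos)))
  have hp : p ∈ closedBall (0 : E) m := by rw [mem_closedBall_zero_iff]; linarith
  have hpv' : p + v ∈ closedBall (0 : E) m := by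
    rw [mem_closedBall_zero_iff]; exact norm_add_le _ _
  have := Convex.norm_image_sub_le_of_norm_fderiv_le (𝕜 := ℂ) hdiff hbound (convex_closedBall 0 m) hp hpv'
  simpa using this

/-- second order Taylor expansion at `0` of a holomorphic function of one variable, with an explicit remainder -/
theorem sw_taylor2 {G : Type*} [NormedAddCommGroup G] [NormedSpace ℂ G] [CompleteSpace G] {f : ℂ → G} {R M : ℝ} (hR : 0 < R)
    (hd : DifferentiableOn ℂ f (ball 0 R)) (hM : ∀ z ∈ ball (0 : ℂ) R, ‖f z‖ ≤ M) :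
    ∀ z ∈ ball (0 : ℂ) R, ‖f z - f 0 - z • deriv f 0‖ ≤ 8 * M * (‖z‖ / R) ^ 2 := by
  intro z hz
  have h0 : (0 : ℂ) ∈ ball (0 : ℂ) R := mem_ball_self hR
  have hM0 : 0 ≤ M := (norm_nonneg _).trans (hM 0 h0)
  have hder : ‖deriv f 0‖ ≤ 2 * M / R := by
    refine Complex.norm_deriv_le_div_of_mapsTo_ball hd ?_ hR
    intro y hy
    rw [mem_closedBall, dist_eq_norm]
    calc ‖f y - f 0‖ ≤ ‖f y‖ + ‖f 0‖ := norm_sub_le _ _
      _ ≤ 2 * M := by linarith [hM y hy, hM 0 h0]
  set g : ℂ → G := fun z => f z - f 0 - z • deriv f 0 with hg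
  have hg0 : g 0 = 0 := by simp [hg]
  have hgd : DifferentiableOn ℂ g (ball 0 R) := by
    refine (hd.sub (differentiableOn_const _)).sub ?_
    exact differentiableOn_id.smul_const _
  have hmaps : Set.MapsTo g (ball 0 R) (closedBall (g 0) (4 * M)) := by
    intro y hy
    rw [hg0, mem_closedBall_zero_iff]
    have hy' : ‖y‖ < R := by simpa using hy
    have h1 : ‖y • deriv f 0‖ ≤ 2 * M := by
      rw [norm_smul]
      calc ‖y‖ * ‖deriv f 0‖ ≤ R * (2 * M / R) := by gcongr
        _ = 2 * M := by field_simp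
    calc ‖g y‖ ≤ ‖f y - f 0‖ + ‖y • deriv f 0‖ := norm_sub_le _ _
      _ ≤ (‖f y‖ + ‖f 0‖) + ‖y • deriv f 0‖ := by gcongr; exact norm_sub_le _ _
      _ ≤ 4 * M := by linarith [hM y hy, hM 0 h0]
  have hlo : (fun w => g w - g 0) =o[𝓝 0] (fun w : ℂ => ‖w - 0‖ ^ 1) := by
    have hda : HasDerivAt f (deriv f 0) 0 := (hd.differentiableAt (isOpen_ball.mem_nhds h0)).hasDerivAt
    have := hasDerivAt_iff_isLittleO.mp hda
    simp only [hg0, sub_zero, pow_one] at this ⊢
    exact this.norm_right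
  have := Complex.dist_le_mul_div_pow_of_mapsTo_ball_of_isLittleO hgd hmaps hlo hz
  rw [hg0, dist_zero_right, dist_zero_right] at this
  calc ‖g z‖ ≤ 4 * M * (‖z‖ / R) ^ (1 + 1) := this
    _ ≤ 8 * M * (‖z‖ / R) ^ 2 := by
      have : 0 ≤ (‖z‖ / R) ^ 2 := by positivity
      norm_num
      nlinarith

/-- third order Taylor expansion at `0`, with an explicit remainder -/
theorem sw_taylor3 {G : Type*} [NormedAddCommGroup G] [NormedSpace ℂ G] [CompleteSpace G] {f : ℂ → G} {R M : ℝ} (hR : 0 < R)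
    (hd : DifferentiableOn ℂ f (ball 0 R)) (hM : ∀ z ∈ ball (0 : ℂ) R, ‖f z‖ ≤ M) :
    ∀ z ∈ ball (0 : ℂ) R, ‖f z - f 0 - z • deriv f 0 - (z ^ 2 / 2) • iteratedDeriv 2 f 0‖ ≤ 16 * M * (‖z‖ / R) ^ 3 := by
  intro z hz
  have h0 : (0 : ℂ) ∈ ball (0 : ℂ) R := mem_ball_self hR
  have hM0 : 0 ≤ M := (norm_nonneg _).trans (hM 0 h0)
  have hder : ‖deriv f 0‖ ≤ 2 * M / R := by
    refine Complex.norm_deriv_le_div_of_mapsTo_ball hd ?_ hR
    intro y hy
    rw [mem_closedBall, dist_eq_norm]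
    calc ‖f y - f 0‖ ≤ ‖f y‖ + ‖f 0‖ := norm_sub_le _ _
      _ ≤ 2 * M := by linarith [hM y hy, hM 0 h0]
  -- Cauchy estimate for the second derivative on the sphere of radius `R / 2`... we use `3 R / 4`
  have hder2 : ‖iteratedDeriv 2 f 0‖ ≤ 4 * M / R ^ 2 := by
    have hr : 0 < 3 / 4 * R := by positivity
    have hsub : closedBall (0 : ℂ) (3 / 4 * R) ⊆ ball 0 R := closedBall_subset_ball (by linarith)
    have hdc : DiffContOnCl ℂ f (ball 0 (3 / 4 * R)) := by
      refine DifferentiableOn.diffContOnCl ?_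
      rw [closure_ball _ hr.ne']
      exact hd.mono hsub
    have := Complex.norm_iteratedDeriv_le_of_forall_mem_sphere_norm_le 2 hr hdc
      (C := M) (fun y hy => hM y (hsub (sphere_subset_closedBall hy)))
    refine this.trans ?_
    rw [div_le_div_iff₀ (by positivity) (by positivity)]
    norm_num [Nat.factorial]
    nlinarith [mul_nonneg hM0 (sq_nonneg R)]
  set a : G := deriv f 0 with ha
  set b : G := iteratedDeriv 2 f 0 with hb
  set g : ℂ → G := fun z => f z - f 0 - z • a - (z ^ 2 / 2) • b with hg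
  have hg0 : g 0 = 0 := by simp [hg]
  have hgder : ∀ x ∈ ball (0 : ℂ) R, HasDerivAt g (deriv f x - a - x • b) x := by
    intro x hx
    have h1 : HasDerivAt f (deriv f x) x := (hd.differentiableAt (isOpen_ball.mem_nhds hx)).hasDerivAt
    have h2 : HasDerivAt (fun z : ℂ => z • a) a x := by
      simpa using (hasDerivAt_id x).smul_const a
    have h3 : HasDerivAt (fun z : ℂ => (z ^ 2 / 2) • b) (x • b) x := by
      have : HasDerivAt (fun z : ℂ => z ^ 2 / 2) x x := by
        have := ((hasDerivAt_id x).pow 2).div_const 2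
        simpa using this
      exact this.smul_const b
    have := ((h1.sub_const (f 0)).sub h2).sub h3
    exact this
  have hgd : DifferentiableOn ℂ g (ball 0 R) := fun x hx => (hgder x hx).differentiableAt.differentiableWithinAt
  have hmaps : Set.MapsTo g (ball 0 R) (closedBall (g 0) (6 * M)) := by
    intro y hy
    rw [hg0, mem_closedBall_zero_iff]
    have hy' : ‖y‖ < R := by simpa using hy
    have h1 : ‖y • a‖ ≤ 2 * M := by
      rw [norm_smul]
      calc ‖y‖ * ‖a‖ ≤ R * (2 * M / R) := by gcongr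
        _ = 2 * M := by field_simp
    have h2 : ‖(y ^ 2 / 2) • b‖ ≤ 2 * M := by
      rw [norm_smul, norm_div, norm_pow]
      have : ‖(2 : ℂ)‖ = 2 := by simp
      rw [this]
      calc ‖y‖ ^ 2 / 2 * ‖b‖ ≤ R ^ 2 / 2 * (4 * M / R ^ 2) := by gcongr
        _ = 2 * M := by field_simp; ring
    calc ‖g y‖ ≤ ‖f y - f 0 - y • a‖ + ‖(y ^ 2 / 2) • b‖ := norm_sub_le _ _
      _ ≤ (‖f y - f 0‖ + ‖y • a‖) + ‖(y ^ 2 / 2) • b‖ := by gcongr; exact norm_sub_le _ _
      _ ≤ ((‖f y‖ + ‖f 0‖) + ‖y • a‖) + ‖(y ^ 2 / 2) • b‖ := by gcongr; exact norm_sub_le _ _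
      _ ≤ 6 * M := by linarith [hM y hy, hM 0 h0]
  have hlo : (fun w => g w - g 0) =o[𝓝 0] (fun w : ℂ => ‖w - 0‖ ^ 2) := by
    have hdd : DifferentiableOn ℂ (deriv f) (ball 0 R) := hd.deriv isOpen_ball
    have hda : HasDerivAt (deriv f) b 0 := by
      have := (hdd.differentiableAt (isOpen_ball.mem_nhds h0)).hasDerivAt
      have hb' : b = deriv (deriv f) 0 := by
        rw [hb, iteratedDeriv_succ, iteratedDeriv_one]
      rwa [hb']
    have hlo1 := hasDerivAt_iff_isLittleO.mp hda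
    simp only [sub_zero] at hlo1
    rw [Asymptotics.isLittleO_iff]
    intro c hc
    have h1 := (Asymptotics.isLittleO_iff.mp hlo1) hc
    have h2 : ∀ᶠ x in 𝓝 (0 : ℂ), x ∈ ball (0 : ℂ) R := isOpen_ball.mem_nhds h0
    obtain ⟨δ, hδ, hδ'⟩ := Metric.eventually_nhds_iff.mp (h1.and h2)
    refine Metric.eventually_nhds_iff.mpr ⟨δ, hδ, fun w hw => ?_⟩
    have hw' : ‖w‖ < δ := by simpa using hw
    have hs : ∀ x ∈ closedBall (0 : ℂ) ‖w‖, dist x 0 < δ := by
      intro x hx
      rw [mem_closedBall] at hx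
      simpa using lt_of_le_of_lt hx hw'
    have := Convex.norm_image_sub_le_of_norm_hasDerivWithin_le (f := g) (f' := fun x => deriv f x - a - x • b)
      (s := closedBall (0 : ℂ) ‖w‖) (C := c * ‖w‖) (x := 0) (y := w)
      (fun x hx => (hgder x (hδ' (hs x hx)).2).hasDerivWithinAt)
      (fun x hx => by
        have h3 := (hδ' (hs x hx)).1
        rw [mem_closedBall_zero_iff] at hx
        refine h3.trans ?_
        gcongr)
      (convex_closedBall 0 _) (by simp) (by simp)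
    simp only [sub_zero] at this ⊢
    rw [hg0, sub_zero] at *
    rw [norm_pow, norm_norm]
    calc ‖g w‖ ≤ c * ‖w‖ * ‖w‖ := this
      _ = c * ‖w‖ ^ 2 := by ring
  have := Complex.dist_le_mul_div_pow_of_mapsTo_ball_of_isLittleO hgd hmaps hlo hz
  rw [hg0, dist_zero_right, dist_zero_right] at this
  calc ‖g z‖ ≤ 6 * M * (‖z‖ / R) ^ (2 + 1) := this
    _ ≤ 16 * M * (‖z‖ / R) ^ 3 := by
      have : 0 ≤ (‖z‖ / R) ^ 3 := by positivity
      norm_num
      nlinarith

end Claimed.Agent.R285.B10
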