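import Mathlib

/-!
# ROW 285, layer FLOW, leaf REPLICA: stability of the replica ODE ([B] (10.5), L10.1; [F] L5.4 second assertion)      (contract helper21)

Consumer: `Flow.tor_crit_mix` (post BP-F5-L54).  ROUTE WITHOUT COMPACTNESS AND WITHOUT COMPLEX CONTINUATION:
`G_n (w) := E[cos \bar h · e^{w X_n}]` (real, even in `w` on even tori, `G_n 0 = torPhase > 0`).
1. replica identity with a REAL tilt (two copies, `S = z¹ + z²`, `D = z¹ - z²`):
   `G G'' - G'² = ½ E[X(D)² e^{i \bar h (S) + w X(S)}] = Var(X) G² + ½ E[(V - E V) ψ_w]`, `V = E(X(D)² | class)`, `E V = 2 Var X`, `Var V = 2 κ₄(X)`,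
   `E |ψ_w|² ≤ (E e^{2 w X})²`;  so `|G G'' - G'² - Var(X) G²| ≤ sqrt(κ₄ / 2) · E e^{2 w X} =: ε_n → 0`.
2. if `G_n 0 ≥ η`: `replica_real` below gives `|G_n w - G_n 0 · e^{v w²/2}| → 0`.
3. if `G_n 0 ≤ η`: `C2.phase_tilt` gives `|G_n w| ≤ E e^{w X} · G_n 0 ≤ M η`.     Then `η → 0`.

Proof of `replica_real`: bootstrap on `{w : a / 2 < G on [0, w]}`.  There `ℓ = log G`, `ℓ'' = (G G'' - G'²) / G² = v + e`, `|e| ≤ 4 ε / a²`,
`|ℓ' w - v w| ≤ 4 ε w / a²`, `|ℓ w - ℓ 0 - v w² / 2| ≤ 2 ε w² / a²`, hence `G w ≥ a e^{-1/2} > a / 2`: the set is closed and relatively open in `[0, W]`.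
-/

set_option autoImplicit false

namespace Claimed.Agent.R285.B10

open Set

theorem replica_aux {G G' G'' : ℝ → ℝ} {a v ε w1 : ℝ} (ha : 0 < a) (hε : 0 ≤ ε)
    (h1 : ∀ w ∈ Icc 0 w1, HasDerivAt G (G' w) w) (h2 : ∀ w ∈ Icc 0 w1, HasDerivAt G' (G'' w) w)
    (h0 : G 0 = a) (h0' : G' 0 = 0)
    (hode : ∀ w ∈ Icc 0 w1, |G w * G'' w - G' w ^ 2 - v * G w ^ 2| ≤ ε)
    (hpos : ∀ w ∈ Icc 0 w1, a / 2 < G w) :
    ∀ w ∈ Icc 0 w1, |Real.log (G w) - Real.log a - v * w ^ 2 / 2| ≤ 2 * ε * w ^ 2 / a ^ 2 := by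
  obtain ⟨c, hc⟩ : ∃ c : ℝ, c = 4 * ε / a ^ 2 := ⟨_, rfl⟩
  have hG0 : ∀ x ∈ Icc 0 w1, 0 < G x := fun x hx => by have := hpos x hx; linarith
  have hp : ∀ x ∈ Icc 0 w1, HasDerivAt (fun x => G' x / G x - v * x)
      ((G'' x * G x - G' x * G' x) / (G x) ^ 2 - v) x := by
    intro x hx
    have e1 := ((h2 x hx).div (h1 x hx) (hG0 x hx).ne').sub ((hasDerivAt_id x).const_mul v)
    rw [mul_one] at e1
    exact e1
  have hb1 : ∀ x ∈ Icc 0 w1, ‖(G'' x * G x - G' x * G' x) / (G x) ^ 2 - v‖ ≤ c := by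
    intro x hx
    have hGx := hpos x hx
    have hGp := hG0 x hx
    have e : (G'' x * G x - G' x * G' x) / (G x) ^ 2 - v =
        (G x * G'' x - G' x ^ 2 - v * G x ^ 2) / (G x) ^ 2 := by
      field_simp
    rw [e, Real.norm_eq_abs, abs_div, abs_of_pos (by positivity : 0 < (G x) ^ 2)]
    calc |G x * G'' x - G' x ^ 2 - v * G x ^ 2| / (G x) ^ 2 ≤ ε / (G x) ^ 2 :=
          div_le_div_of_nonneg_right (hode x hx) (by positivity)
      _ ≤ ε / (a / 2) ^ 2 :=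
          div_le_div_of_nonneg_left hε (by positivity) (pow_le_pow_left₀ (by positivity) hGx.le 2)
      _ = c := by rw [hc]; field_simp; ring
  have s1 : ∀ x ∈ Icc 0 w1, ‖G' x / G x - v * x‖ ≤ c * x := by
    refine image_norm_le_of_norm_deriv_right_le_deriv_boundary
      (f := fun x => G' x / G x - v * x)
      (f' := fun x => (G'' x * G x - G' x * G' x) / (G x) ^ 2 - v)
      (B := fun x => c * x) (B' := fun _ => c)
      (fun x hx => (hp x hx).continuousAt.continuousWithinAt)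
      (fun x hx => (hp x (Ico_subset_Icc_self hx)).hasDerivWithinAt) ?_ ?_
      (fun x hx => hb1 x (Ico_subset_Icc_self hx))
    · simp [h0']
    · intro x
      simpa using (hasDerivAt_id x).const_mul c
  have hF : ∀ x ∈ Icc 0 w1, HasDerivAt (fun x => Real.log (G x) - Real.log a - v * x ^ 2 / 2)
      (G' x / G x - v * x) x := by
    intro x hx
    have e1 := (((h1 x hx).log (hG0 x hx).ne').sub_const (Real.log a)).sub
      (((hasDerivAt_pow 2 x).const_mul v).div_const 2)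
    exact e1.congr_deriv (by norm_num; ring)
  have s2 : ∀ x ∈ Icc 0 w1, ‖Real.log (G x) - Real.log a - v * x ^ 2 / 2‖ ≤ c / 2 * x ^ 2 := by
    refine image_norm_le_of_norm_deriv_right_le_deriv_boundary
      (f := fun x => Real.log (G x) - Real.log a - v * x ^ 2 / 2)
      (f' := fun x => G' x / G x - v * x)
      (B := fun x => c / 2 * x ^ 2) (B' := fun x => c * x)
      (fun x hx => (hF x hx).continuousAt.continuousWithinAt)
      (fun x hx => (hF x (Ico_subset_Icc_self hx)).hasDerivWithinAt) ?_ ?_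
      (fun x hx => s1 x (Ico_subset_Icc_self hx))
    · simp [h0]
    · intro x
      have e1 := (hasDerivAt_pow 2 x).const_mul (c / 2)
      exact e1.congr_deriv (by norm_num; ring)
  intro w hw
  have := s2 w hw
  rw [Real.norm_eq_abs] at this
  refine this.trans (le_of_eq ?_)
  rw [hc]
  ring

theorem replica_pos {G G' G'' : ℝ → ℝ} {a v ε W : ℝ} (ha : 0 < a) (hv : 0 ≤ v) (hε : 0 ≤ ε)
    (h1 : ∀ w ∈ Icc 0 W, HasDerivAt G (G' w) w) (h2 : ∀ w ∈ Icc 0 W, HasDerivAt G' (G'' w) w)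
    (h0 : G 0 = a) (h0' : G' 0 = 0)
    (hode : ∀ w ∈ Icc 0 W, |G w * G'' w - G' w ^ 2 - v * G w ^ 2| ≤ ε)
    (hsm : 4 * ε * W ^ 2 ≤ a ^ 2) : ∀ w ∈ Icc 0 W, a / 2 < G w := by
  by_contra hcon
  push Not at hcon
  obtain ⟨w0, hw0, hGw0⟩ := hcon
  obtain ⟨Bad, hBad⟩ : ∃ Bad : Set ℝ, Bad = Icc 0 W ∩ G ⁻¹' (Iic (a / 2)) := ⟨_, rfl⟩
  have hcont : ContinuousOn G (Icc 0 W) := fun x hx => (h1 x hx).continuousAt.continuousWithinAt
  have hclosed : IsClosed Bad := by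
    rw [hBad]; exact hcont.preimage_isClosed_of_isClosed isClosed_Icc isClosed_Iic
  have hne : Bad.Nonempty := ⟨w0, by rw [hBad]; exact ⟨hw0, hGw0⟩⟩
  have hbdd : BddBelow Bad := ⟨0, fun x hx => by rw [hBad] at hx; exact hx.1.1⟩
  obtain ⟨ws, hwsdef⟩ : ∃ ws : ℝ, ws = sInf Bad := ⟨_, rfl⟩
  have hws : ws ∈ Bad := by rw [hwsdef]; exact hclosed.csInf_mem hne hbdd
  have hlt : ∀ x ∈ Icc 0 W, x < ws → a / 2 < G x := fun x hx hxw => by
    by_contra h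
    rw [hwsdef] at hxw
    exact (notMem_of_lt_csInf hxw hbdd) (by rw [hBad]; exact ⟨hx, not_lt.1 h⟩)
  rw [hBad] at hws
  obtain ⟨⟨hws0, hwsW⟩, hGws⟩ := hws
  have hGws' : G ws ≤ a / 2 := hGws
  have hwspos : 0 < ws := by
    rcases hws0.eq_or_lt with h | h
    · rw [← h, h0] at hGws'
      linarith
    · exact h
  have hlow : ∀ w1, 0 ≤ w1 → w1 < ws → a * Real.exp (-1 / 2) ≤ G w1 := by
    intro w1 hw10 hw1s
    have hw1W : w1 ≤ W := hw1s.le.trans hwsW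
    have hsub : Icc 0 w1 ⊆ Icc 0 W := Icc_subset_Icc_right hw1W
    have hposw : ∀ w ∈ Icc 0 w1, a / 2 < G w := fun w hw => hlt w (hsub hw) (hw.2.trans_lt hw1s)
    have e1 := replica_aux ha hε (fun w hw => h1 w (hsub hw)) (fun w hw => h2 w (hsub hw)) h0 h0'
      (fun w hw => hode w (hsub hw)) hposw w1 ⟨hw10, le_rfl⟩
    have e2 : 2 * ε * w1 ^ 2 / a ^ 2 ≤ 1 / 2 := by
      rw [div_le_iff₀ (by positivity)]
      have : ε * w1 ^ 2 ≤ ε * W ^ 2 :=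
        mul_le_mul_of_nonneg_left (pow_le_pow_left₀ hw10 hw1W 2) hε
      linarith
    have e3 := (abs_le.1 (e1.trans e2)).1
    have e4 : 0 ≤ v * w1 ^ 2 / 2 := by positivity
    have hGp : 0 < G w1 := by have := hposw w1 ⟨hw10, le_rfl⟩; linarith
    have e5 : Real.log a + -1 / 2 ≤ Real.log (G w1) := by linarith
    calc a * Real.exp (-1 / 2) = Real.exp (Real.log a + -1 / 2) := by
          rw [Real.exp_add, Real.exp_log ha]
      _ ≤ Real.exp (Real.log (G w1)) := Real.exp_le_exp.2 e5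
      _ = G w1 := Real.exp_log hGp
  have hge : a * Real.exp (-1 / 2) ≤ G ws := by
    have hc : ContinuousWithinAt G (Iio ws) ws :=
      (h1 ws ⟨hws0, hwsW⟩).continuousAt.continuousWithinAt
    refine ge_of_tendsto hc ?_
    filter_upwards [Ioo_mem_nhdsLT hwspos] with x hx
    exact hlow x hx.1.le hx.2
  have h3 : 1 / 2 < Real.exp (-1 / 2) := by
    have := Real.add_one_lt_exp (show (-1 / 2 : ℝ) ≠ 0 by norm_num)
    linarith
  have h4 : a * (1 / 2) < a * Real.exp (-1 / 2) := mul_lt_mul_of_pos_left h3 ha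
  linarith

theorem replica_real {G G' G'' : ℝ → ℝ} {a v ε W : ℝ} (hW : 0 ≤ W) (ha : 0 < a) (hv : 0 ≤ v) (hε : 0 ≤ ε)
    (h1 : ∀ w ∈ Icc 0 W, HasDerivAt G (G' w) w) (h2 : ∀ w ∈ Icc 0 W, HasDerivAt G' (G'' w) w)
    (h0 : G 0 = a) (h0' : G' 0 = 0)
    (hode : ∀ w ∈ Icc 0 W, |G w * G'' w - G' w ^ 2 - v * G w ^ 2| ≤ ε)
    (hsm : 4 * ε * W ^ 2 ≤ a ^ 2) :
    ∀ w ∈ Icc 0 W, a / 2 < G w ∧ |Real.log (G w) - Real.log a - v * w ^ 2 / 2| ≤ 2 * ε * w ^ 2 / a ^ 2 := by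
  have hpos := replica_pos ha hv hε h1 h2 h0 h0' hode hsm
  exact fun w hw => ⟨hpos w hw, replica_aux ha hε h1 h2 h0 h0' hode hpos w hw⟩

/-- the form used in step 2 -/
theorem replica_real' {G G' G'' : ℝ → ℝ} {a v ε W : ℝ} (hW : 0 ≤ W) (ha : 0 < a) (hv : 0 ≤ v) (hε : 0 ≤ ε)
    (h1 : ∀ w ∈ Icc 0 W, HasDerivAt G (G' w) w) (h2 : ∀ w ∈ Icc 0 W, HasDerivAt G' (G'' w) w)
    (h0 : G 0 = a) (h0' : G' 0 = 0)
    (hode : ∀ w ∈ Icc 0 W, |G w * G'' w - G' w ^ 2 - v * G w ^ 2| ≤ ε)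
    (hsm : 4 * ε * W ^ 2 ≤ a ^ 2) :
    ∀ w ∈ Icc 0 W, |G w - a * Real.exp (v * w ^ 2 / 2)| ≤ a * Real.exp (v * w ^ 2 / 2) * (4 * ε * w ^ 2 / a ^ 2) := by
  intro w hw
  obtain ⟨hp, hl⟩ := replica_real hW ha hv hε h1 h2 h0 h0' hode hsm w hw
  have hGp : 0 < G w := by linarith
  obtain ⟨d, hd⟩ : ∃ d : ℝ, d = Real.log (G w) - Real.log a - v * w ^ 2 / 2 := ⟨_, rfl⟩
  rw [← hd] at hl
  have e2 : 2 * ε * w ^ 2 / a ^ 2 ≤ 1 / 2 := by
    rw [div_le_iff₀ (by positivity)]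
    have : ε * w ^ 2 ≤ ε * W ^ 2 := mul_le_mul_of_nonneg_left (pow_le_pow_left₀ hw.1 hw.2 2) hε
    linarith
  have e3 : G w = a * Real.exp (v * w ^ 2 / 2) * Real.exp d := by
    rw [mul_assoc, ← Real.exp_add]
    calc G w = Real.exp (Real.log (G w)) := (Real.exp_log hGp).symm
      _ = Real.exp (Real.log a + (v * w ^ 2 / 2 + d)) := by rw [hd]; congr 1; ring
      _ = a * Real.exp (v * w ^ 2 / 2 + d) := by rw [Real.exp_add, Real.exp_log ha]
  have e4 := Real.abs_exp_sub_one_le (x := d) (by linarith)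
  have e5 : G w - a * Real.exp (v * w ^ 2 / 2) = a * Real.exp (v * w ^ 2 / 2) * (Real.exp d - 1) := by
    rw [e3]; ring
  have e6 : 0 < a * Real.exp (v * w ^ 2 / 2) := by positivity
  rw [e5, abs_mul, abs_of_pos e6]
  refine mul_le_mul_of_nonneg_left ?_ e6.le
  have e7 : 4 * ε * w ^ 2 / a ^ 2 = 2 * (2 * ε * w ^ 2 / a ^ 2) := by ring
  rw [e7]
  linarith

end Claimed.Agent.R285.B10
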