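import Claimed.Agent.R285.Flow.Defs

/-!
# ROW 285, layer FLOW, leaf BAL: the balance functionals [B] (8.17)-(8.18)                          (contract helper21)

Plan (no casts between the spaces `A j`):
* `lin_par`, `lin_re`: apply `par` / `real` to `ε • X`, use `quad`, divide by `ε`, let `ε → 0`.
* `ell j := ∏' k, lam (j + k)`; `Finset.norm_prod_one_add_sub_one_le`; `Σ_{k ≥ j} ‖lam k - 1‖ ≤ C e^{-c j} / (1 - e^{-c}) ≤ 1/4`; `e^x - 1 ≤ 2 x`.
* `S 0 j = 0`, `S (n+1) j = Pt j + (S n (j+1)).comp (Cc j)`; `‖S (n+1) j - S n j‖ ≤ C θ^n` by induction on `n` for all `j ≥ j0`;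
  `bt j := limUnder atTop (fun n => S n j)` in the Banach space `A j →L[ℂ] ℂ`.  Same for `bz` with `ell (j+1) • Pz j`.
* symmetries: by induction for `S n`, then pass to the (pointwise) limit.
-/

set_option autoImplicit false

namespace Claimed.Agent.R285.B10

open Filter Topology

/-- a homogeneous map which is quadratically small vanishes -/
theorem bal_homog_zero {E G : Type*} [NormedAddCommGroup E] [NormedSpace ℂ E] [NormedAddCommGroup G] [NormedSpace ℂ G]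
    (L : E → G) (ρ K : ℝ) (hρ : 0 < ρ)
    (hh : ∀ (ε : ℝ) (X : E), 0 < ε → L ((ε : ℂ) • X) = (ε : ℂ) • L X)
    (hq : ∀ X, ‖X‖ < ρ → ‖L X‖ ≤ K * ‖X‖ ^ 2) (X : E) : L X = 0 := by
  have h1 : Tendsto (fun ε : ℝ => K * ε * ‖X‖ ^ 2) (𝓝[>] 0) (𝓝 0) := by
    have : Tendsto (fun ε : ℝ => K * ε * ‖X‖ ^ 2) (𝓝 0) (𝓝 (K * 0 * ‖X‖ ^ 2)) := by
      apply Continuous.tendsto; fun_prop
    simpa using this.mono_left nhdsWithin_le_nhds
  have h2 : ∀ᶠ ε in 𝓝[>] (0 : ℝ), ‖L X‖ ≤ K * ε * ‖X‖ ^ 2 := by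
    have h3 : ∀ᶠ ε in 𝓝[>] (0 : ℝ), ε * ‖X‖ < ρ := by
      have : Tendsto (fun ε : ℝ => ε * ‖X‖) (𝓝 0) (𝓝 (0 * ‖X‖)) := by
        apply Continuous.tendsto; fun_prop
      rw [zero_mul] at this
      exact (this.mono_left nhdsWithin_le_nhds).eventually (Iio_mem_nhds hρ)
    filter_upwards [h3, self_mem_nhdsWithin] with ε h3 h4
    have h4' : 0 < ε := h4
    have hn : ‖(ε : ℂ) • X‖ = ε * ‖X‖ := by
      rw [norm_smul, Complex.norm_real, Real.norm_of_nonneg h4'.le]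
    have h5 := hq ((ε : ℂ) • X) (by rw [hn]; exact h3)
    rw [hh ε X h4', norm_smul, Complex.norm_real, Real.norm_of_nonneg h4'.le, hn] at h5
    have h6 : ε * ‖L X‖ ≤ ε * (K * ε * ‖X‖ ^ 2) := by
      calc ε * ‖L X‖ ≤ K * (ε * ‖X‖) ^ 2 := h5
        _ = ε * (K * ε * ‖X‖ ^ 2) := by ring
    exact le_of_mul_le_mul_left h6 h4'
  have h7 := ge_of_tendsto h1 h2
  exact norm_le_zero_iff.mp h7

theorem Raw.S_sub (F : Raw) (j : ℕ) (X Y : ℂ × ℂ × F.A j) : F.S j (X - Y) = F.S j X - F.S j Y := by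
  simp only [Raw.S, Prod.fst_sub, Prod.snd_sub, map_sub, Prod.mk_sub_mk]
  congr 2
  ring

theorem Raw.S_norm_le {κ : RawC} {F : Raw} (hF : RawOK κ F) (j : ℕ) (X : ℂ × ℂ × F.A j) : ‖F.S j X‖ ≤ ‖X‖ := by
  simp only [Raw.S]
  rw [norm_prod_le_iff]
  refine ⟨norm_fst_le X, ?_⟩
  rw [norm_prod_le_iff]
  refine ⟨?_, ?_⟩
  · simp only [norm_neg]
    exact (norm_fst_le X.2).trans (norm_snd_le X)
  · exact (hF.σ_bd j X.2.2).trans ((norm_snd_le X.2).trans (norm_snd_le X))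

theorem Raw.cj_sub {κ : RawC} {F : Raw} (hF : RawOK κ F) (j : ℕ) (hj : F.j0 ≤ j) (R R' : F.A j) :
    F.cj j (R - R') = F.cj j R - F.cj j R' := by
  have h1 : R - R' = R + (-1 : ℂ) • R' := by simp [sub_eq_add_neg]
  rw [h1, hF.cj_add j hj, hF.cj_smul j hj]
  simp [sub_eq_add_neg]

theorem Raw.K_sub {κ : RawC} {F : Raw} (hF : RawOK κ F) (j : ℕ) (hj : F.j0 ≤ j) (X Y : ℂ × ℂ × F.A j) :
    F.K j (X - Y) = F.K j X - F.K j Y := by
  simp only [Raw.K, Prod.fst_sub, Prod.snd_sub, map_sub, Prod.mk_sub_mk, Raw.cj_sub hF j hj]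

theorem Raw.K_norm_le {κ : RawC} {F : Raw} (hF : RawOK κ F) (j : ℕ) (hj : F.j0 ≤ j) (X : ℂ × ℂ × F.A j) : ‖F.K j X‖ ≤ ‖X‖ := by
  simp only [Raw.K]
  rw [norm_prod_le_iff]
  refine ⟨?_, ?_⟩
  · simp only [RCLike.norm_conj]
    exact norm_fst_le X
  rw [norm_prod_le_iff]
  refine ⟨?_, ?_⟩
  · simp only [RCLike.norm_conj]
    exact (norm_fst_le X.2).trans (norm_snd_le X)
  · exact (hF.cj_bd j hj _).trans ((norm_snd_le X.2).trans (norm_snd_le X))

theorem bal_norm3 {E : Type*} [NormedAddCommGroup E] (R : E) : ‖((0 : ℂ), (0 : ℂ), R)‖ = ‖R‖ := by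
  simp [Prod.norm_def]

/-- the linear part inherits the half-period symmetry -/
theorem lin_par (κ : RawC) (F : Raw) (hF : RawOK κ F) (j : ℕ) (hj : F.j0 ≤ j) (R : F.A j) :
    F.Pt j (F.σ j R) = F.Pt j R ∧ F.Pz j (F.σ j R) = -F.Pz j R ∧ F.Cc j (F.σ j R) = F.σ (j + 1) (F.Cc j R) := by
  have key := bal_homog_zero (fun R : F.A j => F.lin j (F.S j (0, 0, R)) - F.S (j + 1) (F.lin j (0, 0, R))) κ.ρ (2 * κ.C) κ.hρ
    (by
      intro ε X _
      simp only [Raw.lin, Raw.S, map_smul, Prod.mk_sub_mk, Prod.smul_mk, smul_sub, neg_zero, mul_zero, zero_add, smul_neg])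
    (by
      intro X hX
      have hX3 : ‖((0 : ℂ), (0 : ℂ), X)‖ = ‖X‖ := bal_norm3 X
      have hm : ((0 : ℂ), (0 : ℂ), X) ∈ Metric.ball (0 : ℂ × ℂ × F.A j) κ.ρ := by
        simp only [Metric.mem_ball, dist_zero_right]; rw [hX3]; exact hX
      have hSn := Raw.S_norm_le hF j ((0 : ℂ), (0 : ℂ), X)
      have hm2 : F.S j ((0 : ℂ), (0 : ℂ), X) ∈ Metric.ball (0 : ℂ × ℂ × F.A j) κ.ρ := by
        simp only [Metric.mem_ball, dist_zero_right]
        exact lt_of_le_of_lt hSn (by rw [hX3]; exact hX)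
      have q1 := hF.quad j hj _ hm
      have q2 := hF.quad j hj _ hm2
      have hp := hF.par j hj _ hm
      have e : F.lin j (F.S j (0, 0, X)) - F.S (j + 1) (F.lin j (0, 0, X)) =
          -(F.Φ j (F.S j (0, 0, X)) - F.lin j (F.S j (0, 0, X))) + F.S (j + 1) (F.Φ j (0, 0, X) - F.lin j (0, 0, X)) := by
        rw [Raw.S_sub, hp]; abel
      show ‖F.lin j (F.S j (0, 0, X)) - F.S (j + 1) (F.lin j (0, 0, X))‖ ≤ _
      rw [e]
      have n1 := norm_add_le (-(F.Φ j (F.S j (0, 0, X)) - F.lin j (F.S j (0, 0, X)))) (F.S (j + 1) (F.Φ j (0, 0, X) - F.lin j (0, 0, X)))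
      rw [norm_neg] at n1
      have n2 := Raw.S_norm_le hF (j + 1) (F.Φ j (0, 0, X) - F.lin j (0, 0, X))
      have n3 : κ.C * ‖F.S j ((0 : ℂ), (0 : ℂ), X)‖ ^ 2 ≤ κ.C * ‖X‖ ^ 2 := by
        refine mul_le_mul_of_nonneg_left ?_ (by linarith [κ.hC])
        rw [hX3] at hSn
        exact pow_le_pow_left₀ (norm_nonneg _) hSn 2
      rw [hX3] at q1
      linarith)
    R
  simp only [Raw.lin, Raw.S, Prod.mk_sub_mk, neg_zero, mul_zero, zero_add, Prod.mk_eq_zero] at key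
  obtain ⟨k1, k2, k3⟩ := key
  refine ⟨sub_eq_zero.mp k1, ?_, sub_eq_zero.mp k3⟩
  linear_combination k2

/-- the linear part is real -/
theorem lin_re (κ : RawC) (F : Raw) (hF : RawOK κ F) (j : ℕ) (hj : F.j0 ≤ j) (R : F.A j) :
    F.Pt j (F.cj j R) = starRingEnd ℂ (F.Pt j R) ∧ F.Pz j (F.cj j R) = starRingEnd ℂ (F.Pz j R) ∧
      F.Cc j (F.cj j R) = F.cj (j + 1) (F.Cc j R) := by
  have hj1 : F.j0 ≤ j + 1 := by omega
  have key := bal_homog_zero (fun R : F.A j => F.lin j (F.K j (0, 0, R)) - F.K (j + 1) (F.lin j (0, 0, R))) κ.ρ (2 * κ.C) κ.hρ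
    (by
      intro ε X _
      simp only [Raw.lin, Raw.K, map_smul, Prod.mk_sub_mk, Prod.smul_mk, smul_sub, map_zero, mul_zero, zero_add,
        hF.cj_smul j hj, hF.cj_smul (j + 1) hj1, Complex.conj_ofReal, smul_eq_mul, map_mul, mul_sub])
    (by
      intro X hX
      have hX3 : ‖((0 : ℂ), (0 : ℂ), X)‖ = ‖X‖ := bal_norm3 X
      have hm : ((0 : ℂ), (0 : ℂ), X) ∈ Metric.ball (0 : ℂ × ℂ × F.A j) κ.ρ := by
        simp only [Metric.mem_ball, dist_zero_right]; rw [hX3]; exact hX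
      have hSn := Raw.K_norm_le hF j hj ((0 : ℂ), (0 : ℂ), X)
      have hm2 : F.K j ((0 : ℂ), (0 : ℂ), X) ∈ Metric.ball (0 : ℂ × ℂ × F.A j) κ.ρ := by
        simp only [Metric.mem_ball, dist_zero_right]
        exact lt_of_le_of_lt hSn (by rw [hX3]; exact hX)
      have q1 := hF.quad j hj _ hm
      have q2 := hF.quad j hj _ hm2
      have hp := hF.real j hj _ hm
      have e : F.lin j (F.K j (0, 0, X)) - F.K (j + 1) (F.lin j (0, 0, X)) =
          -(F.Φ j (F.K j (0, 0, X)) - F.lin j (F.K j (0, 0, X))) + F.K (j + 1) (F.Φ j (0, 0, X) - F.lin j (0, 0, X)) := by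
        rw [Raw.K_sub hF (j + 1) hj1, hp]; abel
      show ‖F.lin j (F.K j (0, 0, X)) - F.K (j + 1) (F.lin j (0, 0, X))‖ ≤ _
      rw [e]
      have n1 := norm_add_le (-(F.Φ j (F.K j (0, 0, X)) - F.lin j (F.K j (0, 0, X)))) (F.K (j + 1) (F.Φ j (0, 0, X) - F.lin j (0, 0, X)))
      rw [norm_neg] at n1
      have n2 := Raw.K_norm_le hF (j + 1) hj1 (F.Φ j (0, 0, X) - F.lin j (0, 0, X))
      have n3 : κ.C * ‖F.K j ((0 : ℂ), (0 : ℂ), X)‖ ^ 2 ≤ κ.C * ‖X‖ ^ 2 := by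
        refine mul_le_mul_of_nonneg_left ?_ (by linarith [κ.hC])
        rw [hX3] at hSn
        exact pow_le_pow_left₀ (norm_nonneg _) hSn 2
      rw [hX3] at q1
      linarith)
    R
  simp only [Raw.lin, Raw.K, Prod.mk_sub_mk, map_zero, mul_zero, zero_add, Prod.mk_eq_zero] at key
  obtain ⟨k1, k2, k3⟩ := key
  exact ⟨sub_eq_zero.mp k1, sub_eq_zero.mp k2, sub_eq_zero.mp k3⟩

/-- function version of uniqueness -/
theorem bal_unique_fun (κ : RawC) (F : Raw) (hF : RawOK κ F) (M : ℝ) (D : ∀ j, F.A j → ℂ)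
    (hb : ∀ j, F.j0 ≤ j → ∀ R, ‖D j R‖ ≤ M * ‖R‖) (hrec : ∀ j, F.j0 ≤ j → ∀ R, D j R = D (j + 1) (F.Cc j R)) :
    ∀ j, F.j0 ≤ j → ∀ R, D j R = 0 := by
  have hM : ∀ j, F.j0 ≤ j → ∀ R : F.A j, ‖D j R‖ ≤ |M| * ‖R‖ := fun j hj R =>
    (hb j hj R).trans (mul_le_mul_of_nonneg_right (le_abs_self M) (norm_nonneg _))
  have key : ∀ n : ℕ, ∀ j, F.j0 ≤ j → ∀ R : F.A j, ‖D j R‖ ≤ |M| * κ.θ ^ n * ‖R‖ := by
    intro n
    induction n with
    | zero => intro j hj R; simpa using hM j hj R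
    | succ n ih =>
      intro j hj R
      rw [hrec j hj R]
      have h1 := ih (j + 1) (by omega) (F.Cc j R)
      have h2 : ‖F.Cc j R‖ ≤ κ.θ * ‖R‖ :=
        ((F.Cc j).le_opNorm R).trans (mul_le_mul_of_nonneg_right (hF.Cc_bd j hj) (norm_nonneg _))
      have h3 : |M| * κ.θ ^ n * ‖F.Cc j R‖ ≤ |M| * κ.θ ^ n * (κ.θ * ‖R‖) :=
        mul_le_mul_of_nonneg_left h2 (mul_nonneg (abs_nonneg _) (pow_nonneg κ.hθ0.le _))
      calc ‖D (j + 1) (F.Cc j R)‖ ≤ |M| * κ.θ ^ n * (κ.θ * ‖R‖) := h1.trans h3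
        _ = |M| * κ.θ ^ (n + 1) * ‖R‖ := by ring
  intro j hj R
  have h1 : Tendsto (fun n : ℕ => |M| * κ.θ ^ n * ‖R‖) atTop (𝓝 (|M| * 0 * ‖R‖)) :=
    ((tendsto_pow_atTop_nhds_zero_of_lt_one κ.hθ0.le κ.hθ).const_mul _).mul_const _
  rw [mul_zero, zero_mul] at h1
  have h2 := ge_of_tendsto' h1 (fun n => key n j hj R)
  exact norm_le_zero_iff.mp h2

/-- the tail sums -/
noncomputable def RawC.sj (κ : RawC) (j : ℕ) : ℝ := κ.C * Real.exp (-κ.c * j) / (1 - Real.exp (-κ.c))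

theorem RawC.exp_lt_one (κ : RawC) : Real.exp (-κ.c) < 1 := by
  rw [Real.exp_lt_one_iff]; linarith [κ.hc]

theorem RawC.sj_nonneg (κ : RawC) (j : ℕ) : 0 ≤ κ.sj j := by
  have h1 := κ.exp_lt_one
  have h2 := κ.hC
  unfold RawC.sj
  have : 0 < 1 - Real.exp (-κ.c) := by linarith
  positivity

theorem RawC.sj_anti (κ : RawC) {i j : ℕ} (h : i ≤ j) : κ.sj j ≤ κ.sj i := by
  have h1 := κ.exp_lt_one
  have h2 := κ.hC
  have h3 := κ.hc
  unfold RawC.sj
  have h4 : 0 < 1 - Real.exp (-κ.c) := by linarith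
  have h5 : Real.exp (-κ.c * j) ≤ Real.exp (-κ.c * i) := by
    apply Real.exp_le_exp.mpr
    have : (i : ℝ) ≤ j := by exact_mod_cast h
    nlinarith
  gcongr

theorem bal_sum_le (κ : RawC) (F : Raw) (hF : RawOK κ F) (j : ℕ) (hj : F.j0 ≤ j) (n : ℕ) :
    ∑ k ∈ Finset.range n, ‖F.lam (j + k) - 1‖ ≤ κ.sj j := by
  have h1 := κ.exp_lt_one
  have h2 := κ.hC
  have h4 : 0 < 1 - Real.exp (-κ.c) := by linarith
  have h5 : ∀ k ∈ Finset.range n, ‖F.lam (j + k) - 1‖ ≤ κ.C * Real.exp (-κ.c * j) * Real.exp (-κ.c) ^ k := by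
    intro k _
    have := hF.lam_bd (j + k) (by omega)
    have e : Real.exp (-κ.c * ((j + k : ℕ) : ℝ)) = Real.exp (-κ.c * j) * Real.exp (-κ.c) ^ k := by
      rw [← Real.exp_nat_mul, ← Real.exp_add]
      congr 1
      push_cast
      ring
    rw [e] at this
    linarith
  refine (Finset.sum_le_sum h5).trans ?_
  rw [← Finset.mul_sum]
  unfold RawC.sj
  rw [div_eq_mul_inv]
  refine mul_le_mul_of_nonneg_left ?_ (by positivity)
  rw [← tsum_geometric_of_lt_one (Real.exp_pos _).le h1]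
  exact (summable_geometric_of_lt_one (Real.exp_pos _).le h1).sum_le_tsum _ (fun _ _ => by positivity)

/-- partial products -/
noncomputable def Raw.pp (F : Raw) (n j : ℕ) : ℂ := ∏ k ∈ Finset.range n, F.lam (j + k)

theorem bal_pp_bd (κ : RawC) (F : Raw) (hF : RawOK κ F) (j : ℕ) (hj : F.j0 ≤ j) (n : ℕ) :
    ‖F.pp n j - 1‖ ≤ 2 * κ.sj j ∧ κ.sj j ≤ 1 / 4 := by
  have hs : κ.sj j ≤ 1 / 4 := (κ.sj_anti hj).trans hF.lam_sm
  refine ⟨?_, hs⟩
  have h1 := Finset.norm_prod_one_add_sub_one_le (Finset.range n) (fun k => F.lam (j + k) - 1)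
  simp only [add_sub_cancel] at h1
  have h2 := bal_sum_le κ F hF j hj n
  have h3 : 0 ≤ ∑ k ∈ Finset.range n, ‖F.lam (j + k) - 1‖ := Finset.sum_nonneg fun _ _ => norm_nonneg _
  have h4 := Real.abs_exp_sub_one_le (x := ∑ k ∈ Finset.range n, ‖F.lam (j + k) - 1‖) (by rw [abs_of_nonneg h3]; linarith)
  rw [abs_of_nonneg h3] at h4
  have h5 := le_abs_self (Real.exp (∑ k ∈ Finset.range n, ‖F.lam (j + k) - 1‖) - 1)
  unfold Raw.pp
  linarith

theorem bal_pp_succ (F : Raw) (n j : ℕ) : F.pp (n + 1) j = F.lam j * F.pp n (j + 1) := by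
  unfold Raw.pp
  rw [Finset.prod_range_succ']
  simp only [add_zero]
  rw [mul_comm]
  congr 1
  apply Finset.prod_congr rfl
  intro k _
  congr 1
  omega

theorem bal_pp_im (κ : RawC) (F : Raw) (hF : RawOK κ F) (j : ℕ) (hj : F.j0 ≤ j) (n : ℕ) : (F.pp n j).im = 0 := by
  induction n with
  | zero => simp [Raw.pp]
  | succ n ih =>
    unfold Raw.pp at ih ⊢
    rw [Finset.prod_range_succ, Complex.mul_im, ih, hF.lam_re (j + n) (by omega)]
    simp

theorem bal_pp_tendsto (κ : RawC) (F : Raw) (hF : RawOK κ F) (j : ℕ) (hj : F.j0 ≤ j) :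
    ∃ l : ℂ, Tendsto (fun n => F.pp n j) atTop (𝓝 l) := by
  apply cauchySeq_tendsto_of_complete
  apply cauchySeq_of_le_geometric (Real.exp (-κ.c)) (3 / 2 * (κ.C * Real.exp (-κ.c * j))) κ.exp_lt_one
  intro n
  rw [dist_eq_norm]
  have e : F.pp n j - F.pp (n + 1) j = F.pp n j * (1 - F.lam (j + n)) := by
    unfold Raw.pp
    rw [Finset.prod_range_succ]; ring
  rw [e, norm_mul, norm_sub_rev 1]
  obtain ⟨h1, h2⟩ := bal_pp_bd κ F hF j hj n
  have h3 : ‖F.pp n j‖ ≤ 3 / 2 := by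
    have := norm_sub_norm_le (F.pp n j) 1
    rw [norm_one] at this
    linarith
  have h4 := hF.lam_bd (j + n) (by omega)
  have e2 : Real.exp (-κ.c * ((j + n : ℕ) : ℝ)) = Real.exp (-κ.c * j) * Real.exp (-κ.c) ^ n := by
    rw [← Real.exp_nat_mul, ← Real.exp_add]
    congr 1
    push_cast
    ring
  rw [e2] at h4
  calc ‖F.pp n j‖ * ‖F.lam (j + n) - 1‖ ≤ 3 / 2 * (κ.C * (Real.exp (-κ.c * j) * Real.exp (-κ.c) ^ n)) :=
        mul_le_mul h3 h4 (norm_nonneg _) (by norm_num)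
    _ = _ := by ring

/-- existence of `ℓ` -/
theorem bal_ell_exists (κ : RawC) (F : Raw) (hF : RawOK κ F) : ∃ ell : ℕ → ℂ,
    (∀ j, F.j0 ≤ j → ell j = F.lam j * ell (j + 1)) ∧
    (∀ j, F.j0 ≤ j → ‖ell j - 1‖ ≤ 2 * κ.sj j ∧ ‖ell j - 1‖ ≤ 1 / 2) ∧ (∀ j, F.j0 ≤ j → (ell j).im = 0) := by
  classical
  have hex := bal_pp_tendsto κ F hF
  refine ⟨fun j => if hj : F.j0 ≤ j then (hex j hj).choose else 0, ?_, ?_, ?_⟩
  · intro j hj
    have hj1 : F.j0 ≤ j + 1 := by omega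
    simp only [hj, hj1, dif_pos]
    have t1 := (hex j hj).choose_spec
    have t2 := (hex (j + 1) hj1).choose_spec
    have t3 : Tendsto (fun n => F.pp (n + 1) j) atTop (𝓝 (hex j hj).choose) := t1.comp (tendsto_add_atTop_nat 1)
    have t4 : Tendsto (fun n => F.pp (n + 1) j) atTop (𝓝 (F.lam j * (hex (j + 1) hj1).choose)) := by
      simp only [bal_pp_succ]
      exact t2.const_mul _
    exact tendsto_nhds_unique t3 t4
  · intro j hj
    simp only [hj, dif_pos]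
    have t1 := (hex j hj).choose_spec
    have t2 : Tendsto (fun n => ‖F.pp n j - 1‖) atTop (𝓝 ‖(hex j hj).choose - 1‖) := (t1.sub_const 1).norm
    have t3 := le_of_tendsto' t2 (fun n => (bal_pp_bd κ F hF j hj n).1)
    refine ⟨t3, ?_⟩
    have := (bal_pp_bd κ F hF j hj 0).2
    linarith
  · intro j hj
    simp only [hj, dif_pos]
    have t1 := (hex j hj).choose_spec
    have t2 : Tendsto (fun n => (F.pp n j).im) atTop (𝓝 ((hex j hj).choose).im) :=
      (Complex.continuous_im.tendsto _).comp t1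
    simp only [bal_pp_im κ F hF j hj] at t2
    exact (tendsto_nhds_unique t2 tendsto_const_nhds)

/-- the partial sums of the balance series -/
noncomputable def Raw.bS (F : Raw) (P : ∀ j, F.A j →L[ℂ] ℂ) : ℕ → ∀ j, F.A j →L[ℂ] ℂ
  | 0, _ => 0
  | n + 1, j => P j + (Raw.bS F P n (j + 1)).comp (F.Cc j)

theorem bal_bS_diff (κ : RawC) (F : Raw) (hF : RawOK κ F) (P : ∀ j, F.A j →L[ℂ] ℂ) (M : ℝ)
    (hP : ∀ j, F.j0 ≤ j → ‖P j‖ ≤ M) (n : ℕ) : ∀ j, F.j0 ≤ j → ‖F.bS P n j - F.bS P (n + 1) j‖ ≤ M * κ.θ ^ n := by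
  induction n with
  | zero =>
    intro j hj
    simp only [Raw.bS, ContinuousLinearMap.zero_comp, add_zero, zero_sub, norm_neg, pow_zero, mul_one]
    exact hP j hj
  | succ n ih =>
    intro j hj
    have e : F.bS P (n + 1) j - F.bS P (n + 1 + 1) j = (F.bS P n (j + 1) - F.bS P (n + 1) (j + 1)).comp (F.Cc j) := by
      rw [ContinuousLinearMap.sub_comp]
      conv_lhs => rw [Raw.bS, Raw.bS]
      abel
    rw [e]
    have hM : 0 ≤ M := (norm_nonneg _).trans (hP j hj)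
    calc ‖(F.bS P n (j + 1) - F.bS P (n + 1) (j + 1)).comp (F.Cc j)‖
        ≤ ‖F.bS P n (j + 1) - F.bS P (n + 1) (j + 1)‖ * ‖F.Cc j‖ := ContinuousLinearMap.opNorm_comp_le _ _
      _ ≤ (M * κ.θ ^ n) * κ.θ := mul_le_mul (ih (j + 1) (by omega)) (hF.Cc_bd j hj) (norm_nonneg _)
          (mul_nonneg hM (pow_nonneg κ.hθ0.le _))
      _ = M * κ.θ ^ (n + 1) := by ring

/-- existence of bounded solutions of the inhomogeneous balance recursion -/
theorem bal_series_exists (κ : RawC) (F : Raw) (hF : RawOK κ F) (P : ∀ j, F.A j →L[ℂ] ℂ) (M : ℝ)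
    (hP : ∀ j, F.j0 ≤ j → ‖P j‖ ≤ M) : ∃ b : ∀ j, F.A j →L[ℂ] ℂ,
    (∀ j, F.j0 ≤ j → ∀ R, b j R = P j R + b (j + 1) (F.Cc j R)) ∧ (∀ j, F.j0 ≤ j → ‖b j‖ ≤ M / (1 - κ.θ)) := by
  classical
  have hd : ∀ j, F.j0 ≤ j → ∀ n, dist (F.bS P n j) (F.bS P (n + 1) j) ≤ M * κ.θ ^ n := by
    intro j hj n
    rw [dist_eq_norm]
    exact bal_bS_diff κ F hF P M hP n j hj
  have hex : ∀ j, F.j0 ≤ j → ∃ l, Tendsto (fun n => F.bS P n j) atTop (𝓝 l) := fun j hj =>
    cauchySeq_tendsto_of_complete (cauchySeq_of_le_geometric κ.θ M κ.hθ (hd j hj))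
  refine ⟨fun j => if hj : F.j0 ≤ j then (hex j hj).choose else 0, ?_, ?_⟩
  · intro j hj R
    have hj1 : F.j0 ≤ j + 1 := by omega
    simp only [hj, hj1, dif_pos]
    have t1 := (hex j hj).choose_spec
    have t2 := (hex (j + 1) hj1).choose_spec
    have ev : ∀ (i : ℕ) (x : F.A i) (l : F.A i →L[ℂ] ℂ), Tendsto (fun n => F.bS P n i) atTop (𝓝 l) →
        Tendsto (fun n => F.bS P n i x) atTop (𝓝 (l x)) := by
      intro i x l hl
      exact ((ContinuousLinearMap.apply ℂ ℂ x).continuous.tendsto l).comp hl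
    have t3 : Tendsto (fun n => F.bS P (n + 1) j R) atTop (𝓝 ((hex j hj).choose R)) :=
      (ev j R _ t1).comp (tendsto_add_atTop_nat 1)
    have t4 : Tendsto (fun n => F.bS P (n + 1) j R) atTop (𝓝 (P j R + (hex (j + 1) hj1).choose (F.Cc j R))) := by
      simp only [Raw.bS, add_apply, ContinuousLinearMap.comp_apply]
      exact (ev (j + 1) (F.Cc j R) _ t2).const_add _
    exact tendsto_nhds_unique t3 t4
  · intro j hj
    simp only [hj, dif_pos]
    have t1 := (hex j hj).choose_spec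
    have := dist_le_of_le_geometric_of_tendsto₀ κ.θ M κ.hθ (hd j hj) t1
    simpa [Raw.bS, dist_eq_norm] using this

/-- **T1** ([B] (8.17)-(8.18)): the balance functionals exist, with constants depending only on `κ` -/
theorem balance_exists (κ : RawC) : ∃ C1 : ℝ, 1 ≤ C1 ∧ ∀ F : Raw, RawOK κ F →
    ∃ (ell : ℕ → ℂ) (bt bz : ∀ j, F.A j →L[ℂ] ℂ), ∀ ci, BalOK κ C1 F ⟨ell, bt, bz, ci⟩ := by
  have hC := κ.hC
  have hθ0 := κ.hθ0
  have hθ := κ.hθ
  have he := κ.exp_lt_one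
  have h1θ : 0 < 1 - κ.θ := by linarith
  have h1e : 0 < 1 - Real.exp (-κ.c) := by linarith
  obtain ⟨Ca, hCa⟩ : ∃ Ca : ℝ, Ca = 2 * κ.C / (1 - Real.exp (-κ.c)) := ⟨_, rfl⟩
  obtain ⟨Cb, hCb⟩ : ∃ Cb : ℝ, Cb = 2 * κ.C / (1 - κ.θ) := ⟨_, rfl⟩
  have hCa0 : 0 ≤ Ca := by rw [hCa]; positivity
  have hCb1 : 1 ≤ Cb := by
    rw [hCb, le_div_iff₀ h1θ]; linarith
  refine ⟨Ca + Cb, by linarith, ?_⟩
  intro F hF
  obtain ⟨ell, l1, l2, l3⟩ := bal_ell_exists κ F hF
  have hln : ∀ j, F.j0 ≤ j → ‖ell j‖ ≤ 3 / 2 := by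
    intro j hj
    have := norm_sub_norm_le (ell j) 1
    rw [norm_one] at this
    linarith [(l2 j hj).2]
  have hconj : ∀ j, F.j0 ≤ j → starRingEnd ℂ (ell j) = ell j := fun j hj => Complex.conj_eq_iff_im.mpr (l3 j hj)
  obtain ⟨bt, t1, t2⟩ := bal_series_exists κ F hF F.Pt κ.C hF.Pt_bd
  obtain ⟨bz, z1, z2⟩ := bal_series_exists κ F hF (fun j => ell (j + 1) • F.Pz j) (2 * κ.C) (by
    intro j hj
    rw [norm_smul]
    calc ‖ell (j + 1)‖ * ‖F.Pz j‖ ≤ 3 / 2 * κ.C := mul_le_mul (hln (j + 1) (by omega)) (hF.Pz_bd j hj) (norm_nonneg _) (by norm_num)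
      _ ≤ 2 * κ.C := by linarith)
  have t2' : ∀ j, F.j0 ≤ j → ‖bt j‖ ≤ Cb := by
    intro j hj
    refine (t2 j hj).trans ?_
    rw [hCb]
    gcongr
    linarith
  have z2' : ∀ j, F.j0 ≤ j → ‖bz j‖ ≤ Cb := fun j hj => (z2 j hj).trans hCb.ge
  have z1' : ∀ j, F.j0 ≤ j → ∀ R, bz j R = ell (j + 1) * F.Pz j R + bz (j + 1) (F.Cc j R) := by
    intro j hj R
    simpa using z1 j hj R
  have hbd : ∀ (b : ∀ j, F.A j →L[ℂ] ℂ), (∀ j, F.j0 ≤ j → ‖b j‖ ≤ Cb) → ∀ j, F.j0 ≤ j → ∀ R R' : F.A j, ‖R'‖ ≤ ‖R‖ →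
      ‖b j R'‖ ≤ Cb * ‖R‖ := by
    intro b hb j hj R R' hR
    calc ‖b j R'‖ ≤ ‖b j‖ * ‖R'‖ := (b j).le_opNorm R'
      _ ≤ Cb * ‖R‖ := mul_le_mul (hb j hj) hR (norm_nonneg _) (by linarith)
  refine ⟨ell, bt, bz, fun ci => ?_⟩
  refine
    { ell_rec := l1
      ell_bd := ?_
      ell_re := l3
      bt_rec := t1
      bz_rec := z1'
      bt_bd := fun j hj => (t2' j hj).trans (by linarith)
      bz_bd := fun j hj => (z2' j hj).trans (by linarith)
      bt_par := ?_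
      bz_par := ?_
      bt_re := ?_
      bz_re := ?_ }
  · intro j hj
    refine ⟨?_, (l2 j hj).2⟩
    refine (l2 j hj).1.trans ?_
    have e : 2 * κ.sj j = Ca * Real.exp (-κ.c * j) := by
      rw [hCa]; unfold RawC.sj; ring
    rw [e]
    exact mul_le_mul_of_nonneg_right (by linarith) (Real.exp_pos _).le
  · intro j hj R
    have := bal_unique_fun κ F hF (2 * Cb) (fun j R => bt j (F.σ j R) - bt j R)
      (by
        intro j hj R
        have a1 := hbd bt t2' j hj R (F.σ j R) (hF.σ_bd j R)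
        have a2 := hbd bt t2' j hj R R le_rfl
        have a3 := norm_sub_le (bt j (F.σ j R)) (bt j R)
        linarith)
      (by
        intro j hj R
        obtain ⟨p1, p2, p3⟩ := lin_par κ F hF j hj R
        show bt j (F.σ j R) - bt j R = bt (j + 1) (F.σ (j + 1) (F.Cc j R)) - bt (j + 1) (F.Cc j R)
        rw [t1 j hj, t1 j hj R, p1, p3]
        ring) j hj R
    exact sub_eq_zero.mp this
  · intro j hj R
    have := bal_unique_fun κ F hF (2 * Cb) (fun j R => bz j (F.σ j R) + bz j R)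
      (by
        intro j hj R
        have a1 := hbd bz z2' j hj R (F.σ j R) (hF.σ_bd j R)
        have a2 := hbd bz z2' j hj R R le_rfl
        have a3 := norm_add_le (bz j (F.σ j R)) (bz j R)
        linarith)
      (by
        intro j hj R
        obtain ⟨p1, p2, p3⟩ := lin_par κ F hF j hj R
        show bz j (F.σ j R) + bz j R = bz (j + 1) (F.σ (j + 1) (F.Cc j R)) + bz (j + 1) (F.Cc j R)
        rw [z1' j hj, z1' j hj R, p2, p3]
        ring) j hj R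
    exact eq_neg_of_add_eq_zero_left this
  · intro j hj R
    have := bal_unique_fun κ F hF (2 * Cb) (fun j R => starRingEnd ℂ (bt j (F.cj j R)) - bt j R)
      (by
        intro j hj R
        have a1 := hbd bt t2' j hj R (F.cj j R) (hF.cj_bd j hj R)
        have a2 := hbd bt t2' j hj R R le_rfl
        have a3 := norm_sub_le (starRingEnd ℂ (bt j (F.cj j R))) (bt j R)
        rw [RCLike.norm_conj] at a3
        linarith)
      (by
        intro j hj R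
        obtain ⟨p1, p2, p3⟩ := lin_re κ F hF j hj R
        show starRingEnd ℂ (bt j (F.cj j R)) - bt j R
          = starRingEnd ℂ (bt (j + 1) (F.cj (j + 1) (F.Cc j R))) - bt (j + 1) (F.Cc j R)
        rw [t1 j hj, t1 j hj R, p1, p3, map_add, Complex.conj_conj]
        ring) j hj R
    have h2 : starRingEnd ℂ (bt j (F.cj j R)) = bt j R := sub_eq_zero.mp this
    rw [← h2, Complex.conj_conj]
  · intro j hj R
    have := bal_unique_fun κ F hF (2 * Cb) (fun j R => starRingEnd ℂ (bz j (F.cj j R)) - bz j R)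
      (by
        intro j hj R
        have a1 := hbd bz z2' j hj R (F.cj j R) (hF.cj_bd j hj R)
        have a2 := hbd bz z2' j hj R R le_rfl
        have a3 := norm_sub_le (starRingEnd ℂ (bz j (F.cj j R))) (bz j R)
        rw [RCLike.norm_conj] at a3
        linarith)
      (by
        intro j hj R
        obtain ⟨p1, p2, p3⟩ := lin_re κ F hF j hj R
        show starRingEnd ℂ (bz j (F.cj j R)) - bz j R
          = starRingEnd ℂ (bz (j + 1) (F.cj (j + 1) (F.Cc j R))) - bz (j + 1) (F.Cc j R)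
        rw [z1' j hj, z1' j hj R, p2, p3, map_add, map_mul, Complex.conj_conj, hconj (j + 1) (by omega)]
        ring) j hj R
    have h2 : starRingEnd ℂ (bz j (F.cj j R)) = bz j R := sub_eq_zero.mp this
    rw [← h2, Complex.conj_conj]

/-- bounded solutions of the balance recursions are unique (identification with the series of [B] (8.17)-(8.18) in post B8) -/
theorem balance_unique (κ : RawC) (F : Raw) (hF : RawOK κ F) (M : ℝ) (D : ∀ j, F.A j →L[ℂ] ℂ)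
    (hb : ∀ j, F.j0 ≤ j → ‖D j‖ ≤ M) (hrec : ∀ j, F.j0 ≤ j → ∀ R, D j R = D (j + 1) (F.Cc j R)) :
    ∀ j, F.j0 ≤ j → D j = 0 := by
  intro j hj
  ext R
  exact bal_unique_fun κ F hF M (fun j R => D j R)
    (fun j hj R => ((D j).le_opNorm R).trans (mul_le_mul_of_nonneg_right (hb j hj) (norm_nonneg _))) hrec j hj R

/-- `ℓ` is unique as well -/
theorem ell_unique (κ : RawC) (F : Raw) (hF : RawOK κ F) (e e' : ℕ → ℂ)
    (h : ∀ j, F.j0 ≤ j → e j = F.lam j * e (j + 1)) (h' : ∀ j, F.j0 ≤ j → e' j = F.lam j * e' (j + 1))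
    (l : Tendsto e atTop (𝓝 1)) (l' : Tendsto e' atTop (𝓝 1)) : ∀ j, F.j0 ≤ j → e j = e' j := by
  intro j hj
  have key : ∀ n : ℕ, e j - e' j = F.pp n j * (e (j + n) - e' (j + n)) := by
    intro n
    induction n with
    | zero => simp [Raw.pp]
    | succ n ih =>
      rw [ih, h (j + n) (by omega), h' (j + n) (by omega)]
      unfold Raw.pp
      rw [Finset.prod_range_succ]
      rw [← add_assoc]
      ring
  have h1 : Tendsto (fun n => e (j + n) - e' (j + n)) atTop (𝓝 (1 - 1)) := by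
    have a1 : Tendsto (fun n => j + n) atTop atTop := tendsto_atTop_mono (fun n => Nat.le_add_left n j) tendsto_id
    exact (l.comp a1).sub (l'.comp a1)
  rw [sub_self] at h1
  have h2 : Tendsto (fun n => 3 / 2 * ‖e (j + n) - e' (j + n)‖) atTop (𝓝 (3 / 2 * 0)) :=
    (tendsto_zero_iff_norm_tendsto_zero.mp h1).const_mul _
  rw [mul_zero] at h2
  have h3 : ∀ n, ‖e j - e' j‖ ≤ 3 / 2 * ‖e (j + n) - e' (j + n)‖ := by
    intro n
    obtain ⟨b1, b2⟩ := bal_pp_bd κ F hF j hj n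
    have b3 : ‖F.pp n j‖ ≤ 3 / 2 := by
      have := norm_sub_norm_le (F.pp n j) 1
      rw [norm_one] at this
      linarith
    conv_lhs => rw [key n]
    rw [norm_mul]
    exact mul_le_mul_of_nonneg_right b3 (norm_nonneg _)
  have h4 := ge_of_tendsto' h2 h3
  exact sub_eq_zero.mp (norm_le_zero_iff.mp h4)

end Claimed.Agent.R285.B10
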