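import Claimed.Agent.R285.Flow.CauchyHist

/-!
# ROW 285, package CAUCHY, part 4: the small tube in the SUP norm, crude propagation, analytic continuation     (helper90)

Source: [E] Section 4, first page (choice of the tube: `‖DN‖ ≤ e^γ`), first paragraph of the proof of P4.1 (crude bound `C s² e^{γ j}`),
(4.17) (crude proximity) and the paragraph before (4.22) (analytic continuation on the disk `ρ_J`, Cauchy for the second derivative).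

Everything is a consequence of `TubeOK κ ε ρ2` (`cau_tube`).  `Λ` is any number `≥ 1 + 2 ρ2 + 2 ε` (e.g. `e^γ`).

* §1 sup-norm bounds of `DN`, `D sc` and Lipschitz bounds of `N`, `sc`, `Ψ`, `Q₊`, `eV`, `eP`, `eM` on the closed tube;
* §2 crude propagation of a displacement of the entry (complex parameters allowed): `cau_prop_st`, `cau_prop_tor`;
* §3 crude bounds of the temperature derivatives: `cau_crude_dst`, `cau_crude_dtor`;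
* §4 entry: `EntryOK.Y0_lip`, `Y0_deriv`, `T0_lip`, `T0_deriv`;
* §5 analytic continuation in the parameter and second order Taylor remainders: `cau_cont_st`, `cau_cont_tor`, `cau_taylor_st`, `cau_taylor_tor`.
-/

set_option autoImplicit false

namespace Claimed.Agent.R285.Flow

open Metric Set Filter Topology Claims.C0459

noncomputable section

variable {κ : MapC} {H : Hist}

/-! ## 1. Sup-norm bounds on the closed tube -/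

theorem DBd.norm_le {Qs F : Type} [NormedAddCommGroup Qs] [NormedSpace ℂ Qs] [NormedAddCommGroup F] [NormedSpace ℂ F]
    {g : ℂ × ℂ × Qs → F} {Y : ℂ × ℂ × Qs} {a b : ℝ} (h : DBd g Y a b) (ha : 0 ≤ a) (hb : 0 ≤ b) (v : ℂ × ℂ × Qs) :
    ‖fderiv ℂ g Y v‖ ≤ (a + b) * ‖v‖ := by
  refine (h v).trans ?_
  rw [add_mul]
  exact add_le_add (mul_le_mul_of_nonneg_left (cau_wn_le_norm v) ha) (mul_le_mul_of_nonneg_left (cau_q_le_norm v) hb)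

theorem cau_cball_convex {E : Type} [NormedAddCommGroup E] [NormedSpace ℂ E] (r : ℝ) :
    Convex ℝ (closedBall (0 : E) r) := convex_closedBall 0 r

theorem cau_cball_subset {E : Type} [NormedAddCommGroup E] {r ρ : ℝ} (h : r < ρ) :
    closedBall (0 : E) r ⊆ ball 0 ρ := closedBall_subset_ball h

/-- the Lipschitz constant of the coordinate change `sc` in the tube. -/
def MapC.Ks (κ : MapC) : ℝ := κ.ks + 11 * κ.C

theorem MapC.ks_nonneg (κ : MapC) : 0 ≤ κ.ks := le_max_of_le_left (by have := κ.bs_pos; positivity)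

theorem MapC.one_le_Ks (κ : MapC) : 1 ≤ κ.Ks := by
  unfold MapC.Ks
  have := κ.ks_nonneg
  have := κ.hC
  linarith

namespace TubeOK

variable {ε ρ2 Λ : ℝ}

/-- **the derivative of the plane map has norm `≤ Λ` in the tube** ([E] Section 4, choice of the tube). -/
theorem N_norm (hT : TubeOK κ ε ρ2) (hε : 0 ≤ ε) (hΛ : 1 + 2 * ρ2 + 2 * ε ≤ Λ) (hM : MapOK κ H) {j : ℕ}
    (hj : H.j0 ≤ j) {Y : ℂ × ℂ × H.Q j} (hY : ‖Y‖ ≤ ρ2) (v : ℂ × ℂ × H.Q j) :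
    ‖fderiv ℂ (H.N j) Y v‖ ≤ Λ * ‖v‖ := by
  have hYρ : ‖Y‖ < κ.ρ := lt_of_le_of_lt hY hT.lt
  have hv := norm_nonneg v
  have hρ2 := hT.pos
  have hv1 : ‖v.1‖ ≤ ‖v‖ := (le_max_left _ _).trans (cau_wn_le_norm v)
  have hv2 : ‖v.2.1‖ ≤ ‖v‖ := (le_max_right _ _).trans (cau_wn_le_norm v)
  have hY1 : ‖Y.1‖ ≤ ρ2 := ((le_max_left _ _).trans (cau_wn_le_norm Y)).trans hY
  have hY2 : ‖Y.2.1‖ ≤ ρ2 := ((le_max_right _ _).trans (cau_wn_le_norm Y)).trans hY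
  have hfin : (1 + 2 * ρ2 + 2 * ε) * ‖v‖ ≤ Λ * ‖v‖ := mul_le_mul_of_nonneg_right hΛ hv
  refine le_trans ?_ hfin
  rw [Prod.norm_def, Prod.norm_def]
  refine max_le ?_ (max_le ?_ ?_)
  · rw [hM.fderiv_N_x hj hYρ v]
    have h1 := (hT.eX H hM j hj Y hY).norm_le hε hε v
    have h2 : ‖2 * Y.2.1 * v.2.1‖ ≤ 2 * ρ2 * ‖v‖ := by
      rw [norm_mul, norm_mul]
      have : ‖(2 : ℂ)‖ = 2 := by simp
      rw [this]
      exact mul_le_mul (mul_le_mul_of_nonneg_left hY2 zero_le_two) hv2 (norm_nonneg _) (by positivity)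
    calc _ ≤ ‖v.1 - 2 * Y.2.1 * v.2.1‖ + ‖fderiv ℂ (H.eX j) Y v‖ := norm_add_le _ _
      _ ≤ (‖v.1‖ + ‖2 * Y.2.1 * v.2.1‖) + ‖fderiv ℂ (H.eX j) Y v‖ := by gcongr; exact norm_sub_le _ _
      _ ≤ (‖v‖ + 2 * ρ2 * ‖v‖) + (ε + ε) * ‖v‖ := by gcongr
      _ = _ := by ring
  · rw [hM.fderiv_N_y hj hYρ v]
    have h1 := (hT.eY H hM j hj Y hY).norm_le hε hε v
    have h2 : ‖v.1 * Y.2.1 + Y.1 * v.2.1‖ ≤ 2 * ρ2 * ‖v‖ := by
      have a1 : ‖v.1 * Y.2.1‖ ≤ ‖v‖ * ρ2 := by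
        rw [norm_mul]; exact mul_le_mul hv1 hY2 (norm_nonneg _) hv
      have a2 : ‖Y.1 * v.2.1‖ ≤ ρ2 * ‖v‖ := by
        rw [norm_mul]; exact mul_le_mul hY1 hv2 (norm_nonneg _) hρ2.le
      calc _ ≤ ‖v.1 * Y.2.1‖ + ‖Y.1 * v.2.1‖ := norm_add_le _ _
        _ ≤ ‖v‖ * ρ2 + ρ2 * ‖v‖ := add_le_add a1 a2
        _ = _ := by ring
    calc _ ≤ ‖v.2.1 - (v.1 * Y.2.1 + Y.1 * v.2.1)‖ + ‖fderiv ℂ (H.eY j) Y v‖ := norm_add_le _ _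
      _ ≤ (‖v.2.1‖ + ‖v.1 * Y.2.1 + Y.1 * v.2.1‖) + ‖fderiv ℂ (H.eY j) Y v‖ := by gcongr; exact norm_sub_le _ _
      _ ≤ (‖v‖ + 2 * ρ2 * ‖v‖) + (ε + ε) * ‖v‖ := by gcongr
      _ = _ := by ring
  · rw [hM.fderiv_N_q hj hYρ v]
    have h1 := (hT.Qp H hM j hj Y hY).norm_le hε (by have := κ.hθ0; linarith) v
    refine h1.trans (mul_le_mul_of_nonneg_right ?_ hv)
    have := κ.hθ
    linarith

/-- Lipschitz bound of the plane map on the closed tube. -/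
theorem N_lip (hT : TubeOK κ ε ρ2) (hε : 0 ≤ ε) (hΛ : 1 + 2 * ρ2 + 2 * ε ≤ Λ) (hM : MapOK κ H) {j : ℕ}
    (hj : H.j0 ≤ j) {Y Y' : ℂ × ℂ × H.Q j} (hY : ‖Y‖ ≤ ρ2) (hY' : ‖Y'‖ ≤ ρ2) :
    ‖H.N j Y' - H.N j Y‖ ≤ Λ * ‖Y' - Y‖ := by
  have hseg : ∀ t ∈ Icc (0 : ℝ) 1, Y + t • (Y' - Y) ∈ closedBall (0 : ℂ × ℂ × H.Q j) ρ2 := by
    intro t ht
    exact (cau_cball_convex ρ2).add_smul_sub_mem (mem_closedBall_zero_iff.2 hY) (mem_closedBall_zero_iff.2 hY') ht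
  have h := cau_lip_seg (f := H.N j) (U := ball 0 κ.ρ) (Y := Y) (v := Y' - Y) isOpen_ball (hM.N_an j hj)
    (K := Λ * ‖Y' - Y‖) (fun t ht => cau_cball_subset hT.lt (hseg t ht))
    (fun t ht => hT.N_norm hε hΛ hM hj (mem_closedBall_zero_iff.1 (hseg t ht)) _)
  rwa [add_sub_cancel] at h

theorem sc_norm (hT : TubeOK κ ε ρ2) (hM : MapOK κ H) {j : ℕ} (hj : H.j0 ≤ j) {Y : ℂ × ℂ × H.Q j} (hY : ‖Y‖ ≤ ρ2)
    (v : ℂ × ℂ × H.Q j) : ‖fderiv ℂ (H.sc j) Y v‖ ≤ κ.Ks * ‖v‖ := by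
  have hC := κ.hC
  have hk := κ.ks_nonneg
  have h1 := (hT.sc H hM j hj Y hY).norm_le (by linarith) (by linarith) v
  refine h1.trans (le_of_eq ?_)
  unfold MapC.Ks
  ring

theorem sc_lip (hT : TubeOK κ ε ρ2) (hM : MapOK κ H) {j : ℕ} (hj : H.j0 ≤ j) {Y Y' : ℂ × ℂ × H.Q j} (hY : ‖Y‖ ≤ ρ2)
    (hY' : ‖Y'‖ ≤ ρ2) : ‖H.sc j Y' - H.sc j Y‖ ≤ κ.Ks * ‖Y' - Y‖ := by
  have hseg : ∀ t ∈ Icc (0 : ℝ) 1, Y + t • (Y' - Y) ∈ closedBall (0 : ℂ × ℂ × H.Q j) ρ2 := by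
    intro t ht
    exact (cau_cball_convex ρ2).add_smul_sub_mem (mem_closedBall_zero_iff.2 hY) (mem_closedBall_zero_iff.2 hY') ht
  have h := cau_lip_seg (f := H.sc j) (U := ball 0 κ.ρ) (Y := Y) (v := Y' - Y) isOpen_ball (hM.sc_an j hj)
    (K := κ.Ks * ‖Y' - Y‖) (fun t ht => cau_cball_subset hT.lt (hseg t ht))
    (fun t ht => hT.sc_norm hM hj (mem_closedBall_zero_iff.1 (hseg t ht)) _)
  rwa [add_sub_cancel] at h

/-- anisotropic Lipschitz bound of the remainder row. -/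
theorem Qp_lip (hT : TubeOK κ ε ρ2) (hM : MapOK κ H) {j : ℕ} (hj : H.j0 ≤ j) {Y Y' : ℂ × ℂ × H.Q j} (hY : ‖Y‖ ≤ ρ2)
    (hY' : ‖Y'‖ ≤ ρ2) :
    ‖(H.N j Y').2.2 - (H.N j Y).2.2‖ ≤ ε * wn (Y' - Y) + (κ.θ + ε) * ‖Y'.2.2 - Y.2.2‖ :=
  cau_dbd_lip (g := H.Qp j) (hM.maj_Qp hj).an (cau_cball_convex ρ2) (cau_cball_subset hT.lt)
    (fun Z hZ => hT.Qp H hM j hj Z (mem_closedBall_zero_iff.1 hZ)) (mem_closedBall_zero_iff.2 hY)
    (mem_closedBall_zero_iff.2 hY')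

theorem eX_lip (hT : TubeOK κ ε ρ2) (hM : MapOK κ H) {j : ℕ} (hj : H.j0 ≤ j) {Y Y' : ℂ × ℂ × H.Q j} (hY : ‖Y‖ ≤ ρ2)
    (hY' : ‖Y'‖ ≤ ρ2) : ‖H.eX j Y' - H.eX j Y‖ ≤ ε * wn (Y' - Y) + ε * ‖Y'.2.2 - Y.2.2‖ :=
  cau_dbd_lip (g := H.eX j) (hM.maj_eX hj).an (cau_cball_convex ρ2) (cau_cball_subset hT.lt)
    (fun Z hZ => hT.eX H hM j hj Z (mem_closedBall_zero_iff.1 hZ)) (mem_closedBall_zero_iff.2 hY)
    (mem_closedBall_zero_iff.2 hY')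

theorem eY_lip (hT : TubeOK κ ε ρ2) (hM : MapOK κ H) {j : ℕ} (hj : H.j0 ≤ j) {Y Y' : ℂ × ℂ × H.Q j} (hY : ‖Y‖ ≤ ρ2)
    (hY' : ‖Y'‖ ≤ ρ2) : ‖H.eY j Y' - H.eY j Y‖ ≤ ε * wn (Y' - Y) + ε * ‖Y'.2.2 - Y.2.2‖ :=
  cau_dbd_lip (g := H.eY j) (hM.maj_eY hj).an (cau_cball_convex ρ2) (cau_cball_subset hT.lt)
    (fun Z hZ => hT.eY H hM j hj Z (mem_closedBall_zero_iff.1 hZ)) (mem_closedBall_zero_iff.2 hY)
    (mem_closedBall_zero_iff.2 hY')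

theorem Psi_lip (hT : TubeOK κ ε ρ2) (hM : MapOK κ H) {j h : ℕ} (hj : H.j0 ≤ j) (hjh : j < h)
    {X X' : (ℂ × ℂ) × H.T j h} (hX : ‖X‖ ≤ ρ2) (hX' : ‖X'‖ ≤ ρ2) :
    ‖H.Ψ j h X' - H.Ψ j h X‖ ≤ ε * ‖X'.1 - X.1‖ + (κ.θ + ε) * ‖X'.2 - X.2‖ :=
  cau_dbd2_lip (g := H.Ψ j h) (hM.Ψ_an j h hj hjh) (cau_cball_convex ρ2) (cau_cball_subset hT.lt)
    (fun Z hZ => hT.Psi H hM j h hj hjh Z (mem_closedBall_zero_iff.1 hZ)) (mem_closedBall_zero_iff.2 hX)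
    (mem_closedBall_zero_iff.2 hX')

variable {κe : EntC} {s : ℕ}

theorem eV_lip (hT : TubeOK κ ε ρ2) (hR : ReadOK κ κe s H) {h : ℕ} (hh : H.j0 ≤ h)
    {X X' : (ℂ × ℂ) × H.T h h} (hX : ‖X‖ ≤ ρ2) (hX' : ‖X'‖ ≤ ρ2) :
    ‖H.eV h X' - H.eV h X‖ ≤ ε * ‖X'.1 - X.1‖ + 6 * κ.C * ‖X'.2 - X.2‖ :=
  cau_dbd2_lip (g := H.eV h) (hR.maj_eV hh).an (cau_cball_convex ρ2) (cau_cball_subset hT.lt)
    (fun Z hZ => hT.eV H κe s hR h hh Z (mem_closedBall_zero_iff.1 hZ)) (mem_closedBall_zero_iff.2 hX)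
    (mem_closedBall_zero_iff.2 hX')

theorem eP_lip (hT : TubeOK κ ε ρ2) (hR : ReadOK κ κe s H) {h : ℕ} (hh : H.j0 ≤ h)
    {X X' : (ℂ × ℂ) × H.T h h} (hX : ‖X‖ ≤ ρ2) (hX' : ‖X'‖ ≤ ρ2) :
    ‖H.eP h X' - H.eP h X‖ ≤ ε * ‖X'.1 - X.1‖ + 6 * κ.C * ‖X'.2 - X.2‖ :=
  cau_dbd2_lip (g := H.eP h) (hR.maj_eP hh).an (cau_cball_convex ρ2) (cau_cball_subset hT.lt)
    (fun Z hZ => hT.eP H κe s hR h hh Z (mem_closedBall_zero_iff.1 hZ)) (mem_closedBall_zero_iff.2 hX)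
    (mem_closedBall_zero_iff.2 hX')

theorem eM_lip (hT : TubeOK κ ε ρ2) (hR : ReadOK κ κe s H) {h : ℕ} (hh : H.j0 ≤ h)
    {X X' : (ℂ × ℂ) × H.T h h} (hX : ‖X‖ ≤ ρ2) (hX' : ‖X'‖ ≤ ρ2) :
    ‖H.eM h X' - H.eM h X‖ ≤ ε * ‖X'.1 - X.1‖ + 6 * κ.C * ‖X'.2 - X.2‖ :=
  cau_dbd2_lip (g := H.eM h) (hR.maj_eM hh).an (cau_cball_convex ρ2) (cau_cball_subset hT.lt)
    (fun Z hZ => hT.eM H κe s hR h hh Z (mem_closedBall_zero_iff.1 hZ)) (mem_closedBall_zero_iff.2 hX)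
    (mem_closedBall_zero_iff.2 hX')

end TubeOK

/-! ## 2. Crude propagation of a displacement of the entry -/

section prop

variable {ε ρt ρ2 Λ δ : ℝ} {b b0 : ℂ} {I : ℕ}

theorem cau_pow_le_pow {Λ : ℝ} (hΛ1 : 1 ≤ Λ) {i I : ℕ} (hi : i ≤ I) : Λ ^ i ≤ Λ ^ I := pow_le_pow_right₀ hΛ1 hi

/-- **[E] (4.17), plane part.**  `b`, `b0` are arbitrary complex parameters; the reference history stays in the tube `ρt`,
the displaced one in `ρ2 ≥ ρt + δ Λ^I`. -/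
theorem cau_prop_st (hT : TubeOK κ ε ρ2) (hε : 0 ≤ ε) (hΛ : 1 + 2 * ρ2 + 2 * ε ≤ Λ) (hM : MapOK κ H)
    (h0 : ∀ i ≤ I, ‖H.st b0 i‖ ≤ ρt) (hδ : ‖H.Y0 b - H.Y0 b0‖ ≤ δ) (hI : ρt + δ * Λ ^ I ≤ ρ2) :
    ∀ i ≤ I, ‖H.st b i - H.st b0 i‖ ≤ δ * Λ ^ i ∧ ‖H.st b i‖ ≤ ρ2 := by
  have hΛ1 : 1 ≤ Λ := by have := hT.pos; linarith
  have hδ0 : 0 ≤ δ := (norm_nonneg _).trans hδ
  have hsecond : ∀ i ≤ I, ‖H.st b i - H.st b0 i‖ ≤ δ * Λ ^ i → ‖H.st b i‖ ≤ ρ2 := by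
    intro i hi h
    have h1 : δ * Λ ^ i ≤ δ * Λ ^ I := mul_le_mul_of_nonneg_left (cau_pow_le_pow hΛ1 hi) hδ0
    calc ‖H.st b i‖ = ‖H.st b0 i + (H.st b i - H.st b0 i)‖ := by rw [add_sub_cancel]
      _ ≤ ‖H.st b0 i‖ + ‖H.st b i - H.st b0 i‖ := norm_add_le _ _
      _ ≤ ρt + δ * Λ ^ I := add_le_add (h0 i hi) (h.trans h1)
      _ ≤ ρ2 := hI
  have hfirst : ∀ i ≤ I, ‖H.st b i - H.st b0 i‖ ≤ δ * Λ ^ i := by
    intro i
    induction i with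
    | zero =>
      intro _
      have h1 : ‖H.st b 0 - H.st b0 0‖ ≤ δ := hδ
      simpa using h1
    | succ i ih =>
      intro hi
      have hi' : i ≤ I := Nat.le_of_succ_le hi
      have h1 := ih hi'
      have hρ : ρt ≤ ρ2 := by
        have : 0 ≤ δ * Λ ^ I := by positivity
        linarith
      have h2 := hT.N_lip hε hΛ hM (Nat.le_add_right H.j0 i) ((h0 i hi').trans hρ) (hsecond i hi' h1)
      have h3 : ‖H.st b (i + 1) - H.st b0 (i + 1)‖ ≤ Λ * ‖H.st b i - H.st b0 i‖ := h2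
      calc _ ≤ Λ * ‖H.st b i - H.st b0 i‖ := h3
        _ ≤ Λ * (δ * Λ ^ i) := mul_le_mul_of_nonneg_left h1 (by linarith)
        _ = _ := by ring
  exact fun i hi => ⟨hfirst i hi, hsecond i hi (hfirst i hi)⟩

/-- **[E] (4.17), torus part**: contraction of the remainder driven by the same scalars. -/
theorem cau_prop_tor (hT : TubeOK κ ε ρ2) (hε : 0 ≤ ε) (hΛ : 1 + 2 * ρ2 + 2 * ε ≤ Λ)
    (hεK : ε * κ.Ks + κ.θ + ε ≤ 1) (hM : MapOK κ H) {h : ℕ} (hIh : H.j0 + I ≤ h)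
    (h0 : ∀ i ≤ I, ‖H.st b0 i‖ ≤ ρt ∧ ‖H.ts b0 h i‖ ≤ ρt) (hδ : ‖H.Y0 b - H.Y0 b0‖ ≤ δ)
    (hδT : ‖H.T0 h b - H.T0 h b0‖ ≤ δ) (hI : ρt + κ.Ks * δ * Λ ^ I ≤ ρ2) :
    ∀ i ≤ I, ‖H.tor b h i - H.tor b0 h i‖ ≤ δ * Λ ^ i ∧ ‖H.ts b h i - H.ts b0 h i‖ ≤ κ.Ks * δ * Λ ^ i ∧
      ‖H.ts b h i‖ ≤ ρ2 := by
  have hΛ1 : 1 ≤ Λ := by have := hT.pos; linarith
  have hδ0 : 0 ≤ δ := (norm_nonneg _).trans hδ
  have hK := κ.one_le_Ks
  have hK0 : 0 ≤ κ.Ks := zero_le_one.trans hK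
  have hpI : 0 ≤ δ * Λ ^ I := by positivity
  have hI' : ρt + δ * Λ ^ I ≤ ρ2 := by
    have : δ * Λ ^ I ≤ κ.Ks * δ * Λ ^ I := by
      rw [mul_assoc]; exact le_mul_of_one_le_left hpI hK
    linarith
  have hρ : ρt ≤ ρ2 := by linarith
  have hst := cau_prop_st hT hε hΛ hM (fun i hi => (h0 i hi).1) hδ hI'
  have hsc : ∀ i ≤ I, ‖H.sc (H.j0 + i) (H.st b i) - H.sc (H.j0 + i) (H.st b0 i)‖ ≤ κ.Ks * δ * Λ ^ i := by
    intro i hi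
    have h1 := hT.sc_lip hM (Nat.le_add_right H.j0 i) (((h0 i hi).1).trans hρ) (hst i hi).2
    calc _ ≤ κ.Ks * ‖H.st b i - H.st b0 i‖ := h1
      _ ≤ κ.Ks * (δ * Λ ^ i) := mul_le_mul_of_nonneg_left (hst i hi).1 hK0
      _ = _ := by ring
  have hts : ∀ i ≤ I, ‖H.tor b h i - H.tor b0 h i‖ ≤ δ * Λ ^ i → ‖H.ts b h i - H.ts b0 h i‖ ≤ κ.Ks * δ * Λ ^ i := by
    intro i hi h1
    have e : H.ts b h i - H.ts b0 h i
        = (H.sc (H.j0 + i) (H.st b i) - H.sc (H.j0 + i) (H.st b0 i), H.tor b h i - H.tor b0 h i) := rfl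
    rw [e, Prod.norm_def]
    refine max_le (hsc i hi) (h1.trans ?_)
    have : 0 ≤ δ * Λ ^ i := by positivity
    rw [mul_assoc]; exact le_mul_of_one_le_left this hK
  have hin : ∀ i ≤ I, ‖H.ts b h i - H.ts b0 h i‖ ≤ κ.Ks * δ * Λ ^ i → ‖H.ts b h i‖ ≤ ρ2 := by
    intro i hi h1
    have h2 : κ.Ks * δ * Λ ^ i ≤ κ.Ks * δ * Λ ^ I :=
      mul_le_mul_of_nonneg_left (cau_pow_le_pow hΛ1 hi) (by positivity)
    calc ‖H.ts b h i‖ = ‖H.ts b0 h i + (H.ts b h i - H.ts b0 h i)‖ := by rw [add_sub_cancel]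
      _ ≤ ‖H.ts b0 h i‖ + ‖H.ts b h i - H.ts b0 h i‖ := norm_add_le _ _
      _ ≤ ρt + κ.Ks * δ * Λ ^ I := add_le_add (h0 i hi).2 (h1.trans h2)
      _ ≤ ρ2 := hI
  have hfirst : ∀ i ≤ I, ‖H.tor b h i - H.tor b0 h i‖ ≤ δ * Λ ^ i := by
    intro i
    induction i with
    | zero =>
      intro _
      have h1 : ‖H.tor b h 0 - H.tor b0 h 0‖ ≤ δ := hδT
      simpa using h1
    | succ i ih =>
      intro hi
      have hi' : i ≤ I := Nat.le_of_succ_le hi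
      have h1 := ih hi'
      have h2 := hT.Psi_lip hM (h := h) (Nat.le_add_right H.j0 i) (by omega) (((h0 i hi').2).trans hρ)
        (hin i hi' (hts i hi' h1))
      have h3 : ‖H.tor b h (i + 1) - H.tor b0 h (i + 1)‖
          ≤ ε * ‖H.sc (H.j0 + i) (H.st b i) - H.sc (H.j0 + i) (H.st b0 i)‖
            + (κ.θ + ε) * ‖H.tor b h i - H.tor b0 h i‖ := h2
      have hp : 0 ≤ δ * Λ ^ i := by positivity
      calc _ ≤ ε * (κ.Ks * δ * Λ ^ i) + (κ.θ + ε) * (δ * Λ ^ i) :=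
            h3.trans (add_le_add (mul_le_mul_of_nonneg_left (hsc i hi') hε)
              (mul_le_mul_of_nonneg_left h1 (by have := κ.hθ0; linarith)))
        _ = (ε * κ.Ks + κ.θ + ε) * (δ * Λ ^ i) := by ring
        _ ≤ 1 * (δ * Λ ^ i) := mul_le_mul_of_nonneg_right hεK hp
        _ ≤ Λ * (δ * Λ ^ i) := mul_le_mul_of_nonneg_right hΛ1 hp
        _ = _ := by ring
  exact fun i hi => ⟨hfirst i hi, hts i hi (hfirst i hi), hin i hi (hts i hi (hfirst i hi))⟩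

/-! ## 3. Crude bounds of the temperature derivatives -/

/-- **[E] P4.1, first paragraph of the proof, plane part.** -/
theorem cau_crude_dst (hT : TubeOK κ ε ρ2) (hε : 0 ≤ ε) (hΛ : 1 + 2 * ρ2 + 2 * ε ≤ Λ) (hM : MapOK κ H)
    (hY0 : DifferentiableAt ℂ H.Y0 b) (h0 : ∀ i ≤ I, ‖H.st b i‖ ≤ ρ2) (hδ : ‖deriv H.Y0 b‖ ≤ δ) :
    ∀ i ≤ I, ‖H.dst b i‖ ≤ δ * Λ ^ i := by
  have hΛ1 : 1 ≤ Λ := by have := hT.pos; linarith
  intro i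
  induction i with
  | zero => intro _; simpa [Hist.dst, Hist.st] using hδ
  | succ i ih =>
    intro hi
    have hi' : i ≤ I := Nat.le_of_succ_le hi
    have e := cau_dst_succ hM hY0 i (fun i' hi'' => lt_of_le_of_lt (h0 i' (hi''.trans hi')) hT.lt)
    rw [e]
    calc _ ≤ Λ * ‖H.dst b i‖ := hT.N_norm hε hΛ hM (Nat.le_add_right H.j0 i) (h0 i hi') _
      _ ≤ Λ * (δ * Λ ^ i) := mul_le_mul_of_nonneg_left (ih hi') (by linarith)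
      _ = _ := by ring

/-- **[E] P4.1, first paragraph of the proof, torus part.** -/
theorem cau_crude_dtor (hT : TubeOK κ ε ρ2) (hε : 0 ≤ ε) (hΛ : 1 + 2 * ρ2 + 2 * ε ≤ Λ)
    (hεK : ε * κ.Ks + κ.θ + ε ≤ 1) (hM : MapOK κ H) {h : ℕ} (hIh : H.j0 + I ≤ h)
    (hY0 : DifferentiableAt ℂ H.Y0 b) (hT0 : DifferentiableAt ℂ (H.T0 h) b)
    (h0 : ∀ i ≤ I, ‖H.st b i‖ ≤ ρ2 ∧ ‖H.ts b h i‖ ≤ ρ2) (hδ : ‖deriv H.Y0 b‖ ≤ δ)
    (hδT : ‖deriv (H.T0 h) b‖ ≤ δ) : ∀ i ≤ I, ‖H.dtor b h i‖ ≤ δ * Λ ^ i := by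
  have hΛ1 : 1 ≤ Λ := by have := hT.pos; linarith
  have hδ0 : 0 ≤ δ := (norm_nonneg _).trans hδ
  have hK0 : 0 ≤ κ.Ks := zero_le_one.trans κ.one_le_Ks
  have hst := cau_crude_dst hT hε hΛ hM hY0 (fun i hi => (h0 i hi).1) hδ
  intro i
  induction i with
  | zero => intro _; simpa [Hist.dtor, Hist.tor] using hδT
  | succ i ih =>
    intro hi
    have hi' : i ≤ I := Nat.le_of_succ_le hi
    have e := cau_dtor_succ hM (h := h) hY0 hT0 i (by omega)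
      (fun i' hi'' => ⟨lt_of_le_of_lt (h0 i' (hi''.trans hi')).1 hT.lt, lt_of_le_of_lt (h0 i' (hi''.trans hi')).2 hT.lt⟩)
    rw [e]
    have h1 := hT.Psi H hM (H.j0 + i) h (Nat.le_add_right H.j0 i) (by omega) (H.ts b h i) (h0 i hi').2
      (fderiv ℂ (H.sc (H.j0 + i)) (H.st b i) (H.dst b i), H.dtor b h i)
    have h2 : ‖fderiv ℂ (H.sc (H.j0 + i)) (H.st b i) (H.dst b i)‖ ≤ κ.Ks * (δ * Λ ^ i) :=
      (hT.sc_norm hM (Nat.le_add_right H.j0 i) (h0 i hi').1 _).trans (mul_le_mul_of_nonneg_left (hst i hi') hK0)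
    have hp : 0 ≤ δ * Λ ^ i := by positivity
    calc _ ≤ ε * ‖fderiv ℂ (H.sc (H.j0 + i)) (H.st b i) (H.dst b i)‖ + (κ.θ + ε) * ‖H.dtor b h i‖ := h1
      _ ≤ ε * (κ.Ks * (δ * Λ ^ i)) + (κ.θ + ε) * (δ * Λ ^ i) :=
        add_le_add (mul_le_mul_of_nonneg_left h2 hε) (mul_le_mul_of_nonneg_left (ih hi') (by have := κ.hθ0; linarith))
      _ = (ε * κ.Ks + κ.θ + ε) * (δ * Λ ^ i) := by ring
      _ ≤ 1 * (δ * Λ ^ i) := mul_le_mul_of_nonneg_right hεK hp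
      _ ≤ Λ * (δ * Λ ^ i) := mul_le_mul_of_nonneg_right hΛ1 hp
      _ = _ := by ring

end prop

/-! ## 4. The entry -/

section entry

variable {κe : EntC} {ρe : ℝ} {s : ℕ}

theorem cau_mem_disk {b : ℂ} : b ∈ disk κe s ↔ ‖b - xyCritical‖ < κe.c / (s : ℝ) ^ 2 := by
  rw [disk, mem_ball, dist_eq_norm]

theorem cau_disk_rad_pos (hs : 0 < s) : 0 < κe.c / (s : ℝ) ^ 2 := by
  have : (0 : ℝ) < s := by exact_mod_cast hs
  have := κe.hc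
  positivity

theorem cau_center_mem_disk (hs : 0 < s) : (xyCritical : ℂ) ∈ disk κe s := mem_ball_self (cau_disk_rad_pos hs)

theorem EntryOK.Y0_lip (hE : EntryOK κ κe ρe s H) {b : ℂ} (hb : b ∈ disk κe s) :
    ‖H.Y0 b - H.Y0 xyCritical‖ ≤ 2 * ρe / (κe.c / (s : ℝ) ^ 2) * ‖b - xyCritical‖ :=
  cau_par_lip hE.Y0_an hE.Y0_bd (cau_mem_disk.1 hb)

theorem EntryOK.T0_lip (hE : EntryOK κ κe ρe s H) {h : ℕ} (hh : H.j0 ≤ h) {b : ℂ} (hb : b ∈ disk κe s) :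
    ‖H.T0 h b - H.T0 h xyCritical‖ ≤ 2 * ρe / (κe.c / (s : ℝ) ^ 2) * ‖b - xyCritical‖ :=
  cau_par_lip (hE.T0_an h hh) (hE.T0_bd h hh) (cau_mem_disk.1 hb)

theorem EntryOK.Y0_deriv (hE : EntryOK κ κe ρe s H) (hs : 0 < s) :
    ‖deriv H.Y0 xyCritical‖ ≤ ρe / (κe.c / (s : ℝ) ^ 2) :=
  cau_par_deriv (cau_disk_rad_pos hs) hE.Y0_an hE.Y0_bd

theorem EntryOK.T0_deriv (hE : EntryOK κ κe ρe s H) (hs : 0 < s) {h : ℕ} (hh : H.j0 ≤ h) :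
    ‖deriv (H.T0 h) xyCritical‖ ≤ ρe / (κe.c / (s : ℝ) ^ 2) :=
  cau_par_deriv (cau_disk_rad_pos hs) (hE.T0_an h hh) (hE.T0_bd h hh)

theorem EntryOK.Y0_diffAt (hE : EntryOK κ κe ρe s H) {b : ℂ} (hb : b ∈ disk κe s) : DifferentiableAt ℂ H.Y0 b :=
  hE.Y0_an.differentiableAt (isOpen_ball.mem_nhds hb)

theorem EntryOK.T0_diffAt (hE : EntryOK κ κe ρe s H) {h : ℕ} (hh : H.j0 ≤ h) {b : ℂ} (hb : b ∈ disk κe s) :
    DifferentiableAt ℂ (H.T0 h) b :=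
  (hE.T0_an h hh).differentiableAt (isOpen_ball.mem_nhds hb)

theorem EntryOK.rho_nonneg (hE : EntryOK κ κe ρe s H) {b : ℂ} (hb : b ∈ disk κe s) : 0 ≤ ρe :=
  (norm_nonneg _).trans (hE.Y0_bd b hb)

end entry

/-! ## 5. Full torus state, read-outs along a history -/

/-- the temperature derivative of the full torus state. -/
def Hist.dts (H : Hist) (b : ℂ) (h i : ℕ) : (ℂ × ℂ) × H.T (H.j0 + i) h :=
  (fderiv ℂ (H.sc (H.j0 + i)) (H.st b i) (H.dst b i), H.dtor b h i)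

theorem cau_ts_hasDerivAt (hM : MapOK κ H) {b : ℂ} {h : ℕ} (hY0 : DifferentiableAt ℂ H.Y0 b)
    (hT0 : DifferentiableAt ℂ (H.T0 h) b) (i : ℕ) (hi : H.j0 + i ≤ h)
    (hin : ∀ i' < i, ‖H.st b i'‖ < κ.ρ ∧ ‖H.ts b h i'‖ < κ.ρ) (hlast : ‖H.st b i‖ < κ.ρ) :
    HasDerivAt (fun b => H.ts b h i) (H.dts b h i) b := by
  have h1 := cau_tor_hasDerivAt hM hY0 hT0 i hi hin
  have hs := cau_st_hasDerivAt hM hY0 i (fun i' hi' => (hin i' hi').1)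
  have hsc := (hM.sc_hasFDerivAt (Nat.le_add_right _ i) hlast).comp_hasDerivAt b hs
  exact hsc.prodMk h1

section readout

variable {κe : EntC} {s : ℕ}

/-- derivative of the variance read-out along a history ([E] (4.10), first row). -/
theorem cau_rV_hasDerivAt (hM : MapOK κ H) (hR : ReadOK κ κe s H) {b : ℂ} (hY0 : DifferentiableAt ℂ H.Y0 b) (i : ℕ)
    (hT0 : DifferentiableAt ℂ (H.T0 (H.j0 + i)) b)
    (hin : ∀ i' ≤ i, ‖H.st b i'‖ < κ.ρ ∧ ‖H.ts b (H.j0 + i) i'‖ < κ.ρ) :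
    HasDerivAt (fun b => H.rV (H.j0 + i) (H.ts b (H.j0 + i) i))
      (H.kV (H.j0 + i) * (H.dts b (H.j0 + i) i).1.1
        + fderiv ℂ (H.eV (H.j0 + i)) (H.ts b (H.j0 + i) i) (H.dts b (H.j0 + i) i)) b := by
  have h1 := cau_ts_hasDerivAt hM hY0 hT0 i le_rfl (fun i' hi' => hin i' hi'.le) (hin i le_rfl).1
  have hr : HasFDerivAt (H.rV (H.j0 + i)) (fderiv ℂ (H.rV (H.j0 + i)) (H.ts b (H.j0 + i) i)) (H.ts b (H.j0 + i) i) :=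
    ((hR.rV_an _ (Nat.le_add_right _ i)).differentiableAt
      (isOpen_ball.mem_nhds (mem_ball_zero_iff.2 (hin i le_rfl).2))).hasFDerivAt
  have h2 := hr.comp_hasDerivAt b h1
  rw [hR.fderiv_rV (Nat.le_add_right _ i) (hin i le_rfl).2] at h2
  exact h2

/-- derivative of the phase read-out along a history ([E] (4.10), second row). -/
theorem cau_rP_hasDerivAt (hM : MapOK κ H) (hR : ReadOK κ κe s H) {b : ℂ} (hY0 : DifferentiableAt ℂ H.Y0 b) (i : ℕ)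
    (hT0 : DifferentiableAt ℂ (H.T0 (H.j0 + i)) b)
    (hin : ∀ i' ≤ i, ‖H.st b i'‖ < κ.ρ ∧ ‖H.ts b (H.j0 + i) i'‖ < κ.ρ) :
    HasDerivAt (fun b => H.rP (H.j0 + i) (H.ts b (H.j0 + i) i))
      (H.kP (H.j0 + i) * (H.dts b (H.j0 + i) i).1.2
        + fderiv ℂ (H.eP (H.j0 + i)) (H.ts b (H.j0 + i) i) (H.dts b (H.j0 + i) i)) b := by
  have h1 := cau_ts_hasDerivAt hM hY0 hT0 i le_rfl (fun i' hi' => hin i' hi'.le) (hin i le_rfl).1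
  have hr : HasFDerivAt (H.rP (H.j0 + i)) (fderiv ℂ (H.rP (H.j0 + i)) (H.ts b (H.j0 + i) i)) (H.ts b (H.j0 + i) i) :=
    ((hR.rP_an _ (Nat.le_add_right _ i)).differentiableAt
      (isOpen_ball.mem_nhds (mem_ball_zero_iff.2 (hin i le_rfl).2))).hasFDerivAt
  have h2 := hr.comp_hasDerivAt b h1
  rw [hR.fderiv_rP (Nat.le_add_right _ i) (hin i le_rfl).2] at h2
  exact h2

end readout

/-! ## 6. Analytic continuation in the parameter, Taylor remainders -/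

section cont

variable {κe : EntC} {ρe : ℝ} {s : ℕ} {ε ρt ρ2 Λ r : ℝ} {I : ℕ}

/-- **analytic continuation of the plane history** on the disk of radius `r` ([E], before (4.22)). -/
theorem cau_cont_st (hT : TubeOK κ ε ρ2) (hε : 0 ≤ ε) (hΛ : 1 + 2 * ρ2 + 2 * ε ≤ Λ) (hM : MapOK κ H)
    (hE : EntryOK κ κe ρe s H) (hr : r ≤ κe.c / (s : ℝ) ^ 2) (h0 : ∀ i ≤ I, ‖H.st xyCritical i‖ ≤ ρt)
    (hI : ρt + 2 * ρe / (κe.c / (s : ℝ) ^ 2) * r * Λ ^ I ≤ ρ2) :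
    ∀ i ≤ I, DifferentiableOn ℂ (fun b => H.st b i) (ball (xyCritical : ℂ) r) ∧
      ∀ b ∈ ball (xyCritical : ℂ) r,
        ‖H.st b i - H.st xyCritical i‖ ≤ 2 * ρe / (κe.c / (s : ℝ) ^ 2) * ‖b - xyCritical‖ * Λ ^ i ∧
        ‖H.st b i‖ ≤ ρ2 := by
  have hΛ1 : 1 ≤ Λ := by have := hT.pos; linarith
  have hsub : ∀ b ∈ ball (xyCritical : ℂ) r, b ∈ disk κe s := fun b hb => ball_subset_ball hr hb
  have key : ∀ b ∈ ball (xyCritical : ℂ) r, ∀ i ≤ I,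
      ‖H.st b i - H.st xyCritical i‖ ≤ 2 * ρe / (κe.c / (s : ℝ) ^ 2) * ‖b - xyCritical‖ * Λ ^ i ∧ ‖H.st b i‖ ≤ ρ2 := by
    intro b hb
    have hbd := hsub b hb
    have hρe := hE.rho_nonneg hbd
    have hR : 0 < κe.c / (s : ℝ) ^ 2 := lt_of_le_of_lt (norm_nonneg _) (cau_mem_disk.1 hbd)
    have hbr : ‖b - xyCritical‖ ≤ r := by
      rw [mem_ball, dist_eq_norm] at hb; exact hb.le
    refine cau_prop_st hT hε hΛ hM h0 (hE.Y0_lip hbd) (le_trans ?_ hI)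
    have : 2 * ρe / (κe.c / (s : ℝ) ^ 2) * ‖b - xyCritical‖ * Λ ^ I ≤ 2 * ρe / (κe.c / (s : ℝ) ^ 2) * r * Λ ^ I := by
      gcongr
    linarith
  intro i hi
  refine ⟨?_, fun b hb => key b hb i hi⟩
  intro b hb
  exact (cau_st_hasDerivAt hM (hE.Y0_diffAt (hsub b hb)) i
    (fun i' hi' => lt_of_le_of_lt (key b hb i' (hi'.le.trans hi)).2 hT.lt)).differentiableAt.differentiableWithinAt

/-- second order Taylor remainder of the plane history in the parameter. -/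
theorem cau_taylor_st (hT : TubeOK κ ε ρ2) (hε : 0 ≤ ε) (hΛ : 1 + 2 * ρ2 + 2 * ε ≤ Λ) (hM : MapOK κ H)
    (hE : EntryOK κ κe ρe s H) (hr : r ≤ κe.c / (s : ℝ) ^ 2) (h0 : ∀ i ≤ I, ‖H.st xyCritical i‖ ≤ ρt)
    (hI : ρt + 2 * ρe / (κe.c / (s : ℝ) ^ 2) * r * Λ ^ I ≤ ρ2) {i : ℕ} (hi : i ≤ I) {b : ℂ}
    (hb : ‖b - xyCritical‖ < r) :
    ‖H.st b i - H.st xyCritical i - (b - xyCritical) • H.dst xyCritical i‖ ≤ 3 * ρ2 * (‖b - xyCritical‖ / r) ^ 2 := by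
  have h := cau_cont_st hT hε hΛ hM hE hr h0 hI i hi
  exact cau_par_taylor2 (g := fun b => H.st b i) h.1 (fun b hb => (h.2 b hb).2) hb

/-- **analytic continuation of the torus states.** -/
theorem cau_cont_tor (hT : TubeOK κ ε ρ2) (hε : 0 ≤ ε) (hΛ : 1 + 2 * ρ2 + 2 * ε ≤ Λ)
    (hεK : ε * κ.Ks + κ.θ + ε ≤ 1) (hM : MapOK κ H) (hE : EntryOK κ κe ρe s H) (hr : r ≤ κe.c / (s : ℝ) ^ 2)
    {h : ℕ} (hIh : H.j0 + I ≤ h) (h0 : ∀ i ≤ I, ‖H.st xyCritical i‖ ≤ ρt ∧ ‖H.ts xyCritical h i‖ ≤ ρt)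
    (hI : ρt + κ.Ks * (2 * ρe / (κe.c / (s : ℝ) ^ 2) * r) * Λ ^ I ≤ ρ2) :
    ∀ i ≤ I, DifferentiableOn ℂ (fun b => H.tor b h i) (ball (xyCritical : ℂ) r) ∧
      DifferentiableOn ℂ (fun b => H.ts b h i) (ball (xyCritical : ℂ) r) ∧
      ∀ b ∈ ball (xyCritical : ℂ) r,
        ‖H.tor b h i - H.tor xyCritical h i‖ ≤ 2 * ρe / (κe.c / (s : ℝ) ^ 2) * ‖b - xyCritical‖ * Λ ^ i ∧
        ‖H.ts b h i - H.ts xyCritical h i‖ ≤ κ.Ks * (2 * ρe / (κe.c / (s : ℝ) ^ 2) * ‖b - xyCritical‖) * Λ ^ i ∧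
        ‖H.st b i‖ ≤ ρ2 ∧ ‖H.ts b h i‖ ≤ ρ2 := by
  have hΛ1 : 1 ≤ Λ := by have := hT.pos; linarith
  have hK := κ.one_le_Ks
  have hK0 : 0 ≤ κ.Ks := zero_le_one.trans hK
  have hh : H.j0 ≤ h := (Nat.le_add_right _ I).trans hIh
  have hsub : ∀ b ∈ ball (xyCritical : ℂ) r, b ∈ disk κe s := fun b hb => ball_subset_ball hr hb
  have key : ∀ b ∈ ball (xyCritical : ℂ) r, ∀ i ≤ I,
      ‖H.tor b h i - H.tor xyCritical h i‖ ≤ 2 * ρe / (κe.c / (s : ℝ) ^ 2) * ‖b - xyCritical‖ * Λ ^ i ∧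
        ‖H.ts b h i - H.ts xyCritical h i‖ ≤ κ.Ks * (2 * ρe / (κe.c / (s : ℝ) ^ 2) * ‖b - xyCritical‖) * Λ ^ i ∧
        ‖H.st b i‖ ≤ ρ2 ∧ ‖H.ts b h i‖ ≤ ρ2 := by
    intro b hb
    have hbd := hsub b hb
    have hρe := hE.rho_nonneg hbd
    have hR : 0 < κe.c / (s : ℝ) ^ 2 := lt_of_le_of_lt (norm_nonneg _) (cau_mem_disk.1 hbd)
    have hbr : ‖b - xyCritical‖ ≤ r := by
      rw [mem_ball, dist_eq_norm] at hb; exact hb.le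
    have hle : κ.Ks * (2 * ρe / (κe.c / (s : ℝ) ^ 2) * ‖b - xyCritical‖) * Λ ^ I
        ≤ κ.Ks * (2 * ρe / (κe.c / (s : ℝ) ^ 2) * r) * Λ ^ I := by
      gcongr
    have hI2 : ρt + κ.Ks * (2 * ρe / (κe.c / (s : ℝ) ^ 2) * ‖b - xyCritical‖) * Λ ^ I ≤ ρ2 := by linarith
    have h1 := cau_prop_tor hT hε hΛ hεK hM hIh h0 (hE.Y0_lip hbd) (hE.T0_lip hh hbd) hI2
    have hI3 : ρt + 2 * ρe / (κe.c / (s : ℝ) ^ 2) * ‖b - xyCritical‖ * Λ ^ I ≤ ρ2 := by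
      have hp : 0 ≤ 2 * ρe / (κe.c / (s : ℝ) ^ 2) * ‖b - xyCritical‖ * Λ ^ I := by positivity
      have : 2 * ρe / (κe.c / (s : ℝ) ^ 2) * ‖b - xyCritical‖ * Λ ^ I
          ≤ κ.Ks * (2 * ρe / (κe.c / (s : ℝ) ^ 2) * ‖b - xyCritical‖) * Λ ^ I := by
        rw [mul_assoc κ.Ks]; exact le_mul_of_one_le_left hp hK
      linarith
    have h2 := cau_prop_st hT hε hΛ hM (fun i hi => (h0 i hi).1) (hE.Y0_lip hbd) hI3
    exact fun i hi => ⟨(h1 i hi).1, (h1 i hi).2.1, (h2 i hi).2, (h1 i hi).2.2⟩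
  intro i hi
  refine ⟨?_, ?_, fun b hb => key b hb i hi⟩
  · intro b hb
    exact (cau_tor_hasDerivAt hM (hE.Y0_diffAt (hsub b hb)) (hE.T0_diffAt hh (hsub b hb)) i (by omega)
      (fun i' hi' => ⟨lt_of_le_of_lt (key b hb i' (hi'.le.trans hi)).2.2.1 hT.lt,
        lt_of_le_of_lt (key b hb i' (hi'.le.trans hi)).2.2.2 hT.lt⟩)).differentiableAt.differentiableWithinAt
  · intro b hb
    exact (cau_ts_hasDerivAt hM (hE.Y0_diffAt (hsub b hb)) (hE.T0_diffAt hh (hsub b hb)) i (by omega)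
      (fun i' hi' => ⟨lt_of_le_of_lt (key b hb i' (hi'.le.trans hi)).2.2.1 hT.lt,
        lt_of_le_of_lt (key b hb i' (hi'.le.trans hi)).2.2.2 hT.lt⟩)
      (lt_of_le_of_lt (key b hb i hi).2.2.1 hT.lt)).differentiableAt.differentiableWithinAt

/-- second order Taylor remainder of the torus remainder in the parameter. -/
theorem cau_taylor_tor (hT : TubeOK κ ε ρ2) (hε : 0 ≤ ε) (hΛ : 1 + 2 * ρ2 + 2 * ε ≤ Λ)
    (hεK : ε * κ.Ks + κ.θ + ε ≤ 1) (hM : MapOK κ H) (hE : EntryOK κ κe ρe s H) (hr : r ≤ κe.c / (s : ℝ) ^ 2)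
    {h : ℕ} (hIh : H.j0 + I ≤ h) (h0 : ∀ i ≤ I, ‖H.st xyCritical i‖ ≤ ρt ∧ ‖H.ts xyCritical h i‖ ≤ ρt)
    (hI : ρt + κ.Ks * (2 * ρe / (κe.c / (s : ℝ) ^ 2) * r) * Λ ^ I ≤ ρ2) {i : ℕ} (hi : i ≤ I) {b : ℂ}
    (hb : ‖b - xyCritical‖ < r) :
    ‖H.tor b h i - H.tor xyCritical h i - (b - xyCritical) • H.dtor xyCritical h i‖
      ≤ 3 * ρ2 * (‖b - xyCritical‖ / r) ^ 2 := by
  have hc := cau_cont_tor hT hε hΛ hεK hM hE hr hIh h0 hI i hi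
  refine cau_par_taylor2 (g := fun b => H.tor b h i) hc.1 (fun b hb => ?_) hb
  exact (norm_snd_le (H.ts b h i)).trans (hc.2.2 b hb).2.2.2

end cont

/-! ## 7. The choice of the tube for a given `γ` -/

/-- **[E] Section 4, the fixed choices**: for every `γ > 0` there are `ε` and a radius such that in every smaller tube the plane map
expands by at most `e^γ`, and remainders (also the torus remainder with its scalar forcing) contract with `θ₁ = (1 + θ) / 2`. -/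
theorem cau_tube_gamma (κ : MapC) {γ : ℝ} (hγ : 0 < γ) : ∃ ε ρ1 : ℝ, 0 < ε ∧ 0 < ρ1 ∧
    ε * κ.Ks + κ.θ + ε ≤ (1 + κ.θ) / 2 ∧
    ∀ ρ2 : ℝ, 0 < ρ2 → ρ2 ≤ ρ1 → TubeOK κ ε ρ2 ∧ 1 + 2 * ρ2 + 2 * ε ≤ Real.exp γ := by
  have hK := κ.one_le_Ks
  have hθ := κ.hθ
  have hK1 : 0 < 2 * (κ.Ks + 1) := by linarith
  set ε : ℝ := min (γ / 4) ((1 - κ.θ) / (2 * (κ.Ks + 1))) with hεdef
  have hε0 : 0 < ε := lt_min (by positivity) (div_pos (by linarith) hK1)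
  obtain ⟨ρt1, hρt1, htube⟩ := cau_tube κ hε0
  refine ⟨ε, min ρt1 (γ / 4), hε0, lt_min hρt1 (by positivity), ?_, ?_⟩
  · have h1 : ε ≤ (1 - κ.θ) / (2 * (κ.Ks + 1)) := min_le_right _ _
    have h2 : ε * (2 * (κ.Ks + 1)) ≤ 1 - κ.θ := (le_div_iff₀ hK1).1 h1
    linarith
  · intro ρ2 h0 hle
    refine ⟨htube ρ2 h0 (hle.trans (min_le_left _ _)), ?_⟩
    have h1 : ε ≤ γ / 4 := min_le_left _ _
    have h2 : ρ2 ≤ γ / 4 := hle.trans (min_le_right _ _)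
    have h3 := Real.add_one_le_exp γ
    linarith

/-- Stores the on-demand equation lemmas of the definitions above in THIS module (rule 6 hygiene). -/
theorem cau_tube_forced : True := by
  have := @MapC.Ks.eq_1
  have := @Hist.dts.eq_1
  trivial

end

end Claimed.Agent.R285.Flow
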