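import Claimed.Agent.R285.Flow.Schwarz

/-!
# ROW 285, layer FLOW, leaf INV: quantitative inverse function theorem in one complex variable                   (helper21)  PROVED

Plan.  `e u := T u - u` is bounded by `M + d0` on `ball 0 d0` and `o(‖u‖)` at `0`: Schwarz of order 2 gives `‖e u‖ ≤ K ‖u‖²`, `K = (M + d0) / d0²`.
`sw_diff`: `‖e u - e u'‖ ≤ 24 K r1 ‖u - u'‖ ≤ ‖u - u'‖ / 2` on `ball 0 r1` (`6 r1 < d0`, `48 K r1 ≤ 1`).  So `T` is injective there;
`ApproximatesLinearOn.surjOn_closedBall_of_nonlinearRightInverse` on `closedBall 0 (r1 / 2)` gives the preimages of `ball 0 r2`, `r2 = r1 / 4`;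
`V s :=` the preimage; `V` is 2-Lipschitz; `HasDerivAt.of_local_left_inverse` (the derivative of `T` is within `1/2` of `1`, hence nonzero).
-/

set_option autoImplicit false

namespace Claimed.Agent.R285.B10

open Filter Topology Metric

/-- quantitative inverse function theorem in one complex variable; all constants depend only on `d0`, `M` -/
theorem sw_inv (d0 M : ℝ) (hd : 0 < d0) (hM : 0 ≤ M) : ∃ r1 r2 K : ℝ, 0 < r2 ∧ r2 ≤ r1 ∧ r1 ≤ d0 ∧ 0 ≤ K ∧
    ∀ T : ℂ → ℂ, DifferentiableOn ℂ T (ball 0 d0) → (∀ u ∈ ball (0 : ℂ) d0, ‖T u‖ ≤ M) → T 0 = 0 → HasDerivAt T 1 0 →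
      Set.InjOn T (ball 0 r1) ∧
      (∀ u ∈ ball (0 : ℂ) r1, ‖T u - u‖ ≤ K * ‖u‖ ^ 2 ∧ ‖T u - u‖ ≤ ‖u‖ / 2) ∧
      ∃ V : ℂ → ℂ, DifferentiableOn ℂ V (ball 0 r2) ∧
        ∀ s ∈ ball (0 : ℂ) r2, ‖V s‖ < r1 ∧ T (V s) = s ∧ ‖V s‖ ≤ 2 * ‖s‖ ∧ ‖V s - s‖ ≤ 4 * K * ‖s‖ ^ 2 := by
  set K : ℝ := (M + d0) / d0 ^ 2 with hK
  have hKpos : 0 < K := by positivity
  set r1 : ℝ := min (d0 / 8) (1 / (48 * K)) with hr1
  have hr1pos : 0 < r1 := lt_min (by positivity) (by positivity)
  have hr1a : r1 ≤ d0 / 8 := min_le_left _ _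
  have hr1b : 48 * K * r1 ≤ 1 := by
    have : r1 ≤ 1 / (48 * K) := min_le_right _ _
    rw [le_div_iff₀ (by positivity)] at this
    linarith
  refine ⟨r1, r1 / 4, K, by positivity, by linarith, by linarith, hKpos.le, ?_⟩
  intro T hT hTM hT0 hT1
  set e : ℂ → ℂ := fun u => T u - u with he
  have he0 : e 0 = 0 := by simp [he, hT0]
  have hed : DifferentiableOn ℂ e (ball 0 d0) := hT.sub differentiableOn_id
  -- (a)
  have ha : ∀ u ∈ ball (0 : ℂ) d0, ‖e u‖ ≤ K * ‖u‖ ^ 2 := by
    intro u hu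
    have hmaps : Set.MapsTo e (ball 0 d0) (closedBall (e 0) (M + d0)) := by
      intro y hy
      rw [he0, mem_closedBall_zero_iff]
      have hy' : ‖y‖ < d0 := by simpa using hy
      calc ‖e y‖ ≤ ‖T y‖ + ‖y‖ := norm_sub_le _ _
        _ ≤ M + d0 := by linarith [hTM y hy]
    have hlo : (fun w => e w - e 0) =o[𝓝 0] (fun w : ℂ => ‖w - 0‖ ^ 1) := by
      have := hasDerivAt_iff_isLittleO.mp hT1
      simp only [he0, sub_zero, pow_one, hT0, smul_eq_mul, mul_one] at this ⊢
      exact this.norm_right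
    have := Complex.dist_le_mul_div_pow_of_mapsTo_ball_of_isLittleO hed hmaps hlo hu
    rw [he0, dist_zero_right, dist_zero_right] at this
    refine this.trans (le_of_eq ?_)
    rw [hK, show (1 + 1 : ℕ) = 2 from rfl, div_pow]; field_simp
  -- (b)
  have hb : ∀ u ∈ ball (0 : ℂ) r1, ∀ u' ∈ ball (0 : ℂ) r1, ‖e u - e u'‖ ≤ 1 / 2 * ‖u - u'‖ := by
    intro u hu u' hu'
    rw [mem_ball_zero_iff] at hu hu'
    have h1 : ‖u - u'‖ ≤ 2 * r1 := (norm_sub_le _ _).trans (by linarith)
    have := sw_diff hed ha (p := u') (v := u - u') (by linarith)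
    rw [add_sub_cancel] at this
    refine this.trans ?_
    have h2 : 8 * K * (‖u'‖ + ‖u - u'‖) ≤ 1 / 2 := by
      have : 8 * K * (‖u'‖ + ‖u - u'‖) ≤ 8 * K * (3 * r1) := by gcongr; linarith
      linarith
    gcongr
  -- lower Lipschitz bound
  have hlow : ∀ u ∈ ball (0 : ℂ) r1, ∀ u' ∈ ball (0 : ℂ) r1, ‖u - u'‖ ≤ 2 * ‖T u - T u'‖ := by
    intro u hu u' hu'
    have h1 := hb u hu u' hu'
    have h2 : u - u' = (T u - T u') - (e u - e u') := by simp only [he]; ring
    have h3 : ‖u - u'‖ ≤ ‖T u - T u'‖ + ‖e u - e u'‖ := by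
      calc ‖u - u'‖ = ‖(T u - T u') - (e u - e u')‖ := by rw [← h2]
        _ ≤ _ := norm_sub_le _ _
    linarith
  have h0r : (0 : ℂ) ∈ ball (0 : ℂ) r1 := mem_ball_self hr1pos
  have hsub : ball (0 : ℂ) r1 ⊆ ball 0 d0 := ball_subset_ball (by linarith)
  refine ⟨?_, ?_, ?_⟩
  · intro u hu u' hu' h
    have := hlow u hu u' hu'
    rw [h, sub_self, norm_zero, mul_zero] at this
    exact sub_eq_zero.mp (norm_le_zero_iff.mp this)
  · intro u hu
    refine ⟨ha u (hsub hu), ?_⟩
    have := hb u hu 0 h0r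
    rw [he0, sub_zero, sub_zero] at this
    linarith
  · -- surjectivity
    have happ : ApproximatesLinearOn T (ContinuousLinearMap.id ℂ ℂ) (ball 0 r1) (1 / 2 : NNReal) := by
      intro u hu u' hu'
      have := hb u hu u' hu'
      have e1 : T u - T u' - (ContinuousLinearMap.id ℂ ℂ) (u - u') = e u - e u' := by
        simp only [he, ContinuousLinearMap.id_apply]; ring
      rw [e1]
      simpa using this
    let inv : (ContinuousLinearMap.id ℂ ℂ).NonlinearRightInverse := ⟨id, 1, by simp, by simp⟩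
    have hsurj := happ.surjOn_closedBall_of_nonlinearRightInverse inv (ε := r1 / 2) (b := 0) (by positivity)
      (closedBall_subset_ball (by linarith))
    have hrad : (((inv.nnnorm : ℝ)⁻¹ - ((1 / 2 : NNReal) : ℝ)) * (r1 / 2)) = r1 / 4 := by
      have : (inv.nnnorm : ℝ) = 1 := rfl
      rw [this]; norm_num; ring
    rw [hrad, hT0] at hsurj
    have hex : ∀ s ∈ ball (0 : ℂ) (r1 / 4), ∃ u ∈ closedBall (0 : ℂ) (r1 / 2), T u = s :=
      fun s hs => hsurj (ball_subset_closedBall hs)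
    classical
    set V : ℂ → ℂ := fun s => if h : ∃ u ∈ closedBall (0 : ℂ) (r1 / 2), T u = s then h.choose else 0 with hV
    have hVs : ∀ s ∈ ball (0 : ℂ) (r1 / 4), V s ∈ closedBall (0 : ℂ) (r1 / 2) ∧ T (V s) = s := by
      intro s hs
      have h := hex s hs
      simp only [hV, dif_pos h]
      exact h.choose_spec
    have hVr : ∀ s ∈ ball (0 : ℂ) (r1 / 4), V s ∈ ball (0 : ℂ) r1 :=
      fun s hs => closedBall_subset_ball (by linarith) (hVs s hs).1
    have hVlip : ∀ s ∈ ball (0 : ℂ) (r1 / 4), ∀ s' ∈ ball (0 : ℂ) (r1 / 4), ‖V s - V s'‖ ≤ 2 * ‖s - s'‖ := by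
      intro s hs s' hs'
      have := hlow (V s) (hVr s hs) (V s') (hVr s' hs')
      rwa [(hVs s hs).2, (hVs s' hs').2] at this
    refine ⟨V, ?_, ?_⟩
    · intro s hs
      have hnh : ball (0 : ℂ) (r1 / 4) ∈ 𝓝 s := isOpen_ball.mem_nhds hs
      have hcont : ContinuousAt V s := by
        rw [Metric.continuousAt_iff]
        intro ε hε
        obtain ⟨δ, hδ, hδ'⟩ := Metric.mem_nhds_iff.mp hnh
        refine ⟨min δ (ε / 2), lt_min hδ (by positivity), fun y hy => ?_⟩
        rw [lt_min_iff] at hy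
        have := hVlip y (hδ' (by simpa using hy.1)) s hs
        rw [dist_eq_norm] at *
        linarith [hy.2]
      have hu := hVr s hs
      have hTd : HasDerivAt T (deriv T (V s)) (V s) := (hT.differentiableAt (isOpen_ball.mem_nhds (hsub hu))).hasDerivAt
      have hne : deriv T (V s) ≠ 0 := by
        have hed' : HasDerivAt e (deriv T (V s) - 1) (V s) := hTd.sub (hasDerivAt_id _)
        have hle : ‖deriv e (V s)‖ ≤ 1 / 2 := by
          refine norm_deriv_le_of_lip' (by norm_num) ?_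
          filter_upwards [isOpen_ball.mem_nhds hu] with x hx using hb x hx (V s) hu
        rw [hed'.deriv] at hle
        intro h0
        rw [h0] at hle
        norm_num at hle
      have := HasDerivAt.of_local_left_inverse hcont hTd hne (by
        filter_upwards [hnh] with y hy using (hVs y hy).2)
      exact this.differentiableAt.differentiableWithinAt
    · intro s hs
      have hu := hVr s hs
      have h1 := hlow (V s) hu 0 h0r
      rw [(hVs s hs).2, hT0, sub_zero, sub_zero] at h1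
      refine ⟨by simpa using hu, (hVs s hs).2, h1, ?_⟩
      have h2 := ha (V s) (hsub hu)
      have h3 : e (V s) = s - V s := by simp only [he, (hVs s hs).2]
      rw [h3, norm_sub_rev] at h2
      refine h2.trans ?_
      have : ‖V s‖ ^ 2 ≤ (2 * ‖s‖) ^ 2 := by gcongr
      nlinarith

end Claimed.Agent.R285.B10
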