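import Claimed.Agent.R285.Flow.Defs

/-!
# ROW 285, layer FLOW: elementary norm facts on `ℂ × ℂ × E` and on the balanced scalars                     (helper21)  PROVED
-/

set_option autoImplicit false

namespace Claimed.Agent.R285.B10

open Filter Topology Metric

section tri

variable {E : Type*} [NormedAddCommGroup E]

theorem nf_norm_le {a b : ℂ} {c : E} {K : ℝ} (ha : ‖a‖ ≤ K) (hb : ‖b‖ ≤ K) (hc : ‖c‖ ≤ K) : ‖(a, b, c)‖ ≤ K := by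
  simp only [Prod.norm_def]; exact max_le ha (max_le hb hc)

theorem nf_norm_lt {a b : ℂ} {c : E} {K : ℝ} (ha : ‖a‖ < K) (hb : ‖b‖ < K) (hc : ‖c‖ < K) : ‖(a, b, c)‖ < K := by
  simp only [Prod.norm_def]; exact max_lt ha (max_lt hb hc)

theorem nf_fst_le (X : ℂ × ℂ × E) : ‖X.1‖ ≤ ‖X‖ := norm_fst_le X
theorem nf_snd_le (X : ℂ × ℂ × E) : ‖X.2.1‖ ≤ ‖X‖ := (norm_fst_le X.2).trans (norm_snd_le X)
theorem nf_trd_le (X : ℂ × ℂ × E) : ‖X.2.2‖ ≤ ‖X‖ := (norm_snd_le X.2).trans (norm_snd_le X)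

end tri

variable {κ : RawC} {C1 : ℝ} {F : Raw} {nf : NF F}

theorem nf_ell_le (hb : BalOK κ C1 F nf) {j : ℕ} (hj : F.j0 ≤ j) : ‖nf.ell j‖ ≤ 2 ∧ nf.ell j ≠ 0 := by
  have h := (hb.ell_bd j hj).2
  constructor
  · calc ‖nf.ell j‖ = ‖(nf.ell j - 1) + 1‖ := by ring_nf
      _ ≤ ‖nf.ell j - 1‖ + ‖(1 : ℂ)‖ := norm_add_le _ _
      _ ≤ 2 := by simp only [norm_one]; linarith
  · intro h0
    rw [h0] at h
    norm_num at h

theorem nf_Lci_le (hC1 : 1 ≤ C1) (hb : BalOK κ C1 F nf) {j : ℕ} (hj : F.j0 ≤ j) (X : ℂ × ℂ × F.A j) :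
    ‖nf.Lci j X‖ ≤ (2 + C1) * ‖X‖ := by
  have h1 := nf_fst_le X
  have h2 := nf_snd_le X
  have h3 := nf_trd_le X
  have hX := norm_nonneg X
  have hbt : ‖nf.bt j X.2.2‖ ≤ C1 * ‖X‖ :=
    ((nf.bt j).le_opNorm _).trans (mul_le_mul (hb.bt_bd j hj) h3 (norm_nonneg _) (by linarith))
  have hbz : ‖nf.bz j X.2.2‖ ≤ C1 * ‖X‖ :=
    ((nf.bz j).le_opNorm _).trans (mul_le_mul (hb.bz_bd j hj) h3 (norm_nonneg _) (by linarith))
  unfold NF.Lci NF.Tb NF.Zb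
  refine nf_norm_le ?_ ?_ ?_
  · calc ‖X.1 + nf.bt j X.2.2‖ ≤ ‖X.1‖ + ‖nf.bt j X.2.2‖ := norm_add_le _ _
      _ ≤ (2 + C1) * ‖X‖ := by nlinarith
  · calc ‖nf.ell j * X.2.1 + nf.bz j X.2.2‖ ≤ ‖nf.ell j * X.2.1‖ + ‖nf.bz j X.2.2‖ := norm_add_le _ _
      _ ≤ 2 * ‖X‖ + C1 * ‖X‖ := by
        rw [norm_mul]
        exact add_le_add (mul_le_mul (nf_ell_le hb hj).1 h2 (norm_nonneg _) (by norm_num)) hbz
      _ = (2 + C1) * ‖X‖ := by ring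
  · nlinarith

end Claimed.Agent.R285.B10
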