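import Claimed.Agent.R285.Flow.Bal
import Claimed.Agent.R285.Flow.Inv
import Claimed.Agent.R285.Flow.Tri

/-!
# ROW 285, layer FLOW, leaf CHART: the normal coordinates [B] (10.6)                  (helper21)  ALL PROVED from `balance_exists`, `sw_inv`

Take `ell, bt, bz` from `balance_exists`.  `Tg j u := Tb j (g j u)` is holomorphic on `ball 0 d0`, bounded by `(2 + C0) ρ / 2`, `Tg j 0 = 0`,
derivative `1` at `0` (`CurveOK.der`).  `sw_inv` gives `V j`.  Put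
    `ci j X := (u, Zb j X, X.2.2 - (g j u).2.2)`,  `u := V j (Tb j X)`.
* `Tb (ch Y) = Tg Y.1` and `Zb (ch Y) = Y.2.1` (because `bz (R^g) = 0`: `bz_par` + `CurveOK.fixS`; and `(g j u).2.1 = 0`).
* `‖g j u - (u, 0, 0)‖ ≤ K ‖u‖²`: Schwarz of order 2 (`Complex.dist_le_mul_div_pow_of_mapsTo_ball_of_isLittleO`, `n = 1`).
* symmetries of `V j`: uniqueness of the preimage in `ball 0 r1` (`Set.InjOn`).
-/

set_option autoImplicit false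

namespace Claimed.Agent.R285.B10

open Filter Topology Metric

section loc

variable {κ : RawC} {d0 C0 : ℝ} {F : Raw} {g : Curve F} {nf : NF F} {j : ℕ}

theorem ct_z (hg : CurveOK κ.ρ d0 F g) (hj : F.j0 ≤ j) {u : ℂ} (hu : u ∈ ball (0 : ℂ) d0) : (g j u).2.1 = 0 := by
  have h := congrArg (fun X => X.2.1) (hg.fixS j hj u hu)
  simp only [Raw.S] at h
  linear_combination (-1 / 2 : ℂ) * h

theorem ct_σ (hg : CurveOK κ.ρ d0 F g) (hj : F.j0 ≤ j) {u : ℂ} (hu : u ∈ ball (0 : ℂ) d0) :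
    F.σ j (g j u).2.2 = (g j u).2.2 := by
  have h := congrArg (fun X => X.2.2) (hg.fixS j hj u hu)
  simpa only [Raw.S] using h

theorem ct_bz (hb : BalOK κ C0 F nf) (hg : CurveOK κ.ρ d0 F g) (hj : F.j0 ≤ j) {u : ℂ} (hu : u ∈ ball (0 : ℂ) d0) :
    nf.bz j (g j u).2.2 = 0 := by
  have h := hb.bz_par j hj (g j u).2.2
  rw [ct_σ hg hj hu] at h
  linear_combination (1 / 2 : ℂ) * h

theorem ct_gq (hd : 0 < d0) (hg : CurveOK κ.ρ d0 F g) (hj : F.j0 ≤ j) {u : ℂ} (hu : u ∈ ball (0 : ℂ) d0) :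
    ‖g j u - (u, 0, 0)‖ ≤ (κ.ρ / 2 + d0) / d0 ^ 2 * ‖u‖ ^ 2 := by
  set e : ℂ → ℂ × ℂ × F.A j := fun u => g j u - (u, 0, 0) with he
  have he0 : e 0 = 0 := by
    simp only [he, hg.zero j hj]
    ext <;> simp
  have hed : DifferentiableOn ℂ e (ball 0 d0) := (hg.an j hj).sub (by fun_prop)
  have hmaps : Set.MapsTo e (ball 0 d0) (closedBall (e 0) (κ.ρ / 2 + d0)) := by
    intro y hy
    rw [he0, mem_closedBall_zero_iff]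
    have hy' : ‖y‖ < d0 := by simpa using hy
    calc ‖e y‖ ≤ ‖g j y‖ + ‖((y, 0, 0) : ℂ × ℂ × F.A j)‖ := norm_sub_le _ _
      _ ≤ κ.ρ / 2 + d0 := by
        refine add_le_add (hg.bd j hj y hy) (nf_norm_le hy'.le ?_ ?_) <;> simp [hd.le]
  have hlo : (fun w => e w - e 0) =o[𝓝 0] (fun w : ℂ => ‖w - 0‖ ^ 1) := by
    have := hasDerivAt_iff_isLittleO.mp (hg.der j hj)
    simp only [he0, sub_zero, pow_one, hg.zero j hj, Prod.smul_mk, smul_eq_mul, mul_one, mul_zero, smul_zero] at this ⊢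
    exact this.norm_right
  have := Complex.dist_le_mul_div_pow_of_mapsTo_ball_of_isLittleO hed hmaps hlo hu
  rw [he0, dist_zero_right, dist_zero_right] at this
  refine this.trans (le_of_eq ?_)
  rw [show (1 + 1 : ℕ) = 2 from rfl, div_pow]; field_simp

theorem ct_g1 (hd : 0 < d0) (hg : CurveOK κ.ρ d0 F g) (hj : F.j0 ≤ j) {u : ℂ} (hu : u ∈ ball (0 : ℂ) d0) :
    ‖g j u‖ ≤ (1 + (κ.ρ / 2 + d0) / d0 ^ 2 * d0) * ‖u‖ := by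
  have h := ct_gq hd hg hj hu
  have hu' : ‖u‖ < d0 := by simpa using hu
  have hρ := κ.hρ
  have hG : 0 ≤ (κ.ρ / 2 + d0) / d0 ^ 2 := by positivity
  have h1 : ‖((u, 0, 0) : ℂ × ℂ × F.A j)‖ ≤ ‖u‖ := nf_norm_le le_rfl (by simp) (by simp)
  calc ‖g j u‖ = ‖(g j u - (u, 0, 0)) + (u, 0, 0)‖ := by rw [sub_add_cancel]
    _ ≤ ‖g j u - (u, 0, 0)‖ + ‖((u, 0, 0) : ℂ × ℂ × F.A j)‖ := norm_add_le _ _
    _ ≤ (κ.ρ / 2 + d0) / d0 ^ 2 * ‖u‖ ^ 2 + ‖u‖ := add_le_add h h1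
    _ ≤ _ := by
      have : (κ.ρ / 2 + d0) / d0 ^ 2 * ‖u‖ ^ 2 ≤ (κ.ρ / 2 + d0) / d0 ^ 2 * d0 * ‖u‖ := by
        rw [mul_assoc]
        refine mul_le_mul_of_nonneg_left ?_ hG
        nlinarith [norm_nonneg u]
      linarith

theorem ct_ell_inv (hb : BalOK κ C0 F nf) (hj : F.j0 ≤ j) : ‖(nf.ell j)⁻¹‖ ≤ 2 := by
  have h := (hb.ell_bd j hj).2
  have h1 : (1 : ℝ) ≤ ‖nf.ell j - 1‖ + ‖nf.ell j‖ := by
    calc (1 : ℝ) = ‖(1 : ℂ)‖ := by simp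
      _ = ‖-(nf.ell j - 1) + nf.ell j‖ := by ring_nf
      _ ≤ ‖-(nf.ell j - 1)‖ + ‖nf.ell j‖ := norm_add_le _ _
      _ = _ := by rw [norm_neg]
  have h2 : 1 / 2 ≤ ‖nf.ell j‖ := by linarith
  rw [norm_inv, inv_le_comm₀ (by linarith) (by norm_num)]
  linarith

theorem ct_Tb_le (hC0 : 1 ≤ C0) (hb : BalOK κ C0 F nf) (hj : F.j0 ≤ j) (X : ℂ × ℂ × F.A j) :
    ‖nf.Tb j X‖ ≤ (2 + C0) * ‖X‖ := (nf_fst_le (nf.Lci j X)).trans (nf_Lci_le hC0 hb hj X)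

theorem ct_Zb_le (hC0 : 1 ≤ C0) (hb : BalOK κ C0 F nf) (hj : F.j0 ≤ j) (X : ℂ × ℂ × F.A j) :
    ‖nf.Zb j X‖ ≤ (2 + C0) * ‖X‖ := (nf_snd_le (nf.Lci j X)).trans (nf_Lci_le hC0 hb hj X)

theorem ct_bt_le (hb : BalOK κ C0 F nf) (hj : F.j0 ≤ j) (B : F.A j) : ‖nf.bt j B‖ ≤ C0 * ‖B‖ :=
  ((nf.bt j).le_opNorm _).trans (mul_le_mul_of_nonneg_right (hb.bt_bd j hj) (norm_nonneg _))

theorem ct_bz_le (hb : BalOK κ C0 F nf) (hj : F.j0 ≤ j) (B : F.A j) : ‖nf.bz j B‖ ≤ C0 * ‖B‖ :=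
  ((nf.bz j).le_opNorm _).trans (mul_le_mul_of_nonneg_right (hb.bz_bd j hj) (norm_nonneg _))

/-- the linear part of the chart without the `u`-direction -/
theorem ct_lp_le (hC0 : 1 ≤ C0) (hb : BalOK κ C0 F nf) (hj : F.j0 ≤ j) (Y : ℂ × ℂ × F.A j) :
    ‖((-(nf.bt j Y.2.2), (Y.2.1 - nf.bz j Y.2.2) / nf.ell j, Y.2.2) : ℂ × ℂ × F.A j)‖ ≤ 2 * (2 + C0) * ‖Y‖ := by
  have h2 := nf_snd_le Y
  have h3 := nf_trd_le Y
  have hY := norm_nonneg Y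
  have hbt := ct_bt_le hb hj Y.2.2
  have hbz := ct_bz_le hb hj Y.2.2
  have hbt' : ‖nf.bt j Y.2.2‖ ≤ C0 * ‖Y‖ := hbt.trans (by gcongr)
  have hbz' : ‖nf.bz j Y.2.2‖ ≤ C0 * ‖Y‖ := hbz.trans (by gcongr)
  refine nf_norm_le ?_ ?_ ?_
  · rw [norm_neg]; nlinarith
  · rw [div_eq_mul_inv, norm_mul]
    have h4 : ‖Y.2.1 - nf.bz j Y.2.2‖ ≤ (1 + C0) * ‖Y‖ := (norm_sub_le _ _).trans (by linarith)
    calc ‖Y.2.1 - nf.bz j Y.2.2‖ * ‖(nf.ell j)⁻¹‖ ≤ ((1 + C0) * ‖Y‖) * 2 :=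
          mul_le_mul h4 (ct_ell_inv hb hj) (norm_nonneg _) (by positivity)
      _ ≤ _ := by nlinarith
  · nlinarith


theorem ct_mem {E : Type*} [NormedAddCommGroup E] {rb d : ℝ} (h : rb ≤ d) {Y : ℂ × ℂ × E} (hY : Y ∈ ball (0 : ℂ × ℂ × E) rb) :
    Y.1 ∈ ball (0 : ℂ) d := by
  rw [mem_ball_zero_iff] at hY ⊢
  exact ((nf_fst_le Y).trans_lt hY).trans_le h

theorem ct_ch_an (hg : CurveOK κ.ρ d0 F g) (hj : F.j0 ≤ j) {rb : ℝ} (hrb : rb ≤ d0) :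
    DifferentiableOn ℂ (nf.ch g j) (ball 0 rb) := by
  unfold NF.ch
  refine DifferentiableOn.add ?_ ?_
  · exact (hg.an j hj).comp differentiable_fst.differentiableOn (fun Y hY => ct_mem hrb hY)
  · fun_prop

theorem ct_ch_sub (Y : ℂ × ℂ × F.A j) : nf.ch g j Y - nf.Lch j Y = g j Y.1 - (Y.1, 0, 0) := by
  unfold NF.ch NF.Lch
  ext
  · simp only [Prod.fst_sub, Prod.fst_add]; ring
  · simp only [Prod.fst_sub, Prod.fst_add, Prod.snd_sub, Prod.snd_add]; ring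
  · simp only [Prod.snd_sub, Prod.snd_add]; abel

theorem ct_ch_le (hd : 0 < d0) (hC0 : 1 ≤ C0) (hb : BalOK κ C0 F nf) (hg : CurveOK κ.ρ d0 F g) (hj : F.j0 ≤ j) {rb : ℝ}
    (hrb : rb ≤ d0) {Y : ℂ × ℂ × F.A j} (hY : Y ∈ ball (0 : ℂ × ℂ × F.A j) rb) :
    ‖nf.ch g j Y‖ ≤ ((1 + (κ.ρ / 2 + d0) / d0 ^ 2 * d0) + 2 * (2 + C0)) * ‖Y‖ := by
  have h1 := ct_g1 hd hg hj (ct_mem hrb hY)
  have h2 := ct_lp_le hC0 hb hj Y
  have hρ := κ.hρ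
  have hG : 0 ≤ 1 + (κ.ρ / 2 + d0) / d0 ^ 2 * d0 := by positivity
  have h3 : (1 + (κ.ρ / 2 + d0) / d0 ^ 2 * d0) * ‖Y.1‖ ≤ (1 + (κ.ρ / 2 + d0) / d0 ^ 2 * d0) * ‖Y‖ :=
    mul_le_mul_of_nonneg_left (nf_fst_le Y) hG
  unfold NF.ch
  refine (norm_add_le _ _).trans ?_
  linarith

theorem ct_ch_lt (hC0 : 1 ≤ C0) (hb : BalOK κ C0 F nf) (hg : CurveOK κ.ρ d0 F g) (hj : F.j0 ≤ j) {rb : ℝ}
    (hrb : rb ≤ d0) (hrb' : 2 * (2 + C0) * rb ≤ κ.ρ / 4) {Y : ℂ × ℂ × F.A j} (hY : Y ∈ ball (0 : ℂ × ℂ × F.A j) rb) :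
    ‖nf.ch g j Y‖ < κ.ρ := by
  have h1 := hg.bd j hj _ (ct_mem hrb hY)
  have h2 := ct_lp_le hC0 hb hj Y
  have hρ := κ.hρ
  rw [mem_ball_zero_iff] at hY
  have h3 : 2 * (2 + C0) * ‖Y‖ ≤ 2 * (2 + C0) * rb := by gcongr
  unfold NF.ch
  refine (norm_add_le _ _).trans_lt ?_
  linarith

theorem ct_ch_par (hb : BalOK κ C0 F nf) (hg : CurveOK κ.ρ d0 F g) (hj : F.j0 ≤ j) {rb : ℝ}
    (hrb : rb ≤ d0) {Y : ℂ × ℂ × F.A j} (hY : Y ∈ ball (0 : ℂ × ℂ × F.A j) rb) :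
    nf.ch g j (F.S j Y) = F.S j (nf.ch g j Y) := by
  have hu := ct_mem hrb hY
  unfold NF.ch Raw.S
  ext
  · simp only [Prod.fst_add, hb.bt_par j hj]
  · simp only [Prod.fst_add, Prod.snd_add, hb.bz_par j hj, ct_z hg hj hu]; ring
  · simp only [Prod.snd_add, map_add, ct_σ hg hj hu]

theorem ct_ell_conj (hb : BalOK κ C0 F nf) (hj : F.j0 ≤ j) : starRingEnd ℂ (nf.ell j) = nf.ell j :=
  Complex.conj_eq_iff_im.mpr (hb.ell_re j hj)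

theorem ct_ch_re (hF : RawOK κ F) (hb : BalOK κ C0 F nf) (hg : CurveOK κ.ρ d0 F g) (hj : F.j0 ≤ j) {rb : ℝ}
    (hrb : rb ≤ d0) {Y : ℂ × ℂ × F.A j} (hY : Y ∈ ball (0 : ℂ × ℂ × F.A j) rb) :
    nf.ch g j (F.K j Y) = F.K j (nf.ch g j Y) := by
  have hu := ct_mem hrb hY
  have hr := hg.real j hj _ hu
  unfold NF.ch
  have e1 : (F.K j Y).1 = starRingEnd ℂ Y.1 := rfl
  rw [e1, ← hr]
  unfold Raw.K
  ext
  · simp only [Prod.fst_add, hb.bt_re j hj, map_add, map_neg]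
  · simp only [Prod.fst_add, Prod.snd_add, hb.bz_re j hj, map_add, map_sub, map_div₀, ct_ell_conj hb hj]
  · simp only [Prod.snd_add, hF.cj_add j hj]

theorem ct_sc_t (hd : 0 < d0) (hb : BalOK κ C0 F nf) (hg : CurveOK κ.ρ d0 F g) (hj : F.j0 ≤ j) {rb : ℝ}
    (hrb : rb ≤ d0) {Y : ℂ × ℂ × F.A j} (hY : Y ∈ ball (0 : ℂ × ℂ × F.A j) rb) :
    ‖(nf.ch g j Y).1 - Y.1‖ ≤ (κ.ρ / 2 + d0) / d0 ^ 2 * ‖Y.1‖ ^ 2 + C0 * ‖Y.2.2‖ := by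
  have hu := ct_mem hrb hY
  have h1 := (nf_fst_le _).trans (ct_gq hd hg hj hu)
  have h2 := ct_bt_le hb hj Y.2.2
  have e : (nf.ch g j Y).1 - Y.1 = (g j Y.1 - (Y.1, 0, 0)).1 - nf.bt j Y.2.2 := by
    unfold NF.ch
    simp only [Prod.fst_add, Prod.fst_sub]; ring
  rw [e]
  exact (norm_sub_le _ _).trans (add_le_add h1 h2)

theorem ct_sc_z (hC0 : 1 ≤ C0) (hb : BalOK κ C0 F nf) (hg : CurveOK κ.ρ d0 F g) (hj : F.j0 ≤ j) {rb : ℝ}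
    (hrb : rb ≤ d0) {Y : ℂ × ℂ × F.A j} (hY : Y ∈ ball (0 : ℂ × ℂ × F.A j) rb) :
    ‖(nf.ch g j Y).2.1 - Y.2.1‖ ≤ 2 * C0 * (Real.exp (-κ.c * j) * ‖Y.2.1‖ + ‖Y.2.2‖) := by
  have hu := ct_mem hrb hY
  have h2 := ct_bz_le hb hj Y.2.2
  have h0 := (nf_ell_le hb hj).2
  have h3 := ct_ell_inv hb hj
  have h4 := (hb.ell_bd j hj).1
  have e : (nf.ch g j Y).2.1 - Y.2.1 = (-(nf.ell j - 1) * Y.2.1 - nf.bz j Y.2.2) * (nf.ell j)⁻¹ := by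
    unfold NF.ch
    simp only [Prod.fst_add, Prod.snd_add, ct_z hg hj hu]
    field_simp
    ring
  rw [e, norm_mul]
  have h5 : ‖-(nf.ell j - 1) * Y.2.1 - nf.bz j Y.2.2‖ ≤ C0 * (Real.exp (-κ.c * j) * ‖Y.2.1‖ + ‖Y.2.2‖) := by
    refine (norm_sub_le _ _).trans ?_
    rw [norm_mul, norm_neg, mul_add, ← mul_assoc]
    exact add_le_add (mul_le_mul_of_nonneg_right h4 (norm_nonneg _)) h2
  calc _ ≤ (C0 * (Real.exp (-κ.c * j) * ‖Y.2.1‖ + ‖Y.2.2‖)) * 2 := mul_le_mul h5 h3 (norm_nonneg _) (by positivity)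
    _ = _ := by ring


/-- local data of the inverse chart at one scale -/
structure ChLoc (r1 r2 K : ℝ) (F : Raw) (g : Curve F) (nf : NF F) (j : ℕ) (V : ℂ → ℂ) : Prop where
  inj : Set.InjOn (fun u => nf.Tb j (g j u)) (ball 0 r1)
  V_an : DifferentiableOn ℂ V (ball 0 r2)
  V_p : ∀ s ∈ ball (0 : ℂ) r2, ‖V s‖ < r1 ∧ nf.Tb j (g j (V s)) = s ∧ ‖V s‖ ≤ 2 * ‖s‖ ∧ ‖V s - s‖ ≤ 4 * K * ‖s‖ ^ 2
  ci_eq : ∀ X, nf.ci j X = (V (nf.Tb j X), nf.Zb j X, X.2.2 - (g j (V (nf.Tb j X))).2.2)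

variable {r1 r2 K r' : ℝ} {V : ℂ → ℂ}

theorem ct_Tb_mem (hC0 : 1 ≤ C0) (hb : BalOK κ C0 F nf) (hj : F.j0 ≤ j) (har : (2 + C0) * r' ≤ r2)
    {X : ℂ × ℂ × F.A j} (hX : X ∈ ball (0 : ℂ × ℂ × F.A j) r') : nf.Tb j X ∈ ball (0 : ℂ) r2 := by
  rw [mem_ball_zero_iff] at hX ⊢
  have h := ct_Tb_le hC0 hb hj X
  have : (2 + C0) * ‖X‖ < (2 + C0) * r' := by gcongr
  linarith

theorem ct_Tb_an : Differentiable ℂ (nf.Tb j) := by unfold NF.Tb; fun_prop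
theorem ct_Zb_an : Differentiable ℂ (nf.Zb j) := by unfold NF.Zb; fun_prop

theorem ct_ci_an (hC0 : 1 ≤ C0) (hb : BalOK κ C0 F nf) (hg : CurveOK κ.ρ d0 F g) (hj : F.j0 ≤ j)
    (hL : ChLoc r1 r2 K F g nf j V) (hr1 : r1 ≤ d0) (har : (2 + C0) * r' ≤ r2) :
    DifferentiableOn ℂ (nf.ci j) (ball 0 r') := by
  have e : nf.ci j = fun X => (V (nf.Tb j X), nf.Zb j X, X.2.2 - (g j (V (nf.Tb j X))).2.2) := funext hL.ci_eq
  rw [e]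
  have h1 : DifferentiableOn ℂ (fun X => V (nf.Tb j X)) (ball (0 : ℂ × ℂ × F.A j) r') :=
    hL.V_an.comp ct_Tb_an.differentiableOn (fun X hX => ct_Tb_mem hC0 hb hj har hX)
  have h2 : DifferentiableOn ℂ (fun X => g j (V (nf.Tb j X))) (ball (0 : ℂ × ℂ × F.A j) r') :=
    (hg.an j hj).comp h1 (fun X hX => by
      rw [mem_ball_zero_iff]
      exact ((hL.V_p _ (ct_Tb_mem hC0 hb hj har hX)).1).trans_le hr1)
  refine h1.prodMk (ct_Zb_an.differentiableOn.prodMk ?_)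
  exact (differentiable_snd.snd.differentiableOn).sub h2.snd.snd

theorem ct_ch_ci (hC0 : 1 ≤ C0) (hb : BalOK κ C0 F nf) (hg : CurveOK κ.ρ d0 F g) (hj : F.j0 ≤ j)
    (hL : ChLoc r1 r2 K F g nf j V) (hr1 : r1 ≤ d0) (har : (2 + C0) * r' ≤ r2)
    {X : ℂ × ℂ × F.A j} (hX : X ∈ ball (0 : ℂ × ℂ × F.A j) r') : nf.ch g j (nf.ci j X) = X := by
  obtain ⟨hV1, hV2, -, -⟩ := hL.V_p _ (ct_Tb_mem hC0 hb hj har hX)
  have hu : V (nf.Tb j X) ∈ ball (0 : ℂ) d0 := by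
    rw [mem_ball_zero_iff]; exact hV1.trans_le hr1
  have h0 := (nf_ell_le hb hj).2
  rw [hL.ci_eq]
  unfold NF.ch
  unfold NF.Tb at hV2
  ext
  · simp only [Prod.fst_add, map_sub]
    unfold NF.Tb
    linear_combination hV2
  · simp only [Prod.fst_add, Prod.snd_add, map_sub, ct_z hg hj hu, ct_bz hb hg hj hu]
    unfold NF.Zb
    field_simp
    ring
  · simp only [Prod.snd_add]; abel


theorem ct_ci_le (hd : 0 < d0) (hC0 : 1 ≤ C0) (hb : BalOK κ C0 F nf) (hg : CurveOK κ.ρ d0 F g) (hj : F.j0 ≤ j)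
    (hL : ChLoc r1 r2 K F g nf j V) (hr1 : r1 ≤ d0) (har : (2 + C0) * r' ≤ r2)
    {X : ℂ × ℂ × F.A j} (hX : X ∈ ball (0 : ℂ × ℂ × F.A j) r') :
    ‖nf.ci j X‖ ≤ (1 + (1 + (1 + (κ.ρ / 2 + d0) / d0 ^ 2 * d0)) * (2 * (2 + C0))) * ‖X‖ := by
  obtain ⟨hV1, -, hV3, -⟩ := hL.V_p _ (ct_Tb_mem hC0 hb hj har hX)
  have hu : V (nf.Tb j X) ∈ ball (0 : ℂ) d0 := by
    rw [mem_ball_zero_iff]; exact hV1.trans_le hr1
  have hρ := κ.hρ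
  set G : ℝ := 1 + (κ.ρ / 2 + d0) / d0 ^ 2 * d0 with hG
  have hG0 : 1 ≤ G := by
    have : 0 ≤ (κ.ρ / 2 + d0) / d0 ^ 2 * d0 := by positivity
    linarith
  have hT := ct_Tb_le hC0 hb hj X
  have hZ := ct_Zb_le hC0 hb hj X
  have hXn := norm_nonneg X
  have hu1 : ‖V (nf.Tb j X)‖ ≤ 2 * (2 + C0) * ‖X‖ := by linarith
  have hg1 : ‖(g j (V (nf.Tb j X))).2.2‖ ≤ G * (2 * (2 + C0) * ‖X‖) :=
    (nf_trd_le _).trans ((ct_g1 hd hg hj hu).trans (by gcongr))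
  have hp : 0 ≤ (2 + C0) * ‖X‖ := by positivity
  rw [hL.ci_eq]
  refine nf_norm_le ?_ ?_ ?_
  · nlinarith
  · nlinarith
  · refine (norm_sub_le _ _).trans ?_
    have := nf_trd_le X
    nlinarith

theorem ct_ci_q (hd : 0 < d0) (hK : 0 ≤ K) (hC0 : 1 ≤ C0) (hb : BalOK κ C0 F nf) (hg : CurveOK κ.ρ d0 F g) (hj : F.j0 ≤ j)
    (hL : ChLoc r1 r2 K F g nf j V) (hr1 : r1 ≤ d0) (har : (2 + C0) * r' ≤ r2)
    {X : ℂ × ℂ × F.A j} (hX : X ∈ ball (0 : ℂ × ℂ × F.A j) r') :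
    ‖nf.ci j X - nf.Lci j X‖ ≤ (4 * (K + (κ.ρ / 2 + d0) / d0 ^ 2) * (2 + C0) ^ 2) * ‖X‖ ^ 2 := by
  obtain ⟨hV1, -, hV3, hV4⟩ := hL.V_p _ (ct_Tb_mem hC0 hb hj har hX)
  have hu : V (nf.Tb j X) ∈ ball (0 : ℂ) d0 := by
    rw [mem_ball_zero_iff]; exact hV1.trans_le hr1
  have hρ := κ.hρ
  set G : ℝ := (κ.ρ / 2 + d0) / d0 ^ 2 with hG
  have hG0 : 0 ≤ G := by positivity
  have hT := ct_Tb_le hC0 hb hj X
  have hXn := norm_nonneg X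
  have hT2 : ‖nf.Tb j X‖ ^ 2 ≤ (2 + C0) ^ 2 * ‖X‖ ^ 2 := by
    rw [← mul_pow]; exact pow_le_pow_left₀ (norm_nonneg _) hT 2
  have hu2 : ‖V (nf.Tb j X)‖ ^ 2 ≤ 4 * ((2 + C0) ^ 2 * ‖X‖ ^ 2) := by
    calc ‖V (nf.Tb j X)‖ ^ 2 ≤ (2 * ‖nf.Tb j X‖) ^ 2 := pow_le_pow_left₀ (norm_nonneg _) hV3 2
      _ = 4 * ‖nf.Tb j X‖ ^ 2 := by ring
      _ ≤ _ := by gcongr
  have hg2 : ‖(g j (V (nf.Tb j X))).2.2‖ ≤ G * (4 * ((2 + C0) ^ 2 * ‖X‖ ^ 2)) := by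
    have h := (nf_trd_le _).trans (ct_gq hd hg hj hu)
    simp only [Prod.snd_sub, sub_zero] at h
    exact h.trans (by gcongr)
  have hq : 0 ≤ (2 + C0) ^ 2 * ‖X‖ ^ 2 := by positivity
  rw [hL.ci_eq]
  unfold NF.Lci
  simp only [Prod.mk_sub_mk, sub_self]
  refine nf_norm_le ?_ ?_ ?_
  · refine hV4.trans ?_
    have : 4 * K * ‖nf.Tb j X‖ ^ 2 ≤ 4 * K * ((2 + C0) ^ 2 * ‖X‖ ^ 2) := by gcongr
    nlinarith
  · rw [norm_zero]; positivity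
  · rw [sub_sub_cancel_left, norm_neg]
    nlinarith

theorem ct_Tb_ch (Y : ℂ × ℂ × F.A j) : nf.Tb j (nf.ch g j Y) = nf.Tb j (g j Y.1) := by
  unfold NF.Tb NF.ch
  simp only [Prod.fst_add, Prod.snd_add, map_add]; ring

theorem ct_ci_ch (hC0 : 1 ≤ C0) (hb : BalOK κ C0 F nf) (hg : CurveOK κ.ρ d0 F g) (hj : F.j0 ≤ j)
    (hL : ChLoc r1 r2 K F g nf j V) (hr1 : r1 ≤ d0) (har : (2 + C0) * r' ≤ r2)
    {Y : ℂ × ℂ × F.A j} (hY1 : Y.1 ∈ ball (0 : ℂ) r1) (hY : nf.ch g j Y ∈ ball (0 : ℂ × ℂ × F.A j) r') :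
    nf.ci j (nf.ch g j Y) = Y := by
  obtain ⟨hV1, hV2, -, -⟩ := hL.V_p _ (ct_Tb_mem hC0 hb hj har hY)
  have hu : Y.1 ∈ ball (0 : ℂ) d0 := ball_subset_ball hr1 hY1
  have h0 := (nf_ell_le hb hj).2
  have hV : V (nf.Tb j (nf.ch g j Y)) = Y.1 := by
    refine hL.inj (by rw [mem_ball_zero_iff]; exact hV1) hY1 ?_
    simp only
    rw [hV2, ct_Tb_ch]
  rw [hL.ci_eq, hV]
  ext
  · rfl
  · unfold NF.Zb NF.ch
    simp only [Prod.fst_add, Prod.snd_add, map_add, ct_z hg hj hu, ct_bz hb hg hj hu]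
    field_simp
    ring
  · unfold NF.ch
    simp only [Prod.snd_add]; abel

theorem ct_S_mem (hF : RawOK κ F) {X : ℂ × ℂ × F.A j} (hX : X ∈ ball (0 : ℂ × ℂ × F.A j) r') :
    F.S j X ∈ ball (0 : ℂ × ℂ × F.A j) r' := by
  rw [mem_ball_zero_iff] at hX ⊢
  unfold Raw.S
  refine nf_norm_lt ((nf_fst_le X).trans_lt hX) ?_ (((hF.σ_bd j _).trans (nf_trd_le X)).trans_lt hX)
  rw [norm_neg]; exact (nf_snd_le X).trans_lt hX

theorem ct_K_mem (hF : RawOK κ F) (hj : F.j0 ≤ j) {X : ℂ × ℂ × F.A j} (hX : X ∈ ball (0 : ℂ × ℂ × F.A j) r') :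
    F.K j X ∈ ball (0 : ℂ × ℂ × F.A j) r' := by
  rw [mem_ball_zero_iff] at hX ⊢
  unfold Raw.K
  refine nf_norm_lt ?_ ?_ (((hF.cj_bd j hj _).trans (nf_trd_le X)).trans_lt hX)
  · rw [RCLike.norm_conj]; exact (nf_fst_le X).trans_lt hX
  · rw [RCLike.norm_conj]; exact (nf_snd_le X).trans_lt hX

theorem ct_ci_par (hC0 : 1 ≤ C0) (hb : BalOK κ C0 F nf) (hg : CurveOK κ.ρ d0 F g) (hj : F.j0 ≤ j)
    (hL : ChLoc r1 r2 K F g nf j V) (hr1 : r1 ≤ d0) (har : (2 + C0) * r' ≤ r2)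
    {X : ℂ × ℂ × F.A j} (hX : X ∈ ball (0 : ℂ × ℂ × F.A j) r') : nf.ci j (F.S j X) = F.S j (nf.ci j X) := by
  obtain ⟨hV1, -, -, -⟩ := hL.V_p _ (ct_Tb_mem hC0 hb hj har hX)
  have hu : V (nf.Tb j X) ∈ ball (0 : ℂ) d0 := by
    rw [mem_ball_zero_iff]; exact hV1.trans_le hr1
  have eT : nf.Tb j (F.S j X) = nf.Tb j X := by
    unfold NF.Tb Raw.S; simp only [hb.bt_par j hj]
  have eZ : nf.Zb j (F.S j X) = -nf.Zb j X := by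
    unfold NF.Zb Raw.S; simp only [hb.bz_par j hj]; ring
  rw [hL.ci_eq, hL.ci_eq, eT, eZ]
  unfold Raw.S
  simp only [map_sub, ct_σ hg hj hu]

theorem ct_cj_sub (hF : RawOK κ F) (hj : F.j0 ≤ j) (R R' : F.A j) : F.cj j (R - R') = F.cj j R - F.cj j R' := by
  have h := hF.cj_smul j hj (-1) R'
  simp only [neg_smul, one_smul, map_neg, map_one] at h
  rw [sub_eq_add_neg, hF.cj_add j hj, h, ← sub_eq_add_neg]

theorem ct_ci_re (hF : RawOK κ F) (hC0 : 1 ≤ C0) (hb : BalOK κ C0 F nf) (hg : CurveOK κ.ρ d0 F g) (hj : F.j0 ≤ j)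
    (hL : ChLoc r1 r2 K F g nf j V) (hr1 : r1 ≤ d0) (har : (2 + C0) * r' ≤ r2)
    {X : ℂ × ℂ × F.A j} (hX : X ∈ ball (0 : ℂ × ℂ × F.A j) r') : nf.ci j (F.K j X) = F.K j (nf.ci j X) := by
  obtain ⟨hV1, hV2, -, -⟩ := hL.V_p _ (ct_Tb_mem hC0 hb hj har hX)
  obtain ⟨hW1, hW2, -, -⟩ := hL.V_p _ (ct_Tb_mem hC0 hb hj har (ct_K_mem hF hj hX))
  have hu : V (nf.Tb j X) ∈ ball (0 : ℂ) d0 := by
    rw [mem_ball_zero_iff]; exact hV1.trans_le hr1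
  have eT : ∀ X : ℂ × ℂ × F.A j, nf.Tb j (F.K j X) = starRingEnd ℂ (nf.Tb j X) := by
    intro X
    unfold NF.Tb Raw.K; simp only [hb.bt_re j hj, map_add]
  have eZ : nf.Zb j (F.K j X) = starRingEnd ℂ (nf.Zb j X) := by
    unfold NF.Zb Raw.K; simp only [hb.bz_re j hj, map_add, map_mul, ct_ell_conj hb hj]
  have hV : V (nf.Tb j (F.K j X)) = starRingEnd ℂ (V (nf.Tb j X)) := by
    refine hL.inj (by rw [mem_ball_zero_iff]; exact hW1) (by rw [mem_ball_zero_iff, RCLike.norm_conj]; exact hV1) ?_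
    simp only
    rw [hW2, ← hg.real j hj _ hu, eT, eT, hV2]
  rw [hL.ci_eq, hL.ci_eq, hV, eZ, ← hg.real j hj _ hu]
  unfold Raw.K
  simp only [ct_cj_sub hF hj]


theorem ct_Tg (hC0 : 1 ≤ C0) (hb : BalOK κ C0 F nf) (hg : CurveOK κ.ρ d0 F g) (hj : F.j0 ≤ j) :
    DifferentiableOn ℂ (fun u => nf.Tb j (g j u)) (ball 0 d0) ∧
      (∀ u ∈ ball (0 : ℂ) d0, ‖nf.Tb j (g j u)‖ ≤ (2 + C0) * (κ.ρ / 2)) ∧ nf.Tb j (g j 0) = 0 ∧
      HasDerivAt (fun u => nf.Tb j (g j u)) 1 0 := by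
  refine ⟨(ct_Tb_an (nf := nf) (j := j)).comp_differentiableOn (hg.an j hj), fun u hu => ?_, ?_, ?_⟩
  · exact (ct_Tb_le hC0 hb hj _).trans (mul_le_mul_of_nonneg_left (hg.bd j hj u hu) (by linarith))
  · rw [hg.zero j hj]; simp [NF.Tb]
  · let L : (ℂ × ℂ × F.A j) →L[ℂ] ℂ := ContinuousLinearMap.fst ℂ ℂ (ℂ × F.A j) +
      (nf.bt j).comp ((ContinuousLinearMap.snd ℂ ℂ (F.A j)).comp (ContinuousLinearMap.snd ℂ ℂ (ℂ × F.A j)))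
    have h := L.hasFDerivAt.comp_hasDerivAt (0 : ℂ) (hg.der j hj)
    have e : L ((1 : ℂ), (0 : ℂ), (0 : F.A j)) = 1 := by simp [L]
    rw [e] at h
    exact h

end loc

theorem BalOK.mono {κ : RawC} {C1 D1 : ℝ} {F : Raw} {nf : NF F} (h : BalOK κ C1 F nf) (hD : C1 ≤ D1) : BalOK κ D1 F nf where
  ell_rec := h.ell_rec
  ell_bd := fun j hj => ⟨(h.ell_bd j hj).1.trans (by gcongr), (h.ell_bd j hj).2⟩
  ell_re := h.ell_re
  bt_rec := h.bt_rec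
  bz_rec := h.bz_rec
  bt_bd := fun j hj => (h.bt_bd j hj).trans hD
  bz_bd := fun j hj => (h.bz_bd j hj).trans hD
  bt_par := h.bt_par
  bz_par := h.bz_par
  bt_re := h.bt_re
  bz_re := h.bz_re

/-- `ChartOK` is monotone in the small radius and in the constant -/
theorem ChartOK.mono {κ : RawC} {r r' rb C1 s D1 : ℝ} {F : Raw} {g : Curve F} {nf : NF F}
    (h : ChartOK κ r r' rb C1 F g nf) (hs : s ≤ r) (hD : C1 ≤ D1) : ChartOK κ s r' rb D1 F g nf where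
  bal := h.bal.mono hD
  ch_an := h.ch_an
  ch_bd := fun j hj Y hY => ⟨(h.ch_bd j hj Y hY).1.trans (by gcongr), (h.ch_bd j hj Y hY).2⟩
  ch_q := fun j hj Y hY => (h.ch_q j hj Y hY).trans (by gcongr)
  ci_an := h.ci_an
  ci_bd := fun j hj X hX => ⟨(h.ci_bd j hj X hX).1.trans (by gcongr), (h.ci_bd j hj X hX).2⟩
  ci_q := fun j hj X hX => (h.ci_q j hj X hX).trans (by gcongr)
  ch_ci := h.ch_ci
  ci_ch := fun j hj Y hY => h.ci_ch j hj Y (ball_subset_ball hs hY)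
  ci_par := h.ci_par
  ci_re := h.ci_re
  ch_par := h.ch_par
  ch_re := h.ch_re
  sc_t := fun j hj Y hY => (h.sc_t j hj Y hY).trans (by gcongr)
  sc_z := fun j hj Y hY => (h.sc_z j hj Y hY).trans (by gcongr)

theorem ct_assemble {κ : RawC} {d0 C0 r1 r2 K r r' rb C1 G2 Cch Cci : ℝ} (hd : 0 < d0) (hC0 : 1 ≤ C0) (hK : 0 ≤ K)
    (hG2 : G2 = (κ.ρ / 2 + d0) / d0 ^ 2) (hCch : Cch = (1 + G2 * d0) + 2 * (2 + C0))
    (hCci : Cci = 1 + (1 + (1 + G2 * d0)) * (2 * (2 + C0)))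
    (hr1 : r1 ≤ d0) (hrb1 : rb ≤ r1) (hrb' : 2 * (2 + C0) * rb ≤ κ.ρ / 4) (har : (2 + C0) * r' ≤ r2)
    (hci : Cci * r' ≤ rb) (hch : Cch * r ≤ r') (hrr : r ≤ r') (hr'b : r' ≤ rb)
    (h1 : C0 ≤ C1) (h2 : Cch ≤ C1) (h3 : G2 ≤ C1) (h4 : Cci ≤ C1) (h5 : 4 * (K + G2) * (2 + C0) ^ 2 ≤ C1) (h6 : 2 * C0 ≤ C1)
    {F : Raw} {g : Curve F} {nf : NF F} (hF : RawOK κ F) (hg : CurveOK κ.ρ d0 F g) (hb : BalOK κ C0 F nf)
    (V : ℕ → ℂ → ℂ) (hL : ∀ j, F.j0 ≤ j → ChLoc r1 r2 K F g nf j (V j)) : ChartOK κ r r' rb C1 F g nf := by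
  have hρ := κ.hρ
  have hG20 : 0 ≤ G2 := by rw [hG2]; positivity
  have hCch0 : 0 < Cch := by rw [hCch]; positivity
  have hCci0 : 0 < Cci := by rw [hCci]; positivity
  subst hG2 hCch hCci
  have hrbd : rb ≤ d0 := hrb1.trans hr1
  refine
    { bal := hb.mono h1
      ch_an := fun j hj => ct_ch_an hg hj hrbd
      ch_bd := fun j hj Y hY => ⟨(ct_ch_le hd hC0 hb hg hj hrbd hY).trans (mul_le_mul_of_nonneg_right h2 (norm_nonneg _)),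
        ct_ch_lt hC0 hb hg hj hrbd hrb' hY⟩
      ch_q := fun j hj Y hY => ?_
      ci_an := fun j hj => ct_ci_an hC0 hb hg hj (hL j hj) hr1 har
      ci_bd := fun j hj X hX => ?_
      ci_q := fun j hj X hX => (ct_ci_q hd hK hC0 hb hg hj (hL j hj) hr1 har hX).trans
        (mul_le_mul_of_nonneg_right h5 (by positivity))
      ch_ci := fun j hj X hX => ct_ch_ci hC0 hb hg hj (hL j hj) hr1 har hX
      ci_ch := fun j hj Y hY => ?_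
      ci_par := fun j hj X hX => ct_ci_par hC0 hb hg hj (hL j hj) hr1 har hX
      ci_re := fun j hj X hX => ct_ci_re hF hC0 hb hg hj (hL j hj) hr1 har hX
      ch_par := fun j hj Y hY => ct_ch_par hb hg hj hrbd hY
      ch_re := fun j hj Y hY => ct_ch_re hF hb hg hj hrbd hY
      sc_t := fun j hj Y hY => ?_
      sc_z := fun j hj Y hY => (ct_sc_z hC0 hb hg hj hrbd hY).trans (mul_le_mul_of_nonneg_right h6 (by positivity)) }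
  · rw [ct_ch_sub]
    exact (ct_gq hd hg hj (ct_mem hrbd hY)).trans (mul_le_mul_of_nonneg_right h3 (by positivity))
  · have h := ct_ci_le hd hC0 hb hg hj (hL j hj) hr1 har hX
    refine ⟨h.trans (mul_le_mul_of_nonneg_right h4 (norm_nonneg _)), h.trans_lt (lt_of_lt_of_le ?_ hci)⟩
    rw [mem_ball_zero_iff] at hX
    exact mul_lt_mul_of_pos_left hX hCci0
  · have hYb : Y ∈ ball (0 : ℂ × ℂ × F.A j) rb := ball_subset_ball (hrr.trans hr'b) hY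
    have h := ct_ch_le hd hC0 hb hg hj hrbd hYb
    have hlt : ‖nf.ch g j Y‖ < r' := by
      refine h.trans_lt (lt_of_lt_of_le ?_ hch)
      rw [mem_ball_zero_iff] at hY
      exact mul_lt_mul_of_pos_left hY hCch0
    exact ⟨hlt, ct_ci_ch hC0 hb hg hj (hL j hj) hr1 har (ct_mem ((hrr.trans hr'b).trans hrb1) hY)
      (by rw [mem_ball_zero_iff]; exact hlt)⟩
  · refine (ct_sc_t hd hb hg hj hrbd hY).trans ?_
    rw [mul_add]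
    exact add_le_add (mul_le_mul_of_nonneg_right h3 (by positivity)) (mul_le_mul_of_nonneg_right h1 (norm_nonneg _))

/-- **T2a**: the charts exist; the constants depend only on `κ`, `d0` -/
theorem chart_exists (κ : RawC) (d0 : ℝ) (hd : 0 < d0) :
    ∃ r r' rb C1 : ℝ, 0 < r ∧ r ≤ r' ∧ r' ≤ rb ∧ rb ≤ d0 ∧ 1 ≤ C1 ∧
      ∀ (F : Raw) (g : Curve F), RawOK κ F → CurveOK κ.ρ d0 F g → ∃ nf : NF F, ChartOK κ r r' rb C1 F g nf := by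
  obtain ⟨C0, hC0, hbal⟩ := balance_exists κ
  have hρ := κ.hρ
  obtain ⟨r1, r2, K, hr2, hr21, hr1, hK, hinv⟩ := sw_inv d0 ((2 + C0) * (κ.ρ / 2)) hd (by positivity)
  obtain ⟨G2, hG2⟩ : ∃ x : ℝ, x = (κ.ρ / 2 + d0) / d0 ^ 2 := ⟨_, rfl⟩
  have hG20 : 0 ≤ G2 := by rw [hG2]; positivity
  obtain ⟨Cch, hCch⟩ : ∃ x : ℝ, x = (1 + G2 * d0) + 2 * (2 + C0) := ⟨_, rfl⟩
  obtain ⟨Cci, hCci⟩ : ∃ x : ℝ, x = 1 + (1 + (1 + G2 * d0)) * (2 * (2 + C0)) := ⟨_, rfl⟩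
  have hCch0 : 1 ≤ Cch := by
    rw [hCch]
    have : 0 ≤ G2 * d0 := by positivity
    linarith
  have hCci0 : 1 ≤ Cci := by
    rw [hCci]
    have : 0 ≤ (1 + (1 + G2 * d0)) * (2 * (2 + C0)) := by positivity
    linarith
  have ha : 0 < 2 + C0 := by linarith
  have hr1p : 0 < r1 := hr2.trans_le hr21
  obtain ⟨rb, hrb⟩ : ∃ x : ℝ, x = min r1 (κ.ρ / (8 * (2 + C0))) := ⟨_, rfl⟩
  have hrb0 : 0 < rb := by rw [hrb]; exact lt_min hr1p (by positivity)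
  have hrb1 : rb ≤ r1 := by rw [hrb]; exact min_le_left _ _
  have hrb2 : 2 * (2 + C0) * rb ≤ κ.ρ / 4 := by
    have : rb ≤ κ.ρ / (8 * (2 + C0)) := by rw [hrb]; exact min_le_right _ _
    rw [le_div_iff₀ (by positivity)] at this
    linarith
  obtain ⟨r', hr'⟩ : ∃ x : ℝ, x = min rb (min (r2 / (2 + C0)) (rb / Cci)) := ⟨_, rfl⟩
  have hr'0 : 0 < r' := by rw [hr']; exact lt_min hrb0 (lt_min (by positivity) (by positivity))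
  have hr'b : r' ≤ rb := by rw [hr']; exact min_le_left _ _
  have har : (2 + C0) * r' ≤ r2 := by
    have : r' ≤ r2 / (2 + C0) := by rw [hr']; exact (min_le_right _ _).trans (min_le_left _ _)
    rw [le_div_iff₀ ha] at this
    linarith
  have hci : Cci * r' ≤ rb := by
    have : r' ≤ rb / Cci := by rw [hr']; exact (min_le_right _ _).trans (min_le_right _ _)
    rw [le_div_iff₀ (by linarith)] at this
    linarith
  have hr0 : 0 < r' / Cch := by positivity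
  have hrr : r' / Cch ≤ r' := div_le_self hr'0.le hCch0
  have hch : Cch * (r' / Cch) ≤ r' := by
    rw [mul_div_cancel₀ _ (by linarith : Cch ≠ 0)]
  have hq : 0 ≤ 4 * (K + G2) * (2 + C0) ^ 2 := by positivity
  refine ⟨r' / Cch, r', rb, 2 * C0 + Cch + Cci + G2 + 4 * (K + G2) * (2 + C0) ^ 2, hr0, hrr, hr'b, hrb1.trans hr1,
    by linarith, fun F g hF hg => ?_⟩
  obtain ⟨ell, bt, bz, hb⟩ := hbal F hF
  have hV : ∀ j, ∃ V : ℂ → ℂ, F.j0 ≤ j → DifferentiableOn ℂ V (ball 0 r2) ∧ ∀ s ∈ ball (0 : ℂ) r2,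
      ‖V s‖ < r1 ∧ (⟨ell, bt, bz, fun _ X => X⟩ : NF F).Tb j (g j (V s)) = s ∧ ‖V s‖ ≤ 2 * ‖s‖ ∧
        ‖V s - s‖ ≤ 4 * K * ‖s‖ ^ 2 := by
    intro j
    by_cases hj : F.j0 ≤ j
    · obtain ⟨t1, t2, t3, t4⟩ := ct_Tg hC0 (hb _) hg hj
      obtain ⟨-, -, V, hV⟩ := hinv _ t1 t2 t3 t4
      exact ⟨V, fun _ => hV⟩
    · exact ⟨id, fun h => absurd h hj⟩
  choose V hV using hV
  refine ⟨⟨ell, bt, bz, fun j X => (V j ((⟨ell, bt, bz, fun _ X => X⟩ : NF F).Tb j X),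
    (⟨ell, bt, bz, fun _ X => X⟩ : NF F).Zb j X,
    X.2.2 - (g j (V j ((⟨ell, bt, bz, fun _ X => X⟩ : NF F).Tb j X))).2.2)⟩, ?_⟩
  refine ct_assemble hd hC0 hK hG2 hCch hCci hr1 hrb1 hrb2 har hci hch hrr hr'b (by linarith) (by linarith) (by linarith)
    (by linarith) (by linarith) (by linarith) hF hg (hb _) V (fun j hj => ?_)
  obtain ⟨t1, t2, t3, t4⟩ := ct_Tg hC0 (hb (fun _ X => X)) hg hj
  exact ⟨(hinv _ t1 t2 t3 t4).1, (hV j hj).1, (hV j hj).2, fun X => rfl⟩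

end Claimed.Agent.R285.B10
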