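import Claimed.Agent.R285.Flow.Defs
import Claimed.Agent.R285.Flow.Schwarz2
import Claimed.Agent.R285.Flow.NForm

/-!
# ROW 285, layer FLOW, leaf COEF: identification of `H_j`, `b_j` with the balanced coefficients of [B] P8.4        (contract helper21)

Plan.  With `Y₊ = N (u, Z, 0)`, `X₊ = Φ (ch (u, Z, 0))`, `ch (j+1) Y₊ = X₊` (`conj`):  `Tb X₊ = Tg (u₊)`, `Tg u = u + O(u²)`, and `Zb X₊ = Z₊`.
* `Hc`: `u₊ (0, Z) = O(Z²)` (`N_q`), so `Tb X₊ - u₊ = O(Z⁴)`: equal second derivatives at `0`.  `ch (0, Z, 0) = (0, Z / ell, 0)`.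
* `bc`: `Z₊ (u, Z) = Zb (Φ (g j u + (0, Z / ell, 0)))`, and `g j u = (u, 0, 0) + O(u²)`: by `sw_diff` the difference with
  `Zb (Φ (u, Z / ell, 0))` is odd in `Z` and `O(|u|² ...)`; compare the `Z`-derivatives at `0` (`O(u²)`), then the `u`-derivative at `0`.
Also useful for the consumers: the coefficients are characterised by their expansions (`coef_char_*`).

Proof as written (helper213): `coef_char_*` first (Taylor expansions `sw_taylor3`, `sw_odd` + a polynomial of degree two which is `O(z³)` vanishes, `cf_poly_zero`);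
`coef_eq` = `coef_char_*` for `c = -Hc`, `c = -bc`, the expansions being `N_u`, `N_Z` transported by `conj`; the shift from `g j u` to `(u, 0, 0)` costs `O(|u|² |z|)`
(`cf_shift`: `sw_diff` + Schwarz lemma in `z`).
-/

set_option autoImplicit false

namespace Claimed.Agent.R285.B10

open Filter Topology Metric

/-! ### polynomials of degree two which are `O(z³)` -/

theorem cf_zero_of_le {g : ℂ → ℂ} {h : ℂ → ℝ} (hg : ContinuousAt g 0) (hh : Tendsto h (𝓝[≠] 0) (𝓝 0))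
    (hle : ∀ᶠ z in 𝓝[≠] (0 : ℂ), ‖g z‖ ≤ h z) : g 0 = 0 := by
  have h1 : Tendsto (fun z => ‖g z‖) (𝓝[≠] 0) (𝓝 ‖g 0‖) := hg.norm.tendsto.mono_left nhdsWithin_le_nhds
  exact norm_le_zero_iff.1 (le_of_tendsto_of_tendsto h1 hh hle)

theorem cf_poly_zero {a b c : ℂ} {K : ℝ} (h : ∀ᶠ z : ℂ in 𝓝 0, ‖a + b * z + c * z ^ 2‖ ≤ K * ‖z‖ ^ 3) :
    a = 0 ∧ b = 0 ∧ c = 0 := by
  have hK : ∀ n : ℕ, n ≠ 0 → Tendsto (fun z : ℂ => K * ‖z‖ ^ n) (𝓝[≠] 0) (𝓝 0) := by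
    intro n hn
    have h1 : Tendsto (fun z : ℂ => K * ‖z‖ ^ n) (𝓝 0) (𝓝 (K * ‖(0 : ℂ)‖ ^ n)) :=
      (continuous_const.mul (continuous_norm.pow n)).tendsto 0
    rw [norm_zero, zero_pow hn, mul_zero] at h1
    exact h1.mono_left nhdsWithin_le_nhds
  have h' : ∀ᶠ z : ℂ in 𝓝[≠] 0, ‖a + b * z + c * z ^ 2‖ ≤ K * ‖z‖ ^ 3 := h.filter_mono nhdsWithin_le_nhds
  have ha : a = 0 := by
    have := cf_zero_of_le (g := fun z => a + b * z + c * z ^ 2) (by fun_prop) (hK 3 (by norm_num)) h'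
    simpa using this
  subst ha
  have hb : b = 0 := by
    have := cf_zero_of_le (g := fun z => b + c * z) (by fun_prop) (hK 2 (by norm_num)) (by
      filter_upwards [h', self_mem_nhdsWithin] with z hz hz0
      have hp : 0 < ‖z‖ := norm_pos_iff.2 hz0
      have e : (0 : ℂ) + b * z + c * z ^ 2 = (b + c * z) * z := by ring
      rw [e, norm_mul] at hz
      have h2 : ‖b + c * z‖ * ‖z‖ ≤ (K * ‖z‖ ^ 2) * ‖z‖ := hz.trans_eq (by ring)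
      exact le_of_mul_le_mul_right h2 hp)
    simpa using this
  subst hb
  have hc : c = 0 := by
    have := cf_zero_of_le (g := fun _ => c) (by fun_prop) (hK 1 (by norm_num)) (by
      filter_upwards [h', self_mem_nhdsWithin] with z hz hz0
      have hp : 0 < ‖z‖ ^ 2 := pow_pos (norm_pos_iff.2 hz0) 2
      have e : (0 : ℂ) + 0 * z + c * z ^ 2 = c * z ^ 2 := by ring
      rw [e, norm_mul, norm_pow] at hz
      have h2 : ‖c‖ * ‖z‖ ^ 2 ≤ (K * ‖z‖ ^ 1) * ‖z‖ ^ 2 := hz.trans_eq (by ring)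
      exact le_of_mul_le_mul_right h2 hp)
    simpa using this
  exact ⟨rfl, rfl, hc⟩

/-! ### the balanced scalars -/

variable {κ : RawC} {d0 C1 : ℝ} {F : Raw} {g : Curve F} {nf : NF F}

theorem cf_Tb_sub (j : ℕ) (X X' : ℂ × ℂ × F.A j) : nf.Tb j (X - X') = nf.Tb j X - nf.Tb j X' := by
  unfold NF.Tb
  simp only [Prod.fst_sub, Prod.snd_sub, map_sub]; ring

theorem cf_Zb_sub (j : ℕ) (X X' : ℂ × ℂ × F.A j) : nf.Zb j (X - X') = nf.Zb j X - nf.Zb j X' := by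
  unfold NF.Zb
  simp only [Prod.fst_sub, Prod.snd_sub, map_sub]; ring

theorem cf_C1_nonneg (hb : BalOK κ C1 F nf) : 0 ≤ C1 := (norm_nonneg _).trans (hb.bt_bd F.j0 le_rfl)

theorem cf_Tb_le (hb : BalOK κ C1 F nf) {j : ℕ} (hj : F.j0 ≤ j) (X : ℂ × ℂ × F.A j) : ‖nf.Tb j X‖ ≤ (2 + C1) * ‖X‖ := by
  have h1 := nf_fst_le X
  have h3 := nf_trd_le X
  have hX := norm_nonneg X
  have hC := cf_C1_nonneg hb
  have hbt : ‖nf.bt j X.2.2‖ ≤ C1 * ‖X‖ :=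
    ((nf.bt j).le_opNorm _).trans (mul_le_mul (hb.bt_bd j hj) h3 (norm_nonneg _) hC)
  unfold NF.Tb
  calc ‖X.1 + nf.bt j X.2.2‖ ≤ ‖X.1‖ + ‖nf.bt j X.2.2‖ := norm_add_le _ _
    _ ≤ (2 + C1) * ‖X‖ := by nlinarith

theorem cf_Zb_le (hb : BalOK κ C1 F nf) {j : ℕ} (hj : F.j0 ≤ j) (X : ℂ × ℂ × F.A j) : ‖nf.Zb j X‖ ≤ (2 + C1) * ‖X‖ := by
  have h2 := nf_snd_le X
  have h3 := nf_trd_le X
  have hX := norm_nonneg X
  have hC := cf_C1_nonneg hb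
  have hbz : ‖nf.bz j X.2.2‖ ≤ C1 * ‖X‖ :=
    ((nf.bz j).le_opNorm _).trans (mul_le_mul (hb.bz_bd j hj) h3 (norm_nonneg _) hC)
  unfold NF.Zb
  calc ‖nf.ell j * X.2.1 + nf.bz j X.2.2‖ ≤ ‖nf.ell j * X.2.1‖ + ‖nf.bz j X.2.2‖ := norm_add_le _ _
    _ ≤ 2 * ‖X‖ + C1 * ‖X‖ := by
      rw [norm_mul]
      exact add_le_add (mul_le_mul (nf_ell_le hb hj).1 h2 (norm_nonneg _) (by norm_num)) hbz
    _ = (2 + C1) * ‖X‖ := by ring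

theorem cf_Tb_diff {E' : Type*} [NormedAddCommGroup E'] [NormedSpace ℂ E'] {j : ℕ} {f : E' → ℂ × ℂ × F.A j} {s : Set E'}
    (hf : DifferentiableOn ℂ f s) : DifferentiableOn ℂ (fun x => nf.Tb j (f x)) s := by
  unfold NF.Tb
  exact hf.fst.add ((nf.bt j).differentiable.comp_differentiableOn hf.snd.snd)

theorem cf_Zb_diff {E' : Type*} [NormedAddCommGroup E'] [NormedSpace ℂ E'] {j : ℕ} {f : E' → ℂ × ℂ × F.A j} {s : Set E'}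
    (hf : DifferentiableOn ℂ f s) : DifferentiableOn ℂ (fun x => nf.Zb j (f x)) s := by
  unfold NF.Zb
  exact (hf.snd.fst.const_mul _).add ((nf.bz j).differentiable.comp_differentiableOn hf.snd.snd)

theorem cf_ell_ge (hb : BalOK κ C1 F nf) {j : ℕ} (hj : F.j0 ≤ j) : 1 / 2 ≤ ‖nf.ell j‖ := by
  have h := (hb.ell_bd j hj).2
  have h1 : ‖(1 : ℂ)‖ - ‖nf.ell j‖ ≤ ‖(1 : ℂ) - nf.ell j‖ := norm_sub_norm_le _ _
  rw [norm_one, norm_sub_rev] at h1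
  linarith

theorem cf_div_le (hb : BalOK κ C1 F nf) {j : ℕ} (hj : F.j0 ≤ j) (μ : ℂ) : ‖μ / nf.ell j‖ ≤ 2 * ‖μ‖ := by
  have h := cf_ell_ge hb hj
  rw [norm_div, div_le_iff₀ (by linarith)]
  nlinarith [norm_nonneg μ]

theorem cf_Zb_S (hb : BalOK κ C1 F nf) {j : ℕ} (hj : F.j0 ≤ j) (X : ℂ × ℂ × F.A j) :
    nf.Zb j (F.S j X) = -nf.Zb j X := by
  unfold NF.Zb Raw.S
  simp only [hb.bz_par j hj]
  ring

theorem cf_Zb_fix (hb : BalOK κ C1 F nf) {j : ℕ} (hj : F.j0 ≤ j) {X : ℂ × ℂ × F.A j} (hX : F.S j X = X) :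
    nf.Zb j X = 0 := by
  have h := cf_Zb_S hb hj X
  rw [hX] at h
  have h2 : (2 : ℂ) * nf.Zb j X = 0 := by linear_combination h
  simpa using h2

theorem cf_Zb_lin (hb : BalOK κ C1 F nf) {j : ℕ} (hj : F.j0 ≤ j) (X : ℂ × ℂ × F.A j) :
    nf.Zb (j + 1) (F.lin j X) = nf.Zb j X := by
  unfold NF.Zb Raw.lin
  simp only [hb.bz_rec j hj X.2.2]
  rw [hb.ell_rec j hj]
  ring

theorem cf_S_sub (j : ℕ) (X X' : ℂ × ℂ × F.A j) : F.S j (X - X') = F.S j X - F.S j X' := by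
  unfold Raw.S
  ext
  · simp only [Prod.fst_sub]
  · simp only [Prod.fst_sub, Prod.snd_sub]; ring
  · simp only [Prod.snd_sub, map_sub]

theorem cf_S_add (j : ℕ) (X X' : ℂ × ℂ × F.A j) : F.S j (X + X') = F.S j X + F.S j X' := by
  unfold Raw.S
  ext
  · simp only [Prod.fst_add]
  · simp only [Prod.fst_add, Prod.snd_add]; ring
  · simp only [Prod.snd_add, map_add]

theorem cf_S_line (j : ℕ) (u : ℂ) : F.S j (u, 0, 0) = (u, 0, 0) := by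
  unfold Raw.S
  simp

theorem cf_S_slice (j : ℕ) (u z : ℂ) : F.S j (u, z, 0) = (u, -z, 0) := by
  unfold Raw.S
  simp

/-- the bound of `Φ` on its ball -/
theorem cf_Phi_bd (hF : RawOK κ F) {j : ℕ} (hj : F.j0 ≤ j) {X : ℂ × ℂ × F.A j} (hX : X ∈ ball (0 : ℂ × ℂ × F.A j) κ.ρ) :
    ‖F.Φ j X‖ ≤ (2 + κ.C) * κ.ρ + κ.C * κ.ρ ^ 2 := by
  have h := nf_Phi_le hF hj hX
  have hC := κ.hC
  have h1 : ‖X‖ ≤ κ.ρ := (mem_ball_zero_iff.1 hX).le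
  have h0 := norm_nonneg X
  refine h.trans (add_le_add (by gcongr) (by gcongr))

theorem cf_slice_mem (hb : BalOK κ C1 F nf) {j : ℕ} (hj : F.j0 ≤ j) {l μ : ℂ} (hl : l ∈ ball (0 : ℂ) (κ.ρ / 2))
    (hμ : μ ∈ ball (0 : ℂ) (κ.ρ / 2)) : ((l, μ / nf.ell j, 0) : ℂ × ℂ × F.A j) ∈ ball (0 : ℂ × ℂ × F.A j) κ.ρ := by
  rw [mem_ball_zero_iff] at *
  have := cf_div_le hb hj μ
  have hρ := κ.hρ
  exact nf_norm_lt (by linarith) (by linarith) (by simpa using hρ)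

/-- a number `c` with `Tb (Φ (0, z, 0)) = c (ℓ z)² + O(z³)` is `b_j^{zz}` -/
theorem coef_char_zz (κ : RawC) (C1 : ℝ) (F : Raw) (nf : NF F) (hF : RawOK κ F) (hb : BalOK κ C1 F nf) (j : ℕ) (hj : F.j0 ≤ j)
    (c : ℂ) (K : ℝ) (hc : ∀ᶠ z : ℂ in 𝓝 0, ‖nf.Tb (j + 1) (F.Φ j (0, z, 0)) - c * (nf.ell j * z) ^ 2‖ ≤ K * ‖z‖ ^ 3) :
    nf.bzz j = c := by
  have hj1 : F.j0 ≤ j + 1 := hj.trans (Nat.le_succ j)
  have hρ := κ.hρ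
  have hR : 0 < κ.ρ / 2 := by linarith
  have hl0 := (nf_ell_le hb hj).2
  obtain ⟨P, hP⟩ : ∃ P : ℂ → ℂ, P = fun Z : ℂ => nf.Tb (j + 1) (F.Φ j (0, Z / nf.ell j, 0)) := ⟨_, rfl⟩
  have hd : DifferentiableOn ℂ P (ball 0 (κ.ρ / 2)) := by
    rw [hP]
    refine cf_Tb_diff ((hF.an j hj).comp (f := fun Z : ℂ => ((0 : ℂ), Z / nf.ell j, (0 : F.A j))) (by fun_prop) ?_)
    intro Z hZ
    exact cf_slice_mem hb hj (mem_ball_self hR) hZ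
  have hM : ∀ Z ∈ ball (0 : ℂ) (κ.ρ / 2), ‖P Z‖ ≤ (2 + C1) * ((2 + κ.C) * κ.ρ + κ.C * κ.ρ ^ 2) := by
    intro Z hZ
    rw [hP]
    have hC := cf_C1_nonneg hb
    exact (cf_Tb_le hb hj1 _).trans
      (mul_le_mul_of_nonneg_left (cf_Phi_bd hF hj (cf_slice_mem hb hj (mem_ball_self hR) hZ)) (by linarith))
  have ht := sw_taylor3 hR hd hM
  have hc' : ∀ᶠ Z : ℂ in 𝓝 0, ‖P Z - c * Z ^ 2‖ ≤ K * ‖Z / nf.ell j‖ ^ 3 := by
    have h1 : Tendsto (fun Z : ℂ => Z / nf.ell j) (𝓝 0) (𝓝 0) :=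
      (continuous_id.div_const (nf.ell j)).tendsto' 0 0 (by simp)
    filter_upwards [h1.eventually hc] with Z hZ
    rw [mul_div_cancel₀ _ hl0] at hZ
    rw [hP]
    exact hZ
  have key : ∀ᶠ Z : ℂ in 𝓝 0, ‖P 0 + deriv P 0 * Z + (iteratedDeriv 2 P 0 / 2 - c) * Z ^ 2‖
      ≤ (16 * ((2 + C1) * ((2 + κ.C) * κ.ρ + κ.C * κ.ρ ^ 2)) / (κ.ρ / 2) ^ 3 + 8 * |K|) * ‖Z‖ ^ 3 := by
    filter_upwards [hc', ball_mem_nhds (0 : ℂ) hR] with Z h1 h2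
    have h3 := ht Z h2
    simp only [smul_eq_mul] at h3
    have e : P 0 + deriv P 0 * Z + (iteratedDeriv 2 P 0 / 2 - c) * Z ^ 2
        = (P Z - c * Z ^ 2) - (P Z - P 0 - Z * deriv P 0 - Z ^ 2 / 2 * iteratedDeriv 2 P 0) := by ring
    have h4 : K * ‖Z / nf.ell j‖ ^ 3 ≤ 8 * |K| * ‖Z‖ ^ 3 := by
      have h5 := cf_div_le hb hj Z
      have h6 : ‖Z / nf.ell j‖ ^ 3 ≤ (2 * ‖Z‖) ^ 3 := pow_le_pow_left₀ (norm_nonneg _) h5 3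
      calc K * ‖Z / nf.ell j‖ ^ 3 ≤ |K| * ‖Z / nf.ell j‖ ^ 3 :=
            mul_le_mul_of_nonneg_right (le_abs_self K) (by positivity)
        _ ≤ |K| * (2 * ‖Z‖) ^ 3 := mul_le_mul_of_nonneg_left h6 (abs_nonneg K)
        _ = 8 * |K| * ‖Z‖ ^ 3 := by ring
    rw [e]
    calc _ ≤ ‖P Z - c * Z ^ 2‖ + ‖P Z - P 0 - Z * deriv P 0 - Z ^ 2 / 2 * iteratedDeriv 2 P 0‖ := norm_sub_le _ _
      _ ≤ 8 * |K| * ‖Z‖ ^ 3 + 16 * ((2 + C1) * ((2 + κ.C) * κ.ρ + κ.C * κ.ρ ^ 2)) * (‖Z‖ / (κ.ρ / 2)) ^ 3 :=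
        add_le_add (h1.trans h4) h3
      _ = _ := by rw [div_pow]; ring
  obtain ⟨-, -, h3⟩ := cf_poly_zero key
  have h4 : nf.bzz j = (1 / 2) * iteratedDeriv 2 P 0 := by rw [hP]; rfl
  rw [h4]
  linear_combination h3

/-- a number `c` with `Zb (Φ (t, z, 0)) = ℓ z + c t ℓ z + O((|t| + |z|)² |z|)` is `b_j^{tz}` -/
theorem coef_char_tz (κ : RawC) (C1 : ℝ) (F : Raw) (nf : NF F) (hF : RawOK κ F) (hb : BalOK κ C1 F nf) (j : ℕ) (hj : F.j0 ≤ j)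
    (c : ℂ) (K : ℝ) (hc : ∀ᶠ x : ℂ × ℂ in 𝓝 0,
      ‖nf.Zb (j + 1) (F.Φ j (x.1, x.2, 0)) - (nf.ell j * x.2 + c * x.1 * (nf.ell j * x.2))‖ ≤ K * (‖x.1‖ + ‖x.2‖) ^ 2 * ‖x.2‖) :
    nf.btz j = c := by
  have hj1 : F.j0 ≤ j + 1 := hj.trans (Nat.le_succ j)
  have hρ := κ.hρ
  have hR : 0 < κ.ρ / 2 := by linarith
  have hl0 := (nf_ell_le hb hj).2
  obtain ⟨P, hP⟩ : ∃ P : ℂ → ℂ → ℂ, P = fun t Z : ℂ => nf.Zb (j + 1) (F.Φ j (t, Z / nf.ell j, 0)) := ⟨_, rfl⟩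
  have h1 : ∀ μ ∈ ball (0 : ℂ) (κ.ρ / 2), DifferentiableOn ℂ (fun l => P l μ) (ball 0 (κ.ρ / 2)) := by
    intro μ hμ
    rw [hP]
    refine cf_Zb_diff ((hF.an j hj).comp (f := fun l : ℂ => (l, μ / nf.ell j, (0 : F.A j))) (by fun_prop) ?_)
    intro l hl
    exact cf_slice_mem hb hj hl hμ
  have h2 : ∀ l ∈ ball (0 : ℂ) (κ.ρ / 2), DifferentiableOn ℂ (fun μ => P l μ) (ball 0 (κ.ρ / 2)) := by
    intro l hl
    rw [hP]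
    refine cf_Zb_diff ((hF.an j hj).comp (f := fun μ : ℂ => (l, μ / nf.ell j, (0 : F.A j))) (by fun_prop) ?_)
    intro μ hμ
    exact cf_slice_mem hb hj hl hμ
  have hM : ∀ l ∈ ball (0 : ℂ) (κ.ρ / 2), ∀ μ ∈ ball (0 : ℂ) (κ.ρ / 2),
      ‖P l μ‖ ≤ (2 + C1) * ((2 + κ.C) * κ.ρ + κ.C * κ.ρ ^ 2) := by
    intro l hl μ hμ
    rw [hP]
    have hC := cf_C1_nonneg hb
    exact (cf_Zb_le hb hj1 _).trans
      (mul_le_mul_of_nonneg_left (cf_Phi_bd hF hj (cf_slice_mem hb hj hl hμ)) (by linarith))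
  have hodd : ∀ l ∈ ball (0 : ℂ) (κ.ρ / 2), ∀ μ ∈ ball (0 : ℂ) (κ.ρ / 2), P l (-μ) = -P l μ := by
    intro l hl μ hμ
    rw [hP]
    show nf.Zb (j + 1) (F.Φ j (l, -μ / nf.ell j, 0)) = -nf.Zb (j + 1) (F.Φ j (l, μ / nf.ell j, 0))
    rw [neg_div, ← cf_S_slice, hF.par j hj _ (cf_slice_mem hb hj hl hμ), cf_Zb_S hb hj1]
  have ht := sw_odd hR h1 h2 hM hodd
  have hc' : ∀ᶠ s : ℂ in 𝓝 0, ‖P s s - (s + c * s * s)‖ ≤ K * (‖s‖ + ‖s / nf.ell j‖) ^ 2 * ‖s / nf.ell j‖ := by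
    have h3 : Tendsto (fun s : ℂ => ((s, s / nf.ell j) : ℂ × ℂ)) (𝓝 0) (𝓝 0) :=
      (continuous_id.prodMk (continuous_id.div_const (nf.ell j))).tendsto' 0 0 (by simp)
    filter_upwards [h3.eventually hc] with s hs
    simp only [mul_div_cancel₀ _ hl0] at hs
    rw [hP]
    exact hs
  have hbtz : deriv (fun l => deriv (fun μ => P l μ) 0) 0 = nf.btz j := by rw [hP]; rfl
  rw [hbtz] at ht
  have key : ∀ᶠ s : ℂ in 𝓝 0, ‖0 + (deriv (fun μ => P 0 μ) 0 - 1) * s + (nf.btz j - c) * s ^ 2‖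
      ≤ (256 * ((2 + C1) * ((2 + κ.C) * κ.ρ + κ.C * κ.ρ ^ 2)) / (κ.ρ / 2) ^ 3 + 18 * |K|) * ‖s‖ ^ 3 := by
    filter_upwards [hc', ball_mem_nhds (0 : ℂ) hR] with s h3 h4
    have h5 := ht s h4 s h4
    have e : 0 + (deriv (fun μ => P 0 μ) 0 - 1) * s + (nf.btz j - c) * s ^ 2
        = (P s s - (s + c * s * s)) - (P s s - deriv (fun μ => P 0 μ) 0 * s - nf.btz j * s * s) := by ring
    have h6 : K * (‖s‖ + ‖s / nf.ell j‖) ^ 2 * ‖s / nf.ell j‖ ≤ 18 * |K| * ‖s‖ ^ 3 := by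
      have h7 := cf_div_le hb hj s
      have h8 := norm_nonneg s
      have h9 := norm_nonneg (s / nf.ell j)
      calc K * (‖s‖ + ‖s / nf.ell j‖) ^ 2 * ‖s / nf.ell j‖ ≤ |K| * (‖s‖ + ‖s / nf.ell j‖) ^ 2 * ‖s / nf.ell j‖ := by
            gcongr; exact le_abs_self K
        _ ≤ |K| * (‖s‖ + 2 * ‖s‖) ^ 2 * (2 * ‖s‖) := by gcongr
        _ = 18 * |K| * ‖s‖ ^ 3 := by ring
    rw [e]
    calc _ ≤ ‖P s s - (s + c * s * s)‖ + ‖P s s - deriv (fun μ => P 0 μ) 0 * s - nf.btz j * s * s‖ := norm_sub_le _ _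
      _ ≤ 18 * |K| * ‖s‖ ^ 3
          + 64 * ((2 + C1) * ((2 + κ.C) * κ.ρ + κ.C * κ.ρ ^ 2)) / (κ.ρ / 2) ^ 3 * (‖s‖ + ‖s‖) ^ 2 * ‖s‖ :=
        add_le_add (h3.trans h6) h5
      _ = _ := by ring
  obtain ⟨-, -, h3⟩ := cf_poly_zero key
  linear_combination h3

/-! ### the curve, the charts -/

theorem cf_curve (hd : 0 < d0) (hg : CurveOK κ.ρ d0 F g) {j : ℕ} (hj : F.j0 ≤ j) {u : ℂ} (hu : ‖u‖ < d0) :
    ‖g j u - (u, 0, 0)‖ ≤ 4 * κ.ρ / d0 ^ 2 * ‖u‖ ^ 2 := by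
  have h := sw_taylor2 hd (hg.an j hj) (hg.bd j hj) u (mem_ball_zero_iff.2 hu)
  rw [hg.zero j hj, (hg.der j hj).deriv, sub_zero] at h
  have e : u • ((1 : ℂ), (0 : ℂ), (0 : F.A j)) = (u, 0, 0) := by
    ext <;> simp
  rw [e] at h
  refine h.trans_eq ?_
  rw [div_pow]; ring

theorem cf_Tb_ch (j : ℕ) (Y : ℂ × ℂ × F.A j) : nf.Tb j (nf.ch g j Y) = nf.Tb j (g j Y.1) := by
  unfold NF.Tb NF.ch
  simp only [Prod.fst_add, Prod.snd_add, map_add]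
  ring

theorem cf_Zb_ch (hb : BalOK κ C1 F nf) {j : ℕ} (hj : F.j0 ≤ j) (Y : ℂ × ℂ × F.A j) :
    nf.Zb j (nf.ch g j Y) = nf.Zb j (g j Y.1) + Y.2.1 := by
  have hl0 := (nf_ell_le hb hj).2
  unfold NF.Zb NF.ch
  simp only [Prod.fst_add, Prod.snd_add, map_add]
  field_simp
  ring

theorem cf_ch_slice (hb : BalOK κ C1 F nf) {j : ℕ} (hj : F.j0 ≤ j) (u z : ℂ) :
    nf.ch g j (u, nf.ell j * z, 0) = g j u + (0, z, 0) := by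
  have hl0 := (nf_ell_le hb hj).2
  unfold NF.ch
  simp only [map_zero, neg_zero, sub_zero, mul_div_cancel_left₀ _ hl0]

theorem cf_Tb_line (j : ℕ) (u : ℂ) : nf.Tb j (u, 0, 0) = u := by
  unfold NF.Tb
  simp

/-- moving the base point by an `S`-fixed vector `v` costs `O(‖v‖ |z|)` -/
theorem cf_shift (hF : RawOK κ F) (hb : BalOK κ C1 F nf) {j : ℕ} (hj : F.j0 ≤ j) {u : ℂ} {v : ℂ × ℂ × F.A j}
    (hv : F.S j v = v) (hu : ‖u‖ < κ.ρ / 8) (hvn : ‖v‖ < κ.ρ / 8) {z : ℂ} (hz : ‖z‖ < κ.ρ / 8) :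
    ‖nf.Zb (j + 1) (F.Φ j ((u, z, 0) + v)) - nf.Zb (j + 1) (F.Φ j (u, z, 0))‖
      ≤ (2 + C1) * (8 * κ.C * (κ.ρ / 4) * ‖v‖) / (κ.ρ / 8) * ‖z‖ := by
  have hj1 : F.j0 ≤ j + 1 := hj.trans (Nat.le_succ j)
  have hρ := κ.hρ
  have hC := κ.hC
  have hC1 := cf_C1_nonneg hb
  have hp : ∀ w : ℂ, ‖w‖ < κ.ρ / 8 → ‖((u, w, 0) : ℂ × ℂ × F.A j)‖ < κ.ρ / 8 := fun w hw =>
    nf_norm_lt hu hw (by simpa using (by linarith : 0 < κ.ρ / 8))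
  have hmem1 : ∀ w : ℂ, ‖w‖ < κ.ρ / 8 → ((u, w, 0) : ℂ × ℂ × F.A j) ∈ ball (0 : ℂ × ℂ × F.A j) κ.ρ := fun w hw => by
    rw [mem_ball_zero_iff]; linarith [hp w hw]
  have hmem2 : ∀ w : ℂ, ‖w‖ < κ.ρ / 8 → ((u, w, 0) : ℂ × ℂ × F.A j) + v ∈ ball (0 : ℂ × ℂ × F.A j) κ.ρ := fun w hw => by
    rw [mem_ball_zero_iff]
    have := norm_add_le ((u, w, 0) : ℂ × ℂ × F.A j) v
    linarith [hp w hw]
  obtain ⟨G, hG⟩ : ∃ G : ℂ → ℂ, G = fun w : ℂ =>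
      nf.Zb (j + 1) (F.Φ j ((u, w, 0) + v)) - nf.Zb (j + 1) (F.Φ j (u, w, 0)) := ⟨_, rfl⟩
  have hGd : DifferentiableOn ℂ G (ball 0 (κ.ρ / 8)) := by
    rw [hG]
    refine (cf_Zb_diff ((hF.an j hj).comp (f := fun w : ℂ => ((u, w, 0) : ℂ × ℂ × F.A j) + v) (by fun_prop) ?_)).sub
      (cf_Zb_diff ((hF.an j hj).comp (f := fun w : ℂ => ((u, w, 0) : ℂ × ℂ × F.A j)) (by fun_prop) ?_))
    · intro w hw; exact hmem2 w (mem_ball_zero_iff.1 hw)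
    · intro w hw; exact hmem1 w (mem_ball_zero_iff.1 hw)
  have h0 : (0 : ℝ) < κ.ρ / 8 := by linarith
  have hG0 : G 0 = 0 := by
    rw [hG]
    have a1 : F.S (j + 1) (F.Φ j ((u, 0, 0) + v)) = F.Φ j ((u, 0, 0) + v) := by
      rw [← hF.par j hj _ (hmem2 0 (by simpa using h0)), cf_S_add, cf_S_line, hv]
    have a2 : F.S (j + 1) (F.Φ j (u, 0, 0)) = F.Φ j (u, 0, 0) := by
      rw [← hF.par j hj _ (hmem1 0 (by simpa using h0)), cf_S_line]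
    show nf.Zb (j + 1) (F.Φ j ((u, 0, 0) + v)) - nf.Zb (j + 1) (F.Φ j (u, 0, 0)) = 0
    rw [cf_Zb_fix hb hj1 a1, cf_Zb_fix hb hj1 a2, sub_zero]
  have hGb : ∀ w ∈ ball (0 : ℂ) (κ.ρ / 8), ‖G w‖ ≤ (2 + C1) * (8 * κ.C * (κ.ρ / 4) * ‖v‖) := by
    intro w hw
    rw [mem_ball_zero_iff] at hw
    have hd : DifferentiableOn ℂ (fun X => F.Φ j X - F.lin j X) (ball 0 κ.ρ) := by
      refine (hF.an j hj).sub (Differentiable.differentiableOn ?_)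
      unfold Raw.lin
      fun_prop
    have hs := sw_diff hd (hF.quad j hj) (p := ((u, w, 0) : ℂ × ℂ × F.A j)) (v := v) (by linarith [hp w hw])
    have e : G w = nf.Zb (j + 1) ((F.Φ j ((u, w, 0) + v) - F.lin j ((u, w, 0) + v)) - (F.Φ j (u, w, 0) - F.lin j (u, w, 0))) := by
      have e1 : F.lin j ((u, w, 0) + v) - F.lin j (u, w, 0) = F.lin j v := by
        rw [← nf_lin_sub, add_sub_cancel_left]
      have e2 : (F.Φ j ((u, w, 0) + v) - F.lin j ((u, w, 0) + v)) - (F.Φ j (u, w, 0) - F.lin j (u, w, 0))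
          = (F.Φ j ((u, w, 0) + v) - F.Φ j (u, w, 0)) - F.lin j v := by
        rw [← e1]; abel
      rw [e2, cf_Zb_sub, cf_Zb_sub, cf_Zb_lin hb hj, cf_Zb_fix hb hj hv, sub_zero, hG]
    rw [e]
    refine (cf_Zb_le hb hj1 _).trans (mul_le_mul_of_nonneg_left (hs.trans ?_) (by linarith))
    have := hp w hw
    have hv0 := norm_nonneg v
    gcongr
    linarith
  have hmaps : Set.MapsTo G (ball 0 (κ.ρ / 8)) (closedBall (G 0) ((2 + C1) * (8 * κ.C * (κ.ρ / 4) * ‖v‖))) := by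
    intro w hw
    rw [hG0, mem_closedBall_zero_iff]
    exact hGb w hw
  have hsch := Complex.dist_le_div_mul_dist_of_mapsTo_ball hGd hmaps (mem_ball_zero_iff.2 hz)
  rw [hG0, dist_zero_right, dist_zero_right, hG] at hsch
  exact hsch

/-! ### real arithmetic -/

theorem cf_arith1 {a U b C n m d : ℝ} (h2 : a ≤ U + b) (h5 : b ≤ C * n ^ 2) (hn0 : 0 ≤ n) (hn : n ≤ 2 * m) (hm : m < 1 / 2)
    (hU : U ≤ m) (hC : 1 ≤ C) (hd : m * (2 * (1 + C)) < d) : a < d := by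
  have h1 : n ^ 2 ≤ 2 * m := by nlinarith
  have h3 : C * n ^ 2 ≤ C * (2 * m) := by gcongr
  nlinarith

theorem cf_arith2 {w K U m ρ : ℝ} (hw : w ≤ K * U ^ 2) (hK : 0 < K) (hU0 : 0 ≤ U) (hU : U ≤ m) (hm : m < 1 / 2)
    (hρ : m * (8 * K) < ρ) : w < ρ / 8 := by
  have h1 : U ^ 2 ≤ m := by nlinarith
  have h2 : K * U ^ 2 ≤ K * m := by gcongr
  linarith

theorem cf_arith3 {A C ρ w K U z : ℝ} (hρ : 0 < ρ) (hA : 0 ≤ A) (hC : 0 ≤ C) (hw : w ≤ K * U ^ 2) (hK : 0 ≤ K) (hU : 0 ≤ U)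
    (hz : 0 ≤ z) : A * (8 * C * (ρ / 4) * w) / (ρ / 8) * z ≤ A * (16 * C * K) * ((U + z) ^ 2 * z) := by
  have h1 : A * (8 * C * (ρ / 4) * w) / (ρ / 8) * z = A * (16 * C * w) * z := by
    field_simp; ring
  rw [h1]
  have h2 : U ^ 2 ≤ (U + z) ^ 2 := by nlinarith
  have h3 : w ≤ K * (U + z) ^ 2 := hw.trans (by gcongr)
  calc A * (16 * C * w) * z ≤ A * (16 * C * (K * (U + z) ^ 2)) * z := by gcongr
    _ = _ := by ring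

theorem cf_arith4 {C W Z U z : ℝ} (hC : 0 ≤ C) (hW0 : 0 ≤ W) (hW : W ≤ 2 * (U + z)) (hZ0 : 0 ≤ Z) (hZ : Z ≤ 2 * z) :
    C * (W ^ 2 * Z) ≤ 8 * C * ((U + z) ^ 2 * z) := by
  calc C * (W ^ 2 * Z) ≤ C * ((2 * (U + z)) ^ 2 * (2 * z)) := by gcongr
    _ = _ := by ring

theorem cf_eq_zz (κ : RawC) (κ' : NFC) (d0 : ℝ) (hd : 0 < d0) (F : Raw) (g : Curve F) (nf : NF F)
    (hF : RawOK κ F) (hg : CurveOK κ.ρ d0 F g) (h : NFOK κ κ' F g nf) (j : ℕ) (hj : F.j0 ≤ j) :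
    nf.Hc g j = -nf.bzz j := by
  have hj1 : F.j0 ≤ j + 1 := hj.trans (Nat.le_succ j)
  have hb := h.bal
  have hρ := κ.hρ
  have hC := κ.hC
  have hC1 : 1 ≤ κ'.C1 := κ'.hC
  have hr := κ'.hr
  have hl2 := (nf_ell_le hb hj).1
  obtain ⟨Kg, hKg⟩ : ∃ Kg : ℝ, Kg = 4 * κ.ρ / d0 ^ 2 := ⟨_, rfl⟩
  have hKg0 : 0 < Kg := by rw [hKg]; positivity
  have key : nf.bzz j = -nf.Hc g j := by
    refine coef_char_zz κ κ'.C1 F nf hF hb j hj (-nf.Hc g j) (8 * ((2 + κ'.C1) * (Kg * κ'.C1 ^ 2) + κ'.C1)) ?_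
    have hδ1 : 0 < κ'.r / 2 := by positivity
    have hδ2 : (0 : ℝ) < 1 / 2 := by norm_num
    have hδ3 : 0 < d0 / (2 * κ'.C1) := by positivity
    filter_upwards [ball_mem_nhds (0 : ℂ) hδ1, ball_mem_nhds (0 : ℂ) hδ2, ball_mem_nhds (0 : ℂ) hδ3] with z hz1 hz2 hz3
    rw [mem_ball_zero_iff] at hz1 hz2 hz3
    rw [lt_div_iff₀ (by positivity)] at hz3
    have hz0 := norm_nonneg z
    have hZ : ‖nf.ell j * z‖ ≤ 2 * ‖z‖ := by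
      rw [norm_mul]; exact mul_le_mul_of_nonneg_right hl2 hz0
    have hZ0 := norm_nonneg (nf.ell j * z)
    have hYn : ‖((0 : ℂ), nf.ell j * z, (0 : F.A j))‖ ≤ ‖nf.ell j * z‖ :=
      nf_norm_le (by simpa using hZ0) le_rfl (by simpa using hZ0)
    have hY : ((0 : ℂ), nf.ell j * z, (0 : F.A j)) ∈ ball (0 : ℂ × ℂ × F.A j) κ'.r := by
      rw [mem_ball_zero_iff]; linarith
    have hq := h.N_q j hj _ hY
    have hNu := h.N_u j hj _ hY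
    have hconj := h.conj j hj _ hY
    rw [cf_ch_slice hb hj, hg.zero j hj, zero_add] at hconj
    have hwn : Flow.wn ((0 : ℂ), nf.ell j * z, (0 : F.A j)) = ‖nf.ell j * z‖ := by
      show max ‖(0 : ℂ)‖ ‖nf.ell j * z‖ = _
      rw [norm_zero]
      exact max_eq_right hZ0
    obtain ⟨Y', hY'⟩ : ∃ Y', Y' = nf.N g j ((0 : ℂ), nf.ell j * z, (0 : F.A j)) := ⟨_, rfl⟩
    rw [← hY'] at hq hNu hconj
    simp only [hwn, norm_zero, add_zero, mul_zero, zero_sub] at hNu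
    have hu1 : ‖Y'.1‖ ≤ κ'.C1 * ‖nf.ell j * z‖ ^ 2 := by
      have h1 := nf_fst_le (Y' - ((0 : ℂ), nf.ell j * z, F.Cc j (0 : F.A j)))
      simp only [Prod.fst_sub, sub_zero] at h1
      calc ‖Y'.1‖ ≤ _ := h1
        _ ≤ _ := hq
        _ ≤ κ'.C1 * ‖nf.ell j * z‖ ^ 2 := by gcongr
    have hu2 : ‖Y'.1‖ < d0 := by
      have : ‖nf.ell j * z‖ ^ 2 ≤ 2 * ‖z‖ := by nlinarith
      nlinarith
    have hT : nf.Tb (j + 1) (F.Φ j (0, z, 0)) = nf.Tb (j + 1) (g (j + 1) Y'.1) := by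
      rw [← hconj, cf_Tb_ch]
    have hcv := cf_curve hd hg hj1 hu2
    rw [← hKg] at hcv
    have hT2 : ‖nf.Tb (j + 1) (g (j + 1) Y'.1) - Y'.1‖ ≤ (2 + κ'.C1) * (Kg * ‖Y'.1‖ ^ 2) := by
      have e : nf.Tb (j + 1) (g (j + 1) Y'.1) - Y'.1 = nf.Tb (j + 1) (g (j + 1) Y'.1 - (Y'.1, 0, 0)) := by
        rw [cf_Tb_sub, cf_Tb_line]
      rw [e]
      exact (cf_Tb_le hb hj1 _).trans (mul_le_mul_of_nonneg_left hcv (by linarith))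
    have e : nf.Tb (j + 1) (F.Φ j (0, z, 0)) - -nf.Hc g j * (nf.ell j * z) ^ 2
        = (nf.Tb (j + 1) (g (j + 1) Y'.1) - Y'.1) + (Y'.1 - -(nf.Hc g j * (nf.ell j * z) ^ 2)) := by
      rw [hT]; ring
    rw [e]
    have hu3 : ‖Y'.1‖ ^ 2 ≤ κ'.C1 ^ 2 * ‖nf.ell j * z‖ ^ 3 := by
      have h1 : ‖Y'.1‖ ^ 2 ≤ (κ'.C1 * ‖nf.ell j * z‖ ^ 2) ^ 2 := pow_le_pow_left₀ (norm_nonneg _) hu1 2
      have h2 : ‖nf.ell j * z‖ ^ 4 ≤ ‖nf.ell j * z‖ ^ 3 :=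
        pow_le_pow_of_le_one hZ0 (by linarith) (by norm_num)
      calc ‖Y'.1‖ ^ 2 ≤ (κ'.C1 * ‖nf.ell j * z‖ ^ 2) ^ 2 := h1
        _ = κ'.C1 ^ 2 * ‖nf.ell j * z‖ ^ 4 := by ring
        _ ≤ κ'.C1 ^ 2 * ‖nf.ell j * z‖ ^ 3 := by gcongr
    have hZ3 : ‖nf.ell j * z‖ ^ 3 ≤ 8 * ‖z‖ ^ 3 := by
      calc ‖nf.ell j * z‖ ^ 3 ≤ (2 * ‖z‖) ^ 3 := pow_le_pow_left₀ hZ0 hZ 3
        _ = 8 * ‖z‖ ^ 3 := by ring
    calc _ ≤ ‖nf.Tb (j + 1) (g (j + 1) Y'.1) - Y'.1‖ + ‖Y'.1 - -(nf.Hc g j * (nf.ell j * z) ^ 2)‖ := norm_add_le _ _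
      _ ≤ (2 + κ'.C1) * (Kg * (κ'.C1 ^ 2 * ‖nf.ell j * z‖ ^ 3)) + κ'.C1 * (‖nf.ell j * z‖ * ‖nf.ell j * z‖ ^ 2) := by
        refine add_le_add (hT2.trans ?_) hNu
        gcongr
      _ = ((2 + κ'.C1) * (Kg * κ'.C1 ^ 2) + κ'.C1) * ‖nf.ell j * z‖ ^ 3 := by ring
      _ ≤ ((2 + κ'.C1) * (Kg * κ'.C1 ^ 2) + κ'.C1) * (8 * ‖z‖ ^ 3) := by gcongr
      _ = _ := by ring
  rw [key, neg_neg]

theorem cf_eq_tz (κ : RawC) (κ' : NFC) (d0 : ℝ) (hd : 0 < d0) (F : Raw) (g : Curve F) (nf : NF F)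
    (hF : RawOK κ F) (hg : CurveOK κ.ρ d0 F g) (h : NFOK κ κ' F g nf) (j : ℕ) (hj : F.j0 ≤ j) :
    nf.bc g j = -nf.btz j := by
  have hj1 : F.j0 ≤ j + 1 := hj.trans (Nat.le_succ j)
  have hb := h.bal
  have hρ := κ.hρ
  have hC := κ.hC
  have hC1 : 1 ≤ κ'.C1 := κ'.hC
  have hr := κ'.hr
  have hl2 := (nf_ell_le hb hj).1
  obtain ⟨Kg, hKg⟩ : ∃ Kg : ℝ, Kg = 4 * κ.ρ / d0 ^ 2 := ⟨_, rfl⟩
  have hKg0 : 0 < Kg := by rw [hKg]; positivity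
  have key : nf.btz j = -nf.bc g j := by
    refine coef_char_tz κ κ'.C1 F nf hF hb j hj (-nf.bc g j) ((2 + κ'.C1) * (16 * κ.C * Kg) + 8 * κ'.C1) ?_
    have hδ1 : 0 < κ'.r / 2 := by positivity
    have hδ2 : (0 : ℝ) < 1 / 2 := by norm_num
    have hδ3 : 0 < d0 / (2 * (1 + κ'.C1)) := by positivity
    have hδ4 : 0 < κ.ρ / 8 := by positivity
    have hδ5 : 0 < κ.ρ / (8 * Kg) := by positivity
    filter_upwards [ball_mem_nhds (0 : ℂ × ℂ) hδ1, ball_mem_nhds (0 : ℂ × ℂ) hδ2, ball_mem_nhds (0 : ℂ × ℂ) hδ3,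
      ball_mem_nhds (0 : ℂ × ℂ) hδ4, ball_mem_nhds (0 : ℂ × ℂ) hδ5, ball_mem_nhds (0 : ℂ × ℂ) hd] with x hx1 hx2 hx3 hx4 hx5 hx6
    rw [mem_ball_zero_iff] at hx1 hx2 hx3 hx4 hx5 hx6
    rw [lt_div_iff₀ (by positivity)] at hx3 hx5
    obtain ⟨u, z⟩ := x
    have hux : ‖u‖ ≤ ‖(u, z)‖ := norm_fst_le (u, z)
    have hzx : ‖z‖ ≤ ‖(u, z)‖ := norm_snd_le (u, z)
    obtain ⟨m, hm⟩ : ∃ m : ℝ, m = ‖(u, z)‖ := ⟨_, rfl⟩
    rw [← hm] at hx1 hx2 hx3 hx4 hx5 hx6 hux hzx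
    show ‖nf.Zb (j + 1) (F.Φ j (u, z, 0)) - (nf.ell j * z + -nf.bc g j * u * (nf.ell j * z))‖
      ≤ ((2 + κ'.C1) * (16 * κ.C * Kg) + 8 * κ'.C1) * (‖u‖ + ‖z‖) ^ 2 * ‖z‖
    have hu0 := norm_nonneg u
    have hz0 := norm_nonneg z
    have hZ : ‖nf.ell j * z‖ ≤ 2 * ‖z‖ := by
      rw [norm_mul]; exact mul_le_mul_of_nonneg_right hl2 hz0
    have hZ0 := norm_nonneg (nf.ell j * z)
    have hYn : ‖(u, nf.ell j * z, (0 : F.A j))‖ ≤ 2 * m :=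
      nf_norm_le (by linarith) (by linarith) (by simpa using (by linarith : 0 ≤ 2 * m))
    have hY : (u, nf.ell j * z, (0 : F.A j)) ∈ ball (0 : ℂ × ℂ × F.A j) κ'.r := by
      rw [mem_ball_zero_iff]; linarith
    have hq := h.N_q j hj _ hY
    have hNZ := h.N_Z j hj _ hY
    have hconj := h.conj j hj _ hY
    rw [cf_ch_slice hb hj] at hconj
    have hwn : Flow.wn (u, nf.ell j * z, (0 : F.A j)) ≤ 2 * (‖u‖ + ‖z‖) := by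
      unfold Flow.wn
      exact max_le (by linarith) (by linarith)
    have hwn0 : 0 ≤ Flow.wn (u, nf.ell j * z, (0 : F.A j)) := le_max_of_le_left hu0
    obtain ⟨Y', hY'⟩ : ∃ Y', Y' = nf.N g j (u, nf.ell j * z, (0 : F.A j)) := ⟨_, rfl⟩
    rw [← hY'] at hq hNZ hconj
    simp only [norm_zero, add_zero, mul_zero] at hNZ
    have hu2 : ‖Y'.1‖ < d0 := by
      have h1 := nf_fst_le (Y' - (u, nf.ell j * z, F.Cc j (0 : F.A j)))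
      simp only [Prod.fst_sub] at h1
      have h2 : ‖Y'.1‖ ≤ ‖u‖ + ‖Y'.1 - u‖ := by
        calc ‖Y'.1‖ = ‖u + (Y'.1 - u)‖ := by ring_nf
          _ ≤ _ := norm_add_le _ _
      exact cf_arith1 h2 (h1.trans hq) (norm_nonneg _) hYn hx2 hux hC1 hx3
    have hZp : nf.Zb (j + 1) (F.Φ j (g j u + (0, z, 0))) = Y'.2.1 := by
      rw [← hconj, cf_Zb_ch hb hj1, cf_Zb_fix hb hj1 (hg.fixS (j + 1) hj1 _ (mem_ball_zero_iff.2 hu2)), zero_add]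
    have hud : ‖u‖ < d0 := by linarith
    have hv : F.S j (g j u - (u, 0, 0)) = g j u - (u, 0, 0) := by
      rw [cf_S_sub, hg.fixS j hj u (mem_ball_zero_iff.2 hud), cf_S_line]
    have hvn := cf_curve hd hg hj hud
    rw [← hKg] at hvn
    have hvn8 : ‖g j u - (u, 0, 0)‖ < κ.ρ / 8 := cf_arith2 hvn hKg0 hu0 hux hx2 hx5
    have hu8 : ‖u‖ < κ.ρ / 8 := by linarith
    have hz8 : ‖z‖ < κ.ρ / 8 := by linarith
    have hsh := cf_shift hF hb hj hv hu8 hvn8 hz8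
    have e1 : ((u, z, 0) : ℂ × ℂ × F.A j) + (g j u - (u, 0, 0)) = g j u + (0, z, 0) := by
      have e2 : ((u, z, 0) : ℂ × ℂ × F.A j) = (u, 0, 0) + (0, z, 0) := by
        ext <;> simp
      rw [e2]; abel
    rw [e1, hZp] at hsh
    have e : nf.Zb (j + 1) (F.Φ j (u, z, 0)) - (nf.ell j * z + -nf.bc g j * u * (nf.ell j * z))
        = (Y'.2.1 - (nf.ell j * z - nf.bc g j * u * (nf.ell j * z))) - (Y'.2.1 - nf.Zb (j + 1) (F.Φ j (u, z, 0))) := by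
      ring
    rw [e]
    have hs2 : (2 + κ'.C1) * (8 * κ.C * (κ.ρ / 4) * ‖g j u - (u, 0, 0)‖) / (κ.ρ / 8) * ‖z‖
        ≤ (2 + κ'.C1) * (16 * κ.C * Kg) * ((‖u‖ + ‖z‖) ^ 2 * ‖z‖) :=
      cf_arith3 hρ (by linarith) (by linarith) hvn hKg0.le hu0 hz0
    have hs3 : κ'.C1 * (Flow.wn (u, nf.ell j * z, (0 : F.A j)) ^ 2 * ‖nf.ell j * z‖)
        ≤ 8 * κ'.C1 * ((‖u‖ + ‖z‖) ^ 2 * ‖z‖) :=
      cf_arith4 (by linarith) hwn0 hwn hZ0 hZ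
    calc _ ≤ ‖Y'.2.1 - (nf.ell j * z - nf.bc g j * u * (nf.ell j * z))‖ + ‖Y'.2.1 - nf.Zb (j + 1) (F.Φ j (u, z, 0))‖ :=
          norm_sub_le _ _
      _ ≤ 8 * κ'.C1 * ((‖u‖ + ‖z‖) ^ 2 * ‖z‖) + (2 + κ'.C1) * (16 * κ.C * Kg) * ((‖u‖ + ‖z‖) ^ 2 * ‖z‖) :=
          add_le_add (hNZ.trans hs3) (hsh.trans hs2)
      _ = _ := by ring
  rw [key, neg_neg]


/-- the coefficients of the normal form are the balanced quadratic coefficients of [B] P8.4, which [B] P8.5 / [F] L5.3 compute -/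
theorem coef_eq (κ : RawC) (κ' : NFC) (d0 : ℝ) (hd : 0 < d0) (F : Raw) (g : Curve F) (nf : NF F)
    (hF : RawOK κ F) (hg : CurveOK κ.ρ d0 F g) (h : NFOK κ κ' F g nf) (j : ℕ) (hj : F.j0 ≤ j) :
    nf.Hc g j = -nf.bzz j ∧ nf.bc g j = -nf.btz j :=
  ⟨cf_eq_zz κ κ' d0 hd F g nf hF hg h j hj, cf_eq_tz κ κ' d0 hd F g nf hF hg h j hj⟩

end Claimed.Agent.R285.B10
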