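import Claimed.Agent.R285.Flow.Defs
import Claimed.Agent.R285.Flow.Schwarz2
import Claimed.Agent.R285.Flow.Coef

/-!
# ROW 285, layer FLOW, package JET (post BP-F5-L53, owner helper177): accumulated quadratic coefficients = second order read-outs, up to a UNIFORM `O(1)`   ALL PROVED (helper19)

Abstract analysis in complex Banach spaces (vocabulary of `Flow/Defs.lean`); no model.  Consumer: `R285/Map/Coef.lean` (= `B8.Sys8.coef`, bounded block sums of `b^{zz}`, `b^{tz}`).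

## The statement
Start the plane map and the torus behind the stop `h = a + d` at the level `a ≥ j0` with the state `(t, z, R) = (x0.1, x0.2, 0)`, torus remainder `0` (`hpl`, `htr`, `hst`).
* `jet_zz`: along `x0 = (0, s)`:  `rV_h = kV_h (ℓ_a s)² ∑_{a ≤ i < h} b_i^{zz} + O((1 + kV_h) |s|²) + O_h(|s|³)`, the `O(.)` UNIFORM in `a, d`, the spaces, the maps.
* `jet_tz`: along `x0 = (s, s)`:  `rP_h = kP_h (ℓ_a / ℓ_h) (s + s² ∑_{a ≤ i < h} b_i^{tz}) + O((1 + |kP_h|) |s|²) + O_h(|s|³)`.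
They are stated in COEFFICIENT form: if the read-out has an expansion `r2 s² + O_h(s³)` (resp. `p1 s + p2 s² + O_h(s³)`), then `r2`, `p1`, `p2` are what they must be.

## Proof (all statements "eventually in `s → 0`", the neighbourhood depends on `d`; constants `K` with an index may depend on everything, `K2`, `C` only on `κ, C1`)
Write `X_i = hpl .. i = (t_i, z_i, R_i)`, `τ_i = htr .. i`, `a_i = (t0, ζ_i z0, 0)`, `ζ_i = ℓ_a / ℓ_{a+i}` (`|ζ_i| ≤ 3`), `x0 = s (t0, z0)`, `|t0|, |z0| ≤ 1`, `h_i = Φ_i - lin_i` (`‖h_i X‖ ≤ C ‖X‖²`).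
 (J1) `jet_first`: induction on `i`: `‖X_i - s a_i‖ ≤ K_i |s|²` (`lin_i a_i = a_{i+1}` because `ℓ_j = lam_j ℓ_{j+1}`; `‖lin_i‖ ≤ 2 + 2C`).  Hence `‖X_i‖ ≤ 4 |s|` eventually.
 (J2) `jet_rem`: `‖R_{i+1}‖ ≤ θ ‖R_i‖ + C ‖X_i‖²`, `‖τ_{i+1}‖ ≤ θ ‖τ_i‖ + C ‖(t_i, z_i, τ_i)‖²`: with `K2 = 16 C / (1 - θ)` (+ slack): `‖R_i‖, ‖τ_i‖ ≤ K2 |s|²` eventually, by induction.
 (J3) `jet_acc`: `Tb_{i+1} (Φ_i X) = Tb_i X + Tb_{i+1} (h_i X)` (`BalOK.bt_rec`), same for `Zb` (`bz_rec`, `ell_rec`);  `‖h_i (X_i) - h_i (s a_i)‖ ≤ 8 C (..) ‖X_i - s a_i‖ = O_i(|s|³)` (`sw_diff`);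
      `Tb_{i+1} (h_i (0, s ζ, 0)) = b_i^{zz} (ℓ_{a+i} ζ s)² + O(|s|³)` (`sw_taylor3` for `Z ↦ Tb (Φ (0, Z/ℓ, 0))`: value `0`, derivative `0` at `0`),
      `Zb_{i+1} (h_i (s, s ζ, 0)) = b_i^{tz} s (ℓ_{a+i} ζ s) + O(|s|³)` (`sw_odd` for `P t Z = Zb (Φ (t, Z/ℓ, 0))`, odd in `Z` by `RawOK.par` + `bz_par`; `∂_Z P (0, 0) = 1`).
 (J4) read-outs: `t_h = Tb_h X_h - bt_h R_h`, `z_h = (Zb_h X_h - bz_h R_h) / ℓ_h`, `TorOK.rV_bd`, hypothesis `hP`; divide by `|s|²` (resp. `|s|`, `|s|²`) and let `s → 0`.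
-/

set_option autoImplicit false

namespace Claimed.Agent.R285.B10

open Filter Topology

noncomputable section

/-- the plane history started at the level `a` from `(t, z, 0)`; stage `i` has the absolute index `a + i` -/
def hpl (F : Raw) (a : ℕ) (x0 : ℂ × ℂ) : ∀ i : ℕ, ℂ × ℂ × F.A (a + i)
  | 0 => (x0.1, x0.2, 0)
  | i + 1 => F.Φ (a + i) (hpl F a x0 i)

/-- the torus remainder behind the stop `h`, started at the level `a` from `0` -/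
def htr (F : Raw) (𝒯 : Tor) (a h : ℕ) (x0 : ℂ × ℂ) : ∀ i : ℕ, 𝒯.T (a + i) h
  | 0 => 0
  | i + 1 => 𝒯.Ψ (a + i) h (((hpl F a x0 i).1, (hpl F a x0 i).2.1), htr F 𝒯 a h x0 i)

/-- the torus state at the stage `i` behind the stop `h` -/
def hts (F : Raw) (𝒯 : Tor) (a h : ℕ) (x0 : ℂ × ℂ) (i : ℕ) : (ℂ × ℂ) × 𝒯.T (a + i) h :=
  (((hpl F a x0 i).1, (hpl F a x0 i).2.1), htr F 𝒯 a h x0 i)

/-- the stopped state: `d` steps, stop `h = a + d` -/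
def hst (F : Raw) (𝒯 : Tor) (a d : ℕ) (x0 : ℂ × ℂ) : (ℂ × ℂ) × 𝒯.T (a + d) (a + d) := hts F 𝒯 a (a + d) x0 d

section kit

variable {κ : RawC} {C1 : ℝ} {F : Raw} {nf : NF F}

theorem jet_lin_diff (j : ℕ) : Differentiable ℂ (F.lin j) := by
  unfold Raw.lin
  fun_prop

/-- eventually small -/
theorem jet_ev_lt {c r : ℝ} (hr : 0 < r) : ∀ᶠ s : ℂ in 𝓝 0, c * ‖s‖ < r := by
  have h : Tendsto (fun s : ℂ => c * ‖s‖) (𝓝 0) (𝓝 0) := by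
    have : Continuous (fun s : ℂ => c * ‖s‖) := by fun_prop
    simpa using this.tendsto 0
  exact h.eventually (gt_mem_nhds hr)

theorem jet_ev_le {c r : ℝ} (hr : 0 < r) : ∀ᶠ s : ℂ in 𝓝 0, c * ‖s‖ ≤ r := (jet_ev_lt hr).mono fun _ h => h.le

theorem jet_ell_le (hb : BalOK κ C1 F nf) {j : ℕ} (hj : F.j0 ≤ j) : ‖nf.ell j‖ ≤ 3 / 2 := by
  have h := (hb.ell_bd j hj).2
  calc ‖nf.ell j‖ = ‖(nf.ell j - 1) + 1‖ := by ring_nf
    _ ≤ ‖nf.ell j - 1‖ + ‖(1 : ℂ)‖ := norm_add_le _ _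
    _ ≤ 3 / 2 := by rw [norm_one]; linarith

theorem jet_zeta_le (hb : BalOK κ C1 F nf) {a j : ℕ} (ha : F.j0 ≤ a) (hj : F.j0 ≤ j) : ‖nf.ell a / nf.ell j‖ ≤ 3 := by
  have h1 := jet_ell_le hb ha
  have h2 := cf_ell_ge hb hj
  rw [norm_div, div_le_iff₀ (by linarith)]
  linarith

theorem jet_zeta_succ (hb : BalOK κ C1 F nf) {j : ℕ} (hj : F.j0 ≤ j) (x : ℂ) :
    F.lam j * (x / nf.ell j) = x / nf.ell (j + 1) := by
  have h0 := (nf_ell_le hb hj).2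
  have h1 := (nf_ell_le hb (hj.trans (Nat.le_succ j))).2
  have h2 := hb.ell_rec j hj
  have h3 : F.lam j ≠ 0 := by
    intro h
    rw [h, zero_mul] at h2
    exact h0 h2
  rw [h2]
  field_simp

/-- one step, first order -/
theorem jet_step1 (hF : RawOK κ F) {j : ℕ} (hj : F.j0 ≤ j) {X : ℂ × ℂ × F.A j} (hX : X ∈ Metric.ball (0 : ℂ × ℂ × F.A j) κ.ρ)
    (Y : ℂ × ℂ × F.A j) : ‖F.Φ j X - F.lin j Y‖ ≤ κ.C * ‖X‖ ^ 2 + (2 + κ.C) * ‖X - Y‖ := by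
  have h1 := hF.quad j hj X hX
  have h2 := nf_lin_le hF hj (X - Y)
  rw [nf_lin_sub] at h2
  calc ‖F.Φ j X - F.lin j Y‖ = ‖(F.Φ j X - F.lin j X) + (F.lin j X - F.lin j Y)‖ := by congr 1; abel
    _ ≤ _ := (norm_add_le _ _).trans (add_le_add h1 h2)

theorem jet_lin_slice (j : ℕ) (t z : ℂ) : F.lin j (t, z, 0) = (t, F.lam j * z, 0) := by
  unfold Raw.lin
  simp

end kit

/-- **(J1)** first order: `X_i = s (t0, (ℓ_a / ℓ_{a+i}) z0, 0) + O_i(|s|²)` -/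
theorem jet_first (κ : RawC) (C1 : ℝ) (F : Raw) (nf : NF F) (hF : RawOK κ F) (hb : BalOK κ C1 F nf) (a : ℕ) (ha : F.j0 ≤ a) (t0 z0 : ℂ) (i : ℕ) :
    ∃ K : ℝ, ∀ᶠ s : ℂ in 𝓝 0,
      ‖hpl F a (s * t0, s * z0) i - (s * t0, s * (nf.ell a / nf.ell (a + i) * z0), (0 : F.A (a + i)))‖ ≤ K * ‖s‖ ^ 2 := by
  induction i with
  | zero =>
    refine ⟨0, Eventually.of_forall fun s => ?_⟩
    have h : nf.ell a / nf.ell (a + 0) = 1 := div_self (nf_ell_le hb ha).2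
    rw [h]
    simp [hpl]
  | succ i ih =>
    obtain ⟨K, hK⟩ := ih
    have hj : F.j0 ≤ a + i := ha.trans (Nat.le_add_right a i)
    set B : ℝ := ‖t0‖ + ‖nf.ell a / nf.ell (a + i) * z0‖ with hB
    have hB0 : 0 ≤ B := by positivity
    have hC := κ.hC
    refine ⟨κ.C * (B + |K|) ^ 2 + (2 + κ.C) * |K|, ?_⟩
    filter_upwards [hK, jet_ev_lt (c := B + |K|) κ.hρ, jet_ev_le (c := 1) one_pos] with s h1 h2 h3
    rw [one_mul] at h3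
    have hs0 := norm_nonneg s
    set Y : ℂ × ℂ × F.A (a + i) := (s * t0, s * (nf.ell a / nf.ell (a + i) * z0), (0 : F.A (a + i))) with hY
    have hYn : ‖Y‖ ≤ B * ‖s‖ := by
      refine nf_norm_le ?_ ?_ ?_
      · rw [norm_mul, hB]; nlinarith [norm_nonneg t0, norm_nonneg (nf.ell a / nf.ell (a + i) * z0)]
      · rw [norm_mul, hB]; nlinarith [norm_nonneg t0, norm_nonneg (nf.ell a / nf.ell (a + i) * z0)]
      · rw [norm_zero]; positivity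
    have hd : ‖hpl F a (s * t0, s * z0) i - Y‖ ≤ |K| * ‖s‖ ^ 2 :=
      h1.trans (mul_le_mul_of_nonneg_right (le_abs_self K) (by positivity))
    have hXn : ‖hpl F a (s * t0, s * z0) i‖ ≤ (B + |K|) * ‖s‖ := by
      calc ‖hpl F a (s * t0, s * z0) i‖ = ‖Y + (hpl F a (s * t0, s * z0) i - Y)‖ := by congr 1; abel
        _ ≤ ‖Y‖ + ‖hpl F a (s * t0, s * z0) i - Y‖ := norm_add_le _ _
        _ ≤ B * ‖s‖ + |K| * ‖s‖ ^ 2 := add_le_add hYn hd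
        _ ≤ (B + |K|) * ‖s‖ := by nlinarith [abs_nonneg K, mul_nonneg (abs_nonneg K) hs0]
    have hmem : hpl F a (s * t0, s * z0) i ∈ Metric.ball (0 : ℂ × ℂ × F.A (a + i)) κ.ρ := by
      rw [mem_ball_zero_iff]; exact hXn.trans_lt h2
    have hstep := jet_step1 hF hj hmem Y
    have hlin : F.lin (a + i) Y = (s * t0, s * (nf.ell a / nf.ell (a + (i + 1)) * z0), (0 : F.A (a + (i + 1)))) := by
      rw [hY, jet_lin_slice]
      have := jet_zeta_succ hb hj (nf.ell a)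
      have e : F.lam (a + i) * (s * (nf.ell a / nf.ell (a + i) * z0)) = s * (nf.ell a / nf.ell (a + i + 1) * z0) := by
        rw [← this]; ring
      rw [e]
      rfl
    rw [hlin] at hstep
    refine (show _ ≤ _ from hstep).trans ?_
    have h4 : ‖hpl F a (s * t0, s * z0) i‖ ^ 2 ≤ ((B + |K|) * ‖s‖) ^ 2 := pow_le_pow_left₀ (norm_nonneg _) hXn 2
    calc κ.C * ‖hpl F a (s * t0, s * z0) i‖ ^ 2 + (2 + κ.C) * ‖hpl F a (s * t0, s * z0) i - Y‖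
        ≤ κ.C * ((B + |K|) * ‖s‖) ^ 2 + (2 + κ.C) * (|K| * ‖s‖ ^ 2) := by gcongr
      _ = _ := by ring

/-- the history is `≤ 4 |s|` eventually -/
theorem jet_norm4 {κ : RawC} {C1 : ℝ} {F : Raw} {nf : NF F} (hF : RawOK κ F) (hb : BalOK κ C1 F nf) {a : ℕ} (ha : F.j0 ≤ a)
    {t0 z0 : ℂ} (ht : ‖t0‖ ≤ 1) (hz : ‖z0‖ ≤ 1) (i : ℕ) :
    ∀ᶠ s : ℂ in 𝓝 0, ‖hpl F a (s * t0, s * z0) i‖ ≤ 4 * ‖s‖ := by
  obtain ⟨K, hK⟩ := jet_first κ C1 F nf hF hb a ha t0 z0 i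
  have hj : F.j0 ≤ a + i := ha.trans (Nat.le_add_right a i)
  filter_upwards [hK, jet_ev_le (c := |K|) one_pos] with s h1 h2
  have hs0 := norm_nonneg s
  set Y : ℂ × ℂ × F.A (a + i) := (s * t0, s * (nf.ell a / nf.ell (a + i) * z0), (0 : F.A (a + i))) with hY
  have hζ := jet_zeta_le hb ha hj
  have hYn : ‖Y‖ ≤ 3 * ‖s‖ := by
    refine nf_norm_le ?_ ?_ ?_
    · rw [norm_mul]; nlinarith
    · rw [norm_mul, norm_mul]
      have : ‖nf.ell a / nf.ell (a + i)‖ * ‖z0‖ ≤ 3 * 1 := mul_le_mul hζ hz (norm_nonneg _) (by norm_num)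
      nlinarith
    · rw [norm_zero]; positivity
  have hd : ‖hpl F a (s * t0, s * z0) i - Y‖ ≤ |K| * ‖s‖ ^ 2 :=
    h1.trans (mul_le_mul_of_nonneg_right (le_abs_self K) (by positivity))
  calc ‖hpl F a (s * t0, s * z0) i‖ = ‖Y + (hpl F a (s * t0, s * z0) i - Y)‖ := by congr 1; abel
    _ ≤ ‖Y‖ + ‖hpl F a (s * t0, s * z0) i - Y‖ := norm_add_le _ _
    _ ≤ 3 * ‖s‖ + |K| * ‖s‖ ^ 2 := add_le_add hYn hd
    _ ≤ 4 * ‖s‖ := by nlinarith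

/-- the uniform constant of (J2) -/
def jetK2 (κ : RawC) : ℝ := 16 * κ.C / (1 - κ.θ)

theorem jetK2_nonneg (κ : RawC) : 0 ≤ jetK2 κ := by
  have h1 := κ.hC
  have h2 := κ.hθ
  unfold jetK2
  exact div_nonneg (by linarith) (by linarith)

theorem jetK2_eq (κ : RawC) : κ.θ * jetK2 κ + 16 * κ.C = jetK2 κ := by
  have h2 : (1 - κ.θ) ≠ 0 := by have := κ.hθ; intro h; linarith
  unfold jetK2
  field_simp
  ring

theorem jet_remR {κ : RawC} {C1 : ℝ} {F : Raw} {nf : NF F} (hF : RawOK κ F) (hb : BalOK κ C1 F nf) {a : ℕ} (ha : F.j0 ≤ a)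
    {t0 z0 : ℂ} (ht : ‖t0‖ ≤ 1) (hz : ‖z0‖ ≤ 1) (i : ℕ) :
    ∀ᶠ s : ℂ in 𝓝 0, ‖(hpl F a (s * t0, s * z0) i).2.2‖ ≤ jetK2 κ * ‖s‖ ^ 2 := by
  induction i with
  | zero =>
    refine Eventually.of_forall fun s => ?_
    have := jetK2_nonneg κ
    simp only [hpl, norm_zero]
    positivity
  | succ i ih =>
    have hj : F.j0 ≤ a + i := ha.trans (Nat.le_add_right a i)
    filter_upwards [ih, jet_norm4 hF hb ha ht hz i, jet_ev_lt (c := 4) κ.hρ] with s h1 h2 h3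
    have hmem : hpl F a (s * t0, s * z0) i ∈ Metric.ball (0 : ℂ × ℂ × F.A (a + i)) κ.ρ := by
      rw [mem_ball_zero_iff]; exact h2.trans_lt h3
    have hq := hF.quad (a + i) hj _ hmem
    have h4 := (nf_trd_le _).trans hq
    have h5 : ‖F.Cc (a + i) (hpl F a (s * t0, s * z0) i).2.2‖ ≤ κ.θ * (jetK2 κ * ‖s‖ ^ 2) :=
      ((F.Cc (a + i)).le_opNorm _).trans (mul_le_mul (hF.Cc_bd _ hj) h1 (norm_nonneg _) κ.hθ0.le)
    have h6 : ‖hpl F a (s * t0, s * z0) i‖ ^ 2 ≤ (4 * ‖s‖) ^ 2 := pow_le_pow_left₀ (norm_nonneg _) h2 2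
    have hC := κ.hC
    show ‖(F.Φ (a + i) (hpl F a (s * t0, s * z0) i)).2.2‖ ≤ _
    calc ‖(F.Φ (a + i) (hpl F a (s * t0, s * z0) i)).2.2‖
        = ‖F.Cc (a + i) (hpl F a (s * t0, s * z0) i).2.2
            + (F.Φ (a + i) (hpl F a (s * t0, s * z0) i) - F.lin (a + i) (hpl F a (s * t0, s * z0) i)).2.2‖ := by
          congr 1
          simp [Raw.lin]
      _ ≤ κ.θ * (jetK2 κ * ‖s‖ ^ 2) + κ.C * ‖hpl F a (s * t0, s * z0) i‖ ^ 2 := (norm_add_le _ _).trans (add_le_add h5 h4)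
      _ ≤ κ.θ * (jetK2 κ * ‖s‖ ^ 2) + κ.C * (4 * ‖s‖) ^ 2 := by gcongr
      _ = (κ.θ * jetK2 κ + 16 * κ.C) * ‖s‖ ^ 2 := by ring
      _ = _ := by rw [jetK2_eq]

theorem jet_remT {κ : RawC} {C1 : ℝ} {F : Raw} {nf : NF F} {𝒯 : Tor} (hF : RawOK κ F) (hb : BalOK κ C1 F nf) (hT : TorOK κ F.j0 𝒯)
    {a h : ℕ} (ha : F.j0 ≤ a) {t0 z0 : ℂ} (ht : ‖t0‖ ≤ 1) (hz : ‖z0‖ ≤ 1) (i : ℕ) (hi : a + i ≤ h) :
    ∀ᶠ s : ℂ in 𝓝 0, ‖htr F 𝒯 a h (s * t0, s * z0) i‖ ≤ jetK2 κ * ‖s‖ ^ 2 := by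
  induction i with
  | zero =>
    refine Eventually.of_forall fun s => ?_
    have := jetK2_nonneg κ
    simp only [htr, norm_zero]
    positivity
  | succ i ih =>
    have hj : F.j0 ≤ a + i := ha.trans (Nat.le_add_right a i)
    have hlt : a + i < h := hi
    filter_upwards [ih hlt.le, jet_norm4 hF hb ha ht hz i, jet_ev_lt (c := 4) κ.hρ, jet_ev_le (c := jetK2 κ) (r := 4) (by norm_num)]
      with s h1 h2 h3 h4
    have hs0 := norm_nonneg s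
    have hn : ‖hts F 𝒯 a h (s * t0, s * z0) i‖ ≤ 4 * ‖s‖ := by
      unfold hts
      rw [Prod.norm_def, Prod.norm_def]
      refine max_le (max_le ((nf_fst_le _).trans h2) ((nf_snd_le _).trans h2)) (h1.trans ?_)
      nlinarith
    have hmem : hts F 𝒯 a h (s * t0, s * z0) i ∈ Metric.ball (0 : (ℂ × ℂ) × 𝒯.T (a + i) h) κ.ρ := by
      rw [mem_ball_zero_iff]; exact hn.trans_lt h3
    have hq := hT.Ψ_bd (a + i) h hj hlt _ hmem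
    have h6 : ‖hts F 𝒯 a h (s * t0, s * z0) i‖ ^ 2 ≤ (4 * ‖s‖) ^ 2 := pow_le_pow_left₀ (norm_nonneg _) hn 2
    have hC := κ.hC
    have hθ := κ.hθ0
    show ‖𝒯.Ψ (a + i) h (hts F 𝒯 a h (s * t0, s * z0) i)‖ ≤ _
    calc ‖𝒯.Ψ (a + i) h (hts F 𝒯 a h (s * t0, s * z0) i)‖
        ≤ κ.θ * ‖htr F 𝒯 a h (s * t0, s * z0) i‖ + κ.C * ‖hts F 𝒯 a h (s * t0, s * z0) i‖ ^ 2 := hq
      _ ≤ κ.θ * (jetK2 κ * ‖s‖ ^ 2) + κ.C * (4 * ‖s‖) ^ 2 := by gcongr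
      _ = (κ.θ * jetK2 κ + 16 * κ.C) * ‖s‖ ^ 2 := by ring
      _ = _ := by rw [jetK2_eq]

/-- **(J2)** the remainders are `O(|s|²)` with a UNIFORM constant -/
theorem jet_rem (κ : RawC) (C1 : ℝ) : ∃ K2 : ℝ, 0 ≤ K2 ∧ ∀ (F : Raw) (nf : NF F) (𝒯 : Tor), RawOK κ F → BalOK κ C1 F nf → TorOK κ F.j0 𝒯 →
    ∀ (a h : ℕ), F.j0 ≤ a → ∀ (t0 z0 : ℂ), ‖t0‖ ≤ 1 → ‖z0‖ ≤ 1 → ∀ i : ℕ, a + i ≤ h → ∀ᶠ s : ℂ in 𝓝 0,
      ‖hpl F a (s * t0, s * z0) i‖ ≤ 4 * ‖s‖ ∧ ‖(hpl F a (s * t0, s * z0) i).2.2‖ ≤ K2 * ‖s‖ ^ 2 ∧ ‖htr F 𝒯 a h (s * t0, s * z0) i‖ ≤ K2 * ‖s‖ ^ 2 := by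
  refine ⟨jetK2 κ, jetK2_nonneg κ, fun F nf 𝒯 hF hb hT a h ha t0 z0 ht hz i hi => ?_⟩
  filter_upwards [jet_norm4 hF hb ha ht hz i, jet_remR hF hb ha ht hz i, jet_remT hF hb hT ha ht hz i hi] with s h1 h2 h3
  exact ⟨h1, h2, h3⟩

section kit3

variable {κ : RawC} {C1 : ℝ} {F : Raw} {nf : NF F}

theorem jet_Tb_lin (hb : BalOK κ C1 F nf) {j : ℕ} (hj : F.j0 ≤ j) (X : ℂ × ℂ × F.A j) :
    nf.Tb (j + 1) (F.lin j X) = nf.Tb j X := by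
  unfold NF.Tb Raw.lin
  simp only [hb.bt_rec j hj X.2.2]
  ring

/-- Lipschitz bound for the nonlinear part -/
theorem jet_h_diff (hF : RawOK κ F) {j : ℕ} (hj : F.j0 ≤ j) {X Y : ℂ × ℂ × F.A j} (h : 2 * (‖Y‖ + ‖X - Y‖) < κ.ρ) :
    ‖(F.Φ j X - F.lin j X) - (F.Φ j Y - F.lin j Y)‖ ≤ 8 * κ.C * (‖Y‖ + ‖X - Y‖) * ‖X - Y‖ := by
  have hd : DifferentiableOn ℂ (fun X => F.Φ j X - F.lin j X) (Metric.ball 0 κ.ρ) :=
    (hF.an j hj).sub (jet_lin_diff j).differentiableOn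
  have := sw_diff (h := fun X => F.Φ j X - F.lin j X) hd (hF.quad j hj) (p := Y) (v := X - Y) h
  simpa using this

theorem jet_Tb_step (hF : RawOK κ F) (hb : BalOK κ C1 F nf) {j : ℕ} (hj : F.j0 ≤ j) {X Y : ℂ × ℂ × F.A j}
    (h : 2 * (‖Y‖ + ‖X - Y‖) < κ.ρ) :
    ‖nf.Tb (j + 1) (F.Φ j X) - nf.Tb j X - (nf.Tb (j + 1) (F.Φ j Y) - nf.Tb j Y)‖
      ≤ (2 + C1) * (8 * κ.C * (‖Y‖ + ‖X - Y‖) * ‖X - Y‖) := by
  have hj1 : F.j0 ≤ j + 1 := hj.trans (Nat.le_succ j)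
  have h1 := cf_Tb_le hb hj1 ((F.Φ j X - F.lin j X) - (F.Φ j Y - F.lin j Y))
  rw [cf_Tb_sub, cf_Tb_sub, cf_Tb_sub, jet_Tb_lin hb hj, jet_Tb_lin hb hj] at h1
  have hC := cf_C1_nonneg hb
  exact h1.trans (mul_le_mul_of_nonneg_left (jet_h_diff hF hj h) (by linarith))

theorem jet_Zb_step (hF : RawOK κ F) (hb : BalOK κ C1 F nf) {j : ℕ} (hj : F.j0 ≤ j) {X Y : ℂ × ℂ × F.A j}
    (h : 2 * (‖Y‖ + ‖X - Y‖) < κ.ρ) :
    ‖nf.Zb (j + 1) (F.Φ j X) - nf.Zb j X - (nf.Zb (j + 1) (F.Φ j Y) - nf.Zb j Y)‖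
      ≤ (2 + C1) * (8 * κ.C * (‖Y‖ + ‖X - Y‖) * ‖X - Y‖) := by
  have hj1 : F.j0 ≤ j + 1 := hj.trans (Nat.le_succ j)
  have h1 := cf_Zb_le hb hj1 ((F.Φ j X - F.lin j X) - (F.Φ j Y - F.lin j Y))
  rw [cf_Zb_sub, cf_Zb_sub, cf_Zb_sub, cf_Zb_lin hb hj, cf_Zb_lin hb hj] at h1
  have hC := cf_C1_nonneg hb
  exact h1.trans (mul_le_mul_of_nonneg_left (jet_h_diff hF hj h) (by linarith))

/-- the bound of the balanced scalars of `Φ` on the slices -/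
def jetM (κ : RawC) (C1 : ℝ) : ℝ := (2 + C1) * ((2 + κ.C) * κ.ρ + κ.C * κ.ρ ^ 2)

/-- the expansion which defines `b^{zz}` -/
theorem jet_exp_zz (hF : RawOK κ F) (hb : BalOK κ C1 F nf) {j : ℕ} (hj : F.j0 ≤ j) :
    ∀ Z ∈ Metric.ball (0 : ℂ) (κ.ρ / 2),
      ‖nf.Tb (j + 1) (F.Φ j (0, Z / nf.ell j, 0)) - nf.bzz j * Z ^ 2‖ ≤ 16 * jetM κ C1 * (‖Z‖ / (κ.ρ / 2)) ^ 3 := by
  have hj1 : F.j0 ≤ j + 1 := hj.trans (Nat.le_succ j)
  have hρ := κ.hρ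
  have hR : 0 < κ.ρ / 2 := by linarith
  have hC := cf_C1_nonneg hb
  obtain ⟨P, hP⟩ : ∃ P : ℂ → ℂ, P = fun Z : ℂ => nf.Tb (j + 1) (F.Φ j (0, Z / nf.ell j, 0)) := ⟨_, rfl⟩
  have hd : DifferentiableOn ℂ P (Metric.ball 0 (κ.ρ / 2)) := by
    rw [hP]
    refine cf_Tb_diff ((hF.an j hj).comp (f := fun Z : ℂ => ((0 : ℂ), Z / nf.ell j, (0 : F.A j))) (by fun_prop) ?_)
    intro Z hZ
    exact cf_slice_mem hb hj (Metric.mem_ball_self hR) hZ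
  have hM : ∀ Z ∈ Metric.ball (0 : ℂ) (κ.ρ / 2), ‖P Z‖ ≤ jetM κ C1 := by
    intro Z hZ
    rw [hP]
    exact (cf_Tb_le hb hj1 _).trans
      (mul_le_mul_of_nonneg_left (cf_Phi_bd hF hj (cf_slice_mem hb hj (Metric.mem_ball_self hR) hZ)) (by linarith))
  have hq : ∀ μ : ℂ, ‖μ‖ < κ.ρ / 2 → ‖P μ‖ ≤ ((2 + C1) * κ.C * 4) * ‖μ‖ ^ 2 := by
    intro μ hμ
    have hmem := cf_slice_mem (F := F) hb hj (Metric.mem_ball_self hR) (mem_ball_zero_iff.2 hμ)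
    have h1 := cf_Tb_le hb hj1 (F.Φ j (0, μ / nf.ell j, 0) - F.lin j (0, μ / nf.ell j, 0))
    rw [cf_Tb_sub, jet_Tb_lin hb hj] at h1
    have h2 : nf.Tb j ((0 : ℂ), μ / nf.ell j, (0 : F.A j)) = 0 := by simp [NF.Tb]
    rw [h2, sub_zero] at h1
    have h3 := hF.quad j hj _ hmem
    have h4 : ‖(((0 : ℂ), μ / nf.ell j, (0 : F.A j)) : ℂ × ℂ × F.A j)‖ ≤ 2 * ‖μ‖ :=
      nf_norm_le (by rw [norm_zero]; positivity) (cf_div_le hb hj μ) (by rw [norm_zero]; positivity)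
    have h5 : ‖(((0 : ℂ), μ / nf.ell j, (0 : F.A j)) : ℂ × ℂ × F.A j)‖ ^ 2 ≤ (2 * ‖μ‖) ^ 2 :=
      pow_le_pow_left₀ (norm_nonneg _) h4 2
    have hCk := κ.hC
    rw [hP]
    calc _ ≤ (2 + C1) * ‖F.Φ j (0, μ / nf.ell j, 0) - F.lin j (0, μ / nf.ell j, 0)‖ := h1
      _ ≤ (2 + C1) * (κ.C * (2 * ‖μ‖) ^ 2) := by gcongr; exact h3.trans (by gcongr)
      _ = _ := by ring
  have hP0 : P 0 = 0 := by
    have := hq 0 (by simpa using hR)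
    simpa using this
  have hP1 : deriv P 0 = 0 := nf_deriv_zero hR hq
  have hbzz : nf.bzz j = (1 / 2) * iteratedDeriv 2 P 0 := by rw [hP]; rfl
  intro Z hZ
  have ht := sw_taylor3 hR hd hM Z hZ
  rw [hP0, hP1] at ht
  simp only [smul_eq_mul, mul_zero, sub_zero] at ht
  have e : nf.Tb (j + 1) (F.Φ j (0, Z / nf.ell j, 0)) - nf.bzz j * Z ^ 2 = P Z - Z ^ 2 / 2 * iteratedDeriv 2 P 0 := by
    rw [hbzz, hP]; ring
  rw [e]
  exact ht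

/-- the expansion which defines `b^{tz}` -/
theorem jet_exp_tz (hF : RawOK κ F) (hb : BalOK κ C1 F nf) {j : ℕ} (hj : F.j0 ≤ j) :
    ∀ u ∈ Metric.ball (0 : ℂ) (κ.ρ / 2), ∀ Z ∈ Metric.ball (0 : ℂ) (κ.ρ / 2),
      ‖nf.Zb (j + 1) (F.Φ j (u, Z / nf.ell j, 0)) - Z - nf.btz j * u * Z‖
        ≤ 64 * jetM κ C1 / (κ.ρ / 2) ^ 3 * (‖u‖ + ‖Z‖) ^ 2 * ‖Z‖ := by
  have hj1 : F.j0 ≤ j + 1 := hj.trans (Nat.le_succ j)
  have hρ := κ.hρ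
  have hR : 0 < κ.ρ / 2 := by linarith
  have hl0 := (nf_ell_le hb hj).2
  have hC := cf_C1_nonneg hb
  obtain ⟨P, hP⟩ : ∃ P : ℂ → ℂ → ℂ, P = fun t Z : ℂ => nf.Zb (j + 1) (F.Φ j (t, Z / nf.ell j, 0)) := ⟨_, rfl⟩
  have h1 : ∀ μ ∈ Metric.ball (0 : ℂ) (κ.ρ / 2), DifferentiableOn ℂ (fun l => P l μ) (Metric.ball 0 (κ.ρ / 2)) := by
    intro μ hμ
    rw [hP]
    refine cf_Zb_diff ((hF.an j hj).comp (f := fun l : ℂ => (l, μ / nf.ell j, (0 : F.A j))) (by fun_prop) ?_)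
    intro l hl
    exact cf_slice_mem hb hj hl hμ
  have h2 : ∀ l ∈ Metric.ball (0 : ℂ) (κ.ρ / 2), DifferentiableOn ℂ (fun μ => P l μ) (Metric.ball 0 (κ.ρ / 2)) := by
    intro l hl
    rw [hP]
    refine cf_Zb_diff ((hF.an j hj).comp (f := fun μ : ℂ => (l, μ / nf.ell j, (0 : F.A j))) (by fun_prop) ?_)
    intro μ hμ
    exact cf_slice_mem hb hj hl hμ
  have hM : ∀ l ∈ Metric.ball (0 : ℂ) (κ.ρ / 2), ∀ μ ∈ Metric.ball (0 : ℂ) (κ.ρ / 2), ‖P l μ‖ ≤ jetM κ C1 := by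
    intro l hl μ hμ
    rw [hP]
    exact (cf_Zb_le hb hj1 _).trans
      (mul_le_mul_of_nonneg_left (cf_Phi_bd hF hj (cf_slice_mem hb hj hl hμ)) (by linarith))
  have hodd : ∀ l ∈ Metric.ball (0 : ℂ) (κ.ρ / 2), ∀ μ ∈ Metric.ball (0 : ℂ) (κ.ρ / 2), P l (-μ) = -P l μ := by
    intro l hl μ hμ
    rw [hP]
    show nf.Zb (j + 1) (F.Φ j (l, -μ / nf.ell j, 0)) = -nf.Zb (j + 1) (F.Φ j (l, μ / nf.ell j, 0))
    rw [neg_div, ← cf_S_slice, hF.par j hj _ (cf_slice_mem hb hj hl hμ), cf_Zb_S hb hj1]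
  have ht := sw_odd hR h1 h2 hM hodd
  have hbtz : deriv (fun l => deriv (fun μ => P l μ) 0) 0 = nf.btz j := by rw [hP]; rfl
  rw [hbtz] at ht
  have hq : ∀ μ : ℂ, ‖μ‖ < κ.ρ / 2 → ‖P 0 μ - μ‖ ≤ ((2 + C1) * κ.C * 4) * ‖μ‖ ^ 2 := by
    intro μ hμ
    have hmem := cf_slice_mem (F := F) hb hj (Metric.mem_ball_self hR) (mem_ball_zero_iff.2 hμ)
    have h1 := cf_Zb_le hb hj1 (F.Φ j (0, μ / nf.ell j, 0) - F.lin j (0, μ / nf.ell j, 0))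
    rw [cf_Zb_sub, cf_Zb_lin hb hj] at h1
    have h2 : nf.Zb j ((0 : ℂ), μ / nf.ell j, (0 : F.A j)) = μ := by
      simp only [NF.Zb, map_zero, add_zero]
      field_simp
    rw [h2] at h1
    have h3 := hF.quad j hj _ hmem
    have h4 : ‖(((0 : ℂ), μ / nf.ell j, (0 : F.A j)) : ℂ × ℂ × F.A j)‖ ≤ 2 * ‖μ‖ :=
      nf_norm_le (by rw [norm_zero]; positivity) (cf_div_le hb hj μ) (by rw [norm_zero]; positivity)
    have h5 : ‖(((0 : ℂ), μ / nf.ell j, (0 : F.A j)) : ℂ × ℂ × F.A j)‖ ^ 2 ≤ (2 * ‖μ‖) ^ 2 :=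
      pow_le_pow_left₀ (norm_nonneg _) h4 2
    have hCk := κ.hC
    rw [hP]
    calc _ ≤ (2 + C1) * ‖F.Φ j (0, μ / nf.ell j, 0) - F.lin j (0, μ / nf.ell j, 0)‖ := h1
      _ ≤ (2 + C1) * (κ.C * (2 * ‖μ‖) ^ 2) := by gcongr; exact h3.trans (by gcongr)
      _ = _ := by ring
  have hP1 : deriv (fun μ => P 0 μ) 0 = 1 := by
    have h3 := nf_deriv_zero (f := fun μ => P 0 μ - μ) hR hq
    have h4 : DifferentiableAt ℂ (fun μ => P 0 μ) 0 :=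
      (h2 0 (Metric.mem_ball_self hR)).differentiableAt (Metric.isOpen_ball.mem_nhds (Metric.mem_ball_self hR))
    have h5 : deriv (fun μ => P 0 μ - μ) 0 = deriv (fun μ => P 0 μ) 0 - 1 := by
      exact (h4.hasDerivAt.sub (hasDerivAt_id (0 : ℂ))).deriv
    rw [h5] at h3
    linear_combination h3
  rw [hP1] at ht
  intro u hu Z hZ
  have := ht u hu Z hZ
  rw [one_mul, hP] at this
  exact this

end kit3

theorem jetM_nonneg {κ : RawC} {C1 : ℝ} (hC : 0 ≤ C1) : 0 ≤ jetM κ C1 := by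
  have h1 := κ.hC
  have h2 := κ.hρ
  unfold jetM
  positivity

/-- **(J3), `zz`** -/
theorem jet_acc_zz (κ : RawC) (C1 : ℝ) (F : Raw) (nf : NF F) (hF : RawOK κ F) (hb : BalOK κ C1 F nf) (a : ℕ) (ha : F.j0 ≤ a) (i : ℕ) :
    ∃ K : ℝ, ∀ᶠ s : ℂ in 𝓝 0,
      ‖nf.Tb (a + i) (hpl F a (0, s) i) - (nf.ell a * s) ^ 2 * ∑ k ∈ Finset.range i, nf.bzz (a + k)‖ ≤ K * ‖s‖ ^ 3 := by
  induction i with
  | zero =>
    refine ⟨0, Eventually.of_forall fun s => ?_⟩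
    simp [hpl, NF.Tb]
  | succ i ih =>
    obtain ⟨K, hK⟩ := ih
    obtain ⟨K1, hK1⟩ := jet_first κ C1 F nf hF hb a ha 0 1 i
    simp only [mul_zero, mul_one] at hK1
    have hj : F.j0 ≤ a + i := ha.trans (Nat.le_add_right a i)
    have hC := cf_C1_nonneg hb
    have hCk := κ.hC
    have hρ := κ.hρ
    have hR : 0 < κ.ρ / 2 := by linarith
    have hM := jetM_nonneg (κ := κ) hC
    have hl0 := (nf_ell_le hb hj).2
    refine ⟨K + (2 + C1) * (8 * κ.C * (3 + |K1|) * |K1|) + 16 * jetM κ C1 * (2 / (κ.ρ / 2)) ^ 3, ?_⟩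
    filter_upwards [hK, hK1, jet_ev_le (c := 1) one_pos, jet_ev_lt (c := 2 * (3 + |K1|)) hρ, jet_ev_lt (c := 2) hR]
      with s h1 h2 h3 h4 h5
    rw [one_mul] at h3
    have hs0 := norm_nonneg s
    set X := hpl F a (0, s) i with hX
    set Y : ℂ × ℂ × F.A (a + i) := (0, s * (nf.ell a / nf.ell (a + i)), (0 : F.A (a + i))) with hY
    set Z : ℂ := nf.ell a * s with hZ
    have hYn : ‖Y‖ ≤ 3 * ‖s‖ := by
      refine nf_norm_le (by rw [norm_zero]; positivity) ?_ (by rw [norm_zero]; positivity)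
      rw [norm_mul]
      nlinarith [jet_zeta_le hb ha hj]
    have hd : ‖X - Y‖ ≤ |K1| * ‖s‖ ^ 2 := h2.trans (mul_le_mul_of_nonneg_right (le_abs_self K1) (by positivity))
    have hd' : ‖X - Y‖ ≤ |K1| * ‖s‖ := hd.trans (by nlinarith [abs_nonneg K1, mul_nonneg (abs_nonneg K1) hs0])
    have hsm : 2 * (‖Y‖ + ‖X - Y‖) < κ.ρ := by nlinarith
    have hst := jet_Tb_step hF hb hj hsm
    have hZn : ‖Z‖ ≤ 2 * ‖s‖ := by
      rw [hZ, norm_mul]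
      nlinarith [jet_ell_le hb ha]
    have hYZ : Y = (0, Z / nf.ell (a + i), 0) := by
      rw [hY, hZ]
      congr 2
      ring
    have hex := jet_exp_zz hF hb hj Z (mem_ball_zero_iff.2 (hZn.trans_lt h5))
    rw [← hYZ] at hex
    have hTY : nf.Tb (a + i) Y = 0 := by simp [hY, NF.Tb]
    rw [hTY, sub_zero] at hst
    show ‖nf.Tb (a + i + 1) (F.Φ (a + i) X) - Z ^ 2 * ∑ k ∈ Finset.range (i + 1), nf.bzz (a + k)‖ ≤ _
    rw [Finset.sum_range_succ]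
    have e : nf.Tb (a + i + 1) (F.Φ (a + i) X) - Z ^ 2 * (∑ k ∈ Finset.range i, nf.bzz (a + k) + nf.bzz (a + i))
        = (nf.Tb (a + i) X - Z ^ 2 * ∑ k ∈ Finset.range i, nf.bzz (a + k))
          + (nf.Tb (a + i + 1) (F.Φ (a + i) X) - nf.Tb (a + i) X - nf.Tb (a + i + 1) (F.Φ (a + i) Y))
          + (nf.Tb (a + i + 1) (F.Φ (a + i) Y) - nf.bzz (a + i) * Z ^ 2) := by ring
    rw [e]
    have b1 : (2 + C1) * (8 * κ.C * (‖Y‖ + ‖X - Y‖) * ‖X - Y‖)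
        ≤ (2 + C1) * (8 * κ.C * ((3 + |K1|) * ‖s‖) * (|K1| * ‖s‖ ^ 2)) := by
      have : ‖Y‖ + ‖X - Y‖ ≤ (3 + |K1|) * ‖s‖ := by linarith
      gcongr
    have b2 : 16 * jetM κ C1 * (‖Z‖ / (κ.ρ / 2)) ^ 3 ≤ 16 * jetM κ C1 * (2 * ‖s‖ / (κ.ρ / 2)) ^ 3 := by gcongr
    calc _ ≤ K * ‖s‖ ^ 3 + (2 + C1) * (8 * κ.C * ((3 + |K1|) * ‖s‖) * (|K1| * ‖s‖ ^ 2))
          + 16 * jetM κ C1 * (2 * ‖s‖ / (κ.ρ / 2)) ^ 3 :=
        (norm_add₃_le).trans (add_le_add (add_le_add h1 (hst.trans b1)) (hex.trans b2))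
      _ = _ := by rw [mul_div_right_comm, mul_pow]; ring

/-- **(J3), `tz`** -/
theorem jet_acc_tz (κ : RawC) (C1 : ℝ) (F : Raw) (nf : NF F) (hF : RawOK κ F) (hb : BalOK κ C1 F nf) (a : ℕ) (ha : F.j0 ≤ a) (i : ℕ) :
    ∃ K : ℝ, ∀ᶠ s : ℂ in 𝓝 0,
      ‖nf.Zb (a + i) (hpl F a (s, s) i) - nf.ell a * (s + s ^ 2 * ∑ k ∈ Finset.range i, nf.btz (a + k))‖ ≤ K * ‖s‖ ^ 3 := by
  induction i with
  | zero =>
    refine ⟨0, Eventually.of_forall fun s => ?_⟩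
    simp [hpl, NF.Zb]
  | succ i ih =>
    obtain ⟨K, hK⟩ := ih
    obtain ⟨K1, hK1⟩ := jet_first κ C1 F nf hF hb a ha 1 1 i
    simp only [mul_one] at hK1
    have hj : F.j0 ≤ a + i := ha.trans (Nat.le_add_right a i)
    have hC := cf_C1_nonneg hb
    have hCk := κ.hC
    have hρ := κ.hρ
    have hR : 0 < κ.ρ / 2 := by linarith
    have hM := jetM_nonneg (κ := κ) hC
    have hl0 := (nf_ell_le hb hj).2
    refine ⟨K + (2 + C1) * (8 * κ.C * (3 + |K1|) * |K1|) + 64 * jetM κ C1 / (κ.ρ / 2) ^ 3 * 18, ?_⟩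
    filter_upwards [hK, hK1, jet_ev_le (c := 1) one_pos, jet_ev_lt (c := 2 * (3 + |K1|)) hρ, jet_ev_lt (c := 2) hR]
      with s h1 h2 h3 h4 h5
    rw [one_mul] at h3
    have hs0 := norm_nonneg s
    set X := hpl F a (s, s) i with hX
    set Y : ℂ × ℂ × F.A (a + i) := (s, s * (nf.ell a / nf.ell (a + i)), (0 : F.A (a + i))) with hY
    set Z : ℂ := nf.ell a * s with hZ
    have hYn : ‖Y‖ ≤ 3 * ‖s‖ := by
      refine nf_norm_le (by linarith) ?_ (by rw [norm_zero]; positivity)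
      rw [norm_mul]
      nlinarith [jet_zeta_le hb ha hj]
    have hd : ‖X - Y‖ ≤ |K1| * ‖s‖ ^ 2 := h2.trans (mul_le_mul_of_nonneg_right (le_abs_self K1) (by positivity))
    have hd' : ‖X - Y‖ ≤ |K1| * ‖s‖ := hd.trans (by nlinarith [abs_nonneg K1, mul_nonneg (abs_nonneg K1) hs0])
    have hsm : 2 * (‖Y‖ + ‖X - Y‖) < κ.ρ := by nlinarith
    have hst := jet_Zb_step hF hb hj hsm
    have hZn : ‖Z‖ ≤ 2 * ‖s‖ := by
      rw [hZ, norm_mul]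
      nlinarith [jet_ell_le hb ha]
    have hYZ : Y = (s, Z / nf.ell (a + i), 0) := by
      rw [hY, hZ]
      congr 2
      ring
    have hex := jet_exp_tz hF hb hj s (mem_ball_zero_iff.2 (by linarith)) Z (mem_ball_zero_iff.2 (hZn.trans_lt h5))
    rw [← hYZ] at hex
    have hTY : nf.Zb (a + i) Y = Z := by
      simp only [hY, hZ, NF.Zb, map_zero, add_zero]
      field_simp
    rw [hTY] at hst
    show ‖nf.Zb (a + i + 1) (F.Φ (a + i) X) - nf.ell a * (s + s ^ 2 * ∑ k ∈ Finset.range (i + 1), nf.btz (a + k))‖ ≤ _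
    rw [Finset.sum_range_succ]
    have e : nf.Zb (a + i + 1) (F.Φ (a + i) X) - nf.ell a * (s + s ^ 2 * (∑ k ∈ Finset.range i, nf.btz (a + k) + nf.btz (a + i)))
        = (nf.Zb (a + i) X - nf.ell a * (s + s ^ 2 * ∑ k ∈ Finset.range i, nf.btz (a + k)))
          + (nf.Zb (a + i + 1) (F.Φ (a + i) X) - nf.Zb (a + i) X - (nf.Zb (a + i + 1) (F.Φ (a + i) Y) - Z))
          + (nf.Zb (a + i + 1) (F.Φ (a + i) Y) - Z - nf.btz (a + i) * s * Z) := by rw [hZ]; ring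
    rw [e]
    have b1 : (2 + C1) * (8 * κ.C * (‖Y‖ + ‖X - Y‖) * ‖X - Y‖)
        ≤ (2 + C1) * (8 * κ.C * ((3 + |K1|) * ‖s‖) * (|K1| * ‖s‖ ^ 2)) := by
      have : ‖Y‖ + ‖X - Y‖ ≤ (3 + |K1|) * ‖s‖ := by linarith
      gcongr
    have b2 : 64 * jetM κ C1 / (κ.ρ / 2) ^ 3 * (‖s‖ + ‖Z‖) ^ 2 * ‖Z‖
        ≤ 64 * jetM κ C1 / (κ.ρ / 2) ^ 3 * (‖s‖ + 2 * ‖s‖) ^ 2 * (2 * ‖s‖) := by gcongr
    calc _ ≤ K * ‖s‖ ^ 3 + (2 + C1) * (8 * κ.C * ((3 + |K1|) * ‖s‖) * (|K1| * ‖s‖ ^ 2))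
          + 64 * jetM κ C1 / (κ.ρ / 2) ^ 3 * (‖s‖ + 2 * ‖s‖) ^ 2 * (2 * ‖s‖) :=
        (norm_add₃_le).trans (add_le_add (add_le_add h1 (hst.trans b1)) (hex.trans b2))
      _ = _ := by ring

/-- division by `|s|^n` and `s → 0` -/
theorem jet_lim {A : ℂ} {B K : ℝ} (n : ℕ) (h : ∀ᶠ s : ℂ in 𝓝 0, ‖A * s ^ n‖ ≤ B * ‖s‖ ^ n + K * ‖s‖ ^ (n + 1)) : ‖A‖ ≤ B := by
  have h1 : Tendsto (fun s : ℂ => B + K * ‖s‖) (𝓝[≠] 0) (𝓝 B) := by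
    have hc : Continuous (fun s : ℂ => B + K * ‖s‖) := by fun_prop
    have h2 := hc.tendsto 0
    simp only [norm_zero, mul_zero, add_zero] at h2
    exact h2.mono_left nhdsWithin_le_nhds
  refine ge_of_tendsto h1 ?_
  filter_upwards [h.filter_mono nhdsWithin_le_nhds, self_mem_nhdsWithin] with s hs hs0
  have hp : 0 < ‖s‖ ^ n := pow_pos (norm_pos_iff.2 hs0) n
  rw [norm_mul, norm_pow] at hs
  have h3 : ‖A‖ * ‖s‖ ^ n ≤ (B + K * ‖s‖) * ‖s‖ ^ n := hs.trans_eq (by ring)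
  exact le_of_mul_le_mul_right h3 hp

/-- the stopped state: size, membership, remainders -/
theorem jet_stop {κ : RawC} {C1 : ℝ} {F : Raw} {nf : NF F} {𝒯 : Tor} (hF : RawOK κ F) (hb : BalOK κ C1 F nf) (hT : TorOK κ F.j0 𝒯)
    {a : ℕ} (ha : F.j0 ≤ a) {t0 z0 : ℂ} (ht : ‖t0‖ ≤ 1) (hz : ‖z0‖ ≤ 1) (d : ℕ) :
    ∀ᶠ s : ℂ in 𝓝 0, hst F 𝒯 a d (s * t0, s * z0) ∈ Metric.ball (0 : (ℂ × ℂ) × 𝒯.T (a + d) (a + d)) κ.ρ ∧
      ‖hst F 𝒯 a d (s * t0, s * z0)‖ ≤ 4 * ‖s‖ ∧ ‖(hst F 𝒯 a d (s * t0, s * z0)).2‖ ≤ jetK2 κ * ‖s‖ ^ 2 ∧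
      ‖(hpl F a (s * t0, s * z0) d).2.2‖ ≤ jetK2 κ * ‖s‖ ^ 2 := by
  filter_upwards [jet_norm4 hF hb ha ht hz d, jet_remR hF hb ha ht hz d, jet_remT hF hb hT ha ht hz d le_rfl,
    jet_ev_lt (c := 4) κ.hρ, jet_ev_le (c := jetK2 κ) (r := 4) (by norm_num)] with s h1 h2 h3 h4 h5
  have hs0 := norm_nonneg s
  have hn : ‖hst F 𝒯 a d (s * t0, s * z0)‖ ≤ 4 * ‖s‖ := by
    unfold hst hts
    rw [Prod.norm_def, Prod.norm_def]
    refine max_le (max_le ((nf_fst_le _).trans h1) ((nf_snd_le _).trans h1)) (h3.trans ?_)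
    nlinarith
  exact ⟨mem_ball_zero_iff.2 (hn.trans_lt h4), hn, h3, h2⟩

/-- **JET, `zz`**: the accumulated `b^{zz}` is the `s²`-coefficient of the gradient read-out, up to a uniform `O(1)` -/
theorem jet_zz (κ : RawC) (C1 : ℝ) : ∃ C : ℝ, ∀ (F : Raw) (nf : NF F) (𝒯 : Tor), RawOK κ F → BalOK κ C1 F nf → TorOK κ F.j0 𝒯 →
    ∀ (a d : ℕ), F.j0 ≤ a → ∀ (r2 : ℂ) (K : ℝ), (∀ᶠ s : ℂ in 𝓝 0, ‖𝒯.rV (a + d) (hst F 𝒯 a d (0, s)) - r2 * s ^ 2‖ ≤ K * ‖s‖ ^ 3) →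
      ‖(𝒯.kV (a + d) : ℂ) * nf.ell a ^ 2 * ∑ k ∈ Finset.range d, nf.bzz (a + k) - r2‖ ≤ C * (1 + 𝒯.kV (a + d)) := by
  refine ⟨C1 * jetK2 κ + κ.C * (jetK2 κ + 16), fun F nf 𝒯 hF hb hT a d ha r2 K hexp => ?_⟩
  have hj : F.j0 ≤ a + d := ha.trans (Nat.le_add_right a d)
  have hC := cf_C1_nonneg hb
  have hCk := κ.hC
  have hK2 := jetK2_nonneg κ
  have hkV : 0 ≤ 𝒯.kV (a + d) := le_trans (by positivity) (hT.kV_bd (a + d) hj)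
  obtain ⟨K3, hK3⟩ := jet_acc_zz κ C1 F nf hF hb a ha d
  have hstop := jet_stop (t0 := 0) (z0 := 1) hF hb hT ha (by simp) (by simp) d
  simp only [mul_zero, mul_one] at hstop
  have key : ‖(𝒯.kV (a + d) : ℂ) * nf.ell a ^ 2 * ∑ k ∈ Finset.range d, nf.bzz (a + k) - r2‖
      ≤ 𝒯.kV (a + d) * (C1 * jetK2 κ) + κ.C * (jetK2 κ + 16) := by
    refine jet_lim (K := 𝒯.kV (a + d) * K3 + K) 2 ?_
    filter_upwards [hexp, hK3, hstop] with s h1 h2 h3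
    obtain ⟨hm, hn, hτ, hR⟩ := h3
    have hrV := hT.rV_bd (a + d) hj _ hm
    have hs0 := norm_nonneg s
    set X := hpl F a (0, s) d with hX
    set S := ∑ k ∈ Finset.range d, nf.bzz (a + k) with hS
    have h11 : (hst F 𝒯 a d (0, s)).1.1 = nf.Tb (a + d) X - nf.bt (a + d) X.2.2 := by
      simp [hst, hts, NF.Tb, hX]
    rw [h11] at hrV
    have hbt : ‖nf.bt (a + d) X.2.2‖ ≤ C1 * (jetK2 κ * ‖s‖ ^ 2) :=
      ((nf.bt (a + d)).le_opNorm _).trans (mul_le_mul (hb.bt_bd _ hj) hR (norm_nonneg _) hC)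
    have hnk : ‖(𝒯.kV (a + d) : ℂ)‖ = 𝒯.kV (a + d) := by rw [Complex.norm_real, Real.norm_eq_abs, abs_of_nonneg hkV]
    have e : ((𝒯.kV (a + d) : ℂ) * nf.ell a ^ 2 * S - r2) * s ^ 2
        = -((𝒯.kV (a + d) : ℂ) * (nf.Tb (a + d) X - (nf.ell a * s) ^ 2 * S)) + (𝒯.kV (a + d) : ℂ) * nf.bt (a + d) X.2.2
          + (-(𝒯.rV (a + d) (hst F 𝒯 a d (0, s)) - (𝒯.kV (a + d) : ℂ) * (nf.Tb (a + d) X - nf.bt (a + d) X.2.2))
          + (𝒯.rV (a + d) (hst F 𝒯 a d (0, s)) - r2 * s ^ 2)) := by ring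
    rw [e]
    have hn2 : ‖hst F 𝒯 a d (0, s)‖ ^ 2 ≤ (4 * ‖s‖) ^ 2 := pow_le_pow_left₀ (norm_nonneg _) hn 2
    calc _ ≤ 𝒯.kV (a + d) * (K3 * ‖s‖ ^ 3) + 𝒯.kV (a + d) * (C1 * (jetK2 κ * ‖s‖ ^ 2))
          + (κ.C * (jetK2 κ * ‖s‖ ^ 2 + (4 * ‖s‖) ^ 2) + K * ‖s‖ ^ 3) := by
          refine (norm_add_le _ _).trans (add_le_add ((norm_add_le _ _).trans (add_le_add ?_ ?_))
            ((norm_add_le _ _).trans (add_le_add ?_ h1)))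
          · rw [norm_neg, norm_mul, hnk]
            exact mul_le_mul_of_nonneg_left h2 hkV
          · rw [norm_mul, hnk]
            exact mul_le_mul_of_nonneg_left hbt hkV
          · rw [norm_neg]
            refine hrV.trans ?_
            gcongr
      _ = _ := by ring
  refine key.trans ?_
  have h1 : 0 ≤ C1 * jetK2 κ := mul_nonneg hC hK2
  have h2 : 0 ≤ κ.C * (jetK2 κ + 16) := by positivity
  nlinarith

/-- **JET, `tz`**: the accumulated `b^{tz}` is the ratio of the `s²`- and `s`-coefficients of a phase read-out, up to a uniform `O(1)` -/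
theorem jet_tz (κ : RawC) (C1 : ℝ) : ∃ C : ℝ, ∀ (F : Raw) (nf : NF F) (𝒯 : Tor), RawOK κ F → BalOK κ C1 F nf → TorOK κ F.j0 𝒯 →
    ∀ (rP : ∀ h, (ℂ × ℂ) × 𝒯.T h h → ℂ) (kP : ℕ → ℝ),
      (∀ h, F.j0 ≤ h → ∀ X ∈ Metric.ball (0 : (ℂ × ℂ) × 𝒯.T h h) κ.ρ, ‖rP h X - kP h * X.1.2‖ ≤ κ.C * (‖X.2‖ + ‖X‖ ^ 2)) →
    ∀ (a d : ℕ), F.j0 ≤ a → ∀ (p1 p2 : ℂ) (K : ℝ), (∀ᶠ s : ℂ in 𝓝 0, ‖rP (a + d) (hst F 𝒯 a d (s, s)) - (p1 * s + p2 * s ^ 2)‖ ≤ K * ‖s‖ ^ 3) →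
      p1 = kP (a + d) * nf.ell a / nf.ell (a + d) ∧
      ‖p1 * ∑ k ∈ Finset.range d, nf.btz (a + k) - p2‖ ≤ C * (1 + |kP (a + d)|) := by
  refine ⟨2 * (C1 * jetK2 κ) + κ.C * (jetK2 κ + 16), fun F nf 𝒯 hF hb hT rP kP hP a d ha p1 p2 K hexp => ?_⟩
  have hj : F.j0 ≤ a + d := ha.trans (Nat.le_add_right a d)
  have hC := cf_C1_nonneg hb
  have hCk := κ.hC
  have hK2 := jetK2_nonneg κ
  have hl0 := (nf_ell_le hb hj).2
  obtain ⟨K3, hK3⟩ := jet_acc_tz κ C1 F nf hF hb a ha d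
  have hstop := jet_stop (t0 := 1) (z0 := 1) hF hb hT ha (by simp) (by simp) d
  simp only [mul_one] at hstop
  set S := ∑ k ∈ Finset.range d, nf.btz (a + k) with hS
  set q : ℂ := kP (a + d) * nf.ell a / nf.ell (a + d) with hq
  set B : ℝ := |kP (a + d)| * (2 * (C1 * jetK2 κ)) + κ.C * (jetK2 κ + 16) with hB
  set K' : ℝ := |kP (a + d)| * (2 * |K3|) + K with hK'
  -- the basic estimate
  have main : ∀ᶠ s : ℂ in 𝓝 0, ‖(p1 - q) * s + (p2 - q * S) * s ^ 2‖ ≤ B * ‖s‖ ^ 2 + K' * ‖s‖ ^ 3 := by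
    filter_upwards [hexp, hK3, hstop] with s h1 h2 h3
    obtain ⟨hm, hn, hτ, hR⟩ := h3
    have hrP := hP (a + d) hj _ hm
    have hs0 := norm_nonneg s
    set X := hpl F a (s, s) d with hX
    have h12 : (hst F 𝒯 a d (s, s)).1.2 = (nf.Zb (a + d) X - nf.bz (a + d) X.2.2) / nf.ell (a + d) := by
      simp only [hst, hts, NF.Zb, ← hX]
      field_simp
      ring
    rw [h12] at hrP
    have hbz : ‖nf.bz (a + d) X.2.2‖ ≤ C1 * (jetK2 κ * ‖s‖ ^ 2) :=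
      ((nf.bz (a + d)).le_opNorm _).trans (mul_le_mul (hb.bz_bd _ hj) hR (norm_nonneg _) hC)
    have hnk : ‖(kP (a + d) : ℂ)‖ = |kP (a + d)| := by rw [Complex.norm_real, Real.norm_eq_abs]
    have e : (p1 - q) * s + (p2 - q * S) * s ^ 2
        = (kP (a + d) : ℂ) * ((nf.Zb (a + d) X - nf.ell a * (s + s ^ 2 * S)) / nf.ell (a + d))
          + -((kP (a + d) : ℂ) * (nf.bz (a + d) X.2.2 / nf.ell (a + d)))
          + ((rP (a + d) (hst F 𝒯 a d (s, s)) - (kP (a + d) : ℂ) * ((nf.Zb (a + d) X - nf.bz (a + d) X.2.2) / nf.ell (a + d)))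
          + -(rP (a + d) (hst F 𝒯 a d (s, s)) - (p1 * s + p2 * s ^ 2))) := by
      rw [hq]
      field_simp
      ring
    rw [e]
    have hn2 : ‖hst F 𝒯 a d (s, s)‖ ^ 2 ≤ (4 * ‖s‖) ^ 2 := pow_le_pow_left₀ (norm_nonneg _) hn 2
    have h2' : ‖nf.Zb (a + d) X - nf.ell a * (s + s ^ 2 * S)‖ ≤ |K3| * ‖s‖ ^ 3 :=
      h2.trans (mul_le_mul_of_nonneg_right (le_abs_self K3) (by positivity))
    calc _ ≤ |kP (a + d)| * (2 * (|K3| * ‖s‖ ^ 3)) + |kP (a + d)| * (2 * (C1 * (jetK2 κ * ‖s‖ ^ 2)))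
          + (κ.C * (jetK2 κ * ‖s‖ ^ 2 + (4 * ‖s‖) ^ 2) + K * ‖s‖ ^ 3) := by
          refine (norm_add_le _ _).trans (add_le_add ((norm_add_le _ _).trans (add_le_add ?_ ?_))
            ((norm_add_le _ _).trans (add_le_add ?_ ?_)))
          · rw [norm_mul, hnk]
            refine mul_le_mul_of_nonneg_left ((cf_div_le hb hj _).trans ?_) (abs_nonneg _)
            linarith
          · rw [norm_neg, norm_mul, hnk]
            refine mul_le_mul_of_nonneg_left ((cf_div_le hb hj _).trans ?_) (abs_nonneg _)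
            linarith
          · refine hrP.trans ?_
            gcongr
          · rw [norm_neg]; exact h1
      _ = _ := by rw [hB, hK']; ring
  -- first order
  have hp1 : p1 = q := by
    have h0 : ‖p1 - q‖ ≤ 0 := by
      refine jet_lim (K := |B| + |K'| + ‖p2 - q * S‖) 1 ?_
      filter_upwards [main, jet_ev_le (c := 1) one_pos] with s h1 h2
      rw [one_mul] at h2
      have hs0 := norm_nonneg s
      have e : (p1 - q) * s ^ 1 = ((p1 - q) * s + (p2 - q * S) * s ^ 2) - (p2 - q * S) * s ^ 2 := by ring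
      rw [e]
      have h3 : ‖(p2 - q * S) * s ^ 2‖ = ‖p2 - q * S‖ * ‖s‖ ^ 2 := by rw [norm_mul, norm_pow]
      have h4 : B * ‖s‖ ^ 2 ≤ |B| * ‖s‖ ^ 2 := mul_le_mul_of_nonneg_right (le_abs_self B) (by positivity)
      have h5 : K' * ‖s‖ ^ 3 ≤ |K'| * ‖s‖ ^ 2 := by
        have h6 : K' * ‖s‖ ^ 3 ≤ |K'| * ‖s‖ ^ 3 := mul_le_mul_of_nonneg_right (le_abs_self K') (by positivity)
        have h7 : ‖s‖ ^ 3 ≤ ‖s‖ ^ 2 := pow_le_pow_of_le_one hs0 h2 (by norm_num)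
        exact h6.trans (mul_le_mul_of_nonneg_left h7 (abs_nonneg _))
      calc _ ≤ ‖(p1 - q) * s + (p2 - q * S) * s ^ 2‖ + ‖(p2 - q * S) * s ^ 2‖ := norm_sub_le _ _
        _ ≤ (|B| * ‖s‖ ^ 2 + |K'| * ‖s‖ ^ 2) + ‖p2 - q * S‖ * ‖s‖ ^ 2 := by rw [h3]; linarith
        _ = _ := by ring
    exact sub_eq_zero.1 (norm_le_zero_iff.1 h0)
  refine ⟨hp1, ?_⟩
  have key : ‖p2 - q * S‖ ≤ B := by
    refine jet_lim (K := K') 2 ?_
    filter_upwards [main] with s h1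
    rw [hp1, sub_self, zero_mul, zero_add] at h1
    exact h1
  rw [hp1, norm_sub_rev]
  refine key.trans ?_
  have h1 : 0 ≤ C1 * jetK2 κ := mul_nonneg hC hK2
  have h2 : 0 ≤ κ.C * (jetK2 κ + 16) := by positivity
  have h3 := abs_nonneg (kP (a + d))
  rw [hB]
  nlinarith

end

end Claimed.Agent.R285.B10
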